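import Mathlib

/-!
# P198 (Cannon's conjecture): common definitions for Part A

Everything is stated for an abstract group action satisfying the axioms `QM`
(uniformly quasi-Moebius, cocompact on triples, discrete).
-/

open Metric Set TopologicalSpace
open scoped Classical

namespace P198Q

/-! ## Combinatorial 2-modulus of an abstract finite hypergraph -/

section Modulus

variable {β α : Type*}

/-- `rho`-length of the curve `K`: sum of `ρ` over the cells of `V` hit by `K`. -/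
noncomputable def len (V : Finset β) (hit : β → α → Prop) (ρ : β → ℝ) (K : α) : ℝ :=
  ∑ v ∈ V with hit v K, ρ v

/-- admissible weights. -/
def Adm (V : Finset β) (hit : β → α → Prop) (F : Set α) (ρ : β → ℝ) : Prop :=
  (∀ v, 0 ≤ ρ v) ∧ ∀ K ∈ F, 1 ≤ len V hit ρ K

noncomputable def energy (V : Finset β) (ρ : β → ℝ) : ℝ := ∑ v ∈ V, ρ v ^ 2

/-- combinatorial 2-modulus. -/
noncomputable def md (V : Finset β) (hit : β → α → Prop) (F : Set α) : ℝ :=
  sInf {e | ∃ ρ, Adm V hit F ρ ∧ e = energy V ρ}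

/-- finitely supported probability measures. -/
structure Flow (α : Type*) where
  supp : Finset α
  w : α → ℝ
  pos : ∀ K ∈ supp, 0 < w K
  sum_one : ∑ K ∈ supp, w K = 1

/-- mass of the leaves hitting a cell. -/
noncomputable def Flow.mass (μ : Flow α) (hit : β → α → Prop) (v : β) : ℝ :=
  ∑ K ∈ μ.supp with hit v K, μ.w K

/-- mass of the leaves satisfying a predicate. -/
noncomputable def Flow.pr (μ : Flow α) (p : α → Prop) : ℝ :=
  ∑ K ∈ μ.supp with p K, μ.w K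

end Modulus

/-! ## Cells in a metric space -/

section Cells

variable {Z : Type*} [MetricSpace Z]

/-- scale of level `k`. -/
noncomputable def sc (k : ℕ) : ℝ := (1 / 2 : ℝ) ^ k

/-- the closed ball of radius `r` about `v` meets `K`. -/
def hitB (r : ℝ) (v : Z) (K : NonemptyCompacts Z) : Prop := (closedBall v r ∩ (K : Set Z)).Nonempty

/-- cells of level `k` are the closed balls of radius `2^-k` about net points. -/
def hit (k : ℕ) (v : Z) (K : NonemptyCompacts Z) : Prop := hitB (sc k) v K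

/-- a sequence of maximal separated nets. -/
structure IsNet (N : ℕ → Finset Z) : Prop where
  sep : ∀ k, ∀ x ∈ N k, ∀ y ∈ N k, x ≠ y → sc k ≤ dist x y
  cov : ∀ k, ∀ x : Z, ∃ v ∈ N k, dist x v ≤ sc k

/-- doubling with explicit polynomial counting: a `2^-(k+l)`-separated finite set in a ball of radius
`R 2^-k` has at most `D R * 2^(Q l)` points. -/
def Doubling (Z : Type*) [MetricSpace Z] (D : ℝ → ℝ) (Q : ℕ) : Prop :=
  ∀ (R : ℝ) (k l : ℕ) (x : Z) (S : Finset Z), 0 < R →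
    (∀ a ∈ S, dist a x ≤ R * sc k) → (∀ a ∈ S, ∀ b ∈ S, a ≠ b → sc (k + l) ≤ dist a b) →
    (S.card : ℝ) ≤ D R * 2 ^ (Q * l)

/-- continua of diameter at least `t`. -/
def contDiam (Z : Type*) [MetricSpace Z] (t : ℝ) : Set (NonemptyCompacts Z) :=
  {K | IsConnected (K : Set Z) ∧ t ≤ diam (K : Set Z)}

end Cells

/-! ## The group action -/

/-- The axioms (Q1)-(Q4): `m g x = max (s g) (dist x (ζ g))`. -/
structure QM (G Z : Type*) [Group G] [MetricSpace Z] [MulAction G Z] where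
  C : ℝ
  one_le_C : 1 ≤ C
  s : G → ℝ
  ζ : G → Z
  s_pos : ∀ g, 0 < s g
  s_le_one : ∀ g, s g ≤ 1
  s_inv : ∀ g, s g⁻¹ = s g
  q1_upper : ∀ g (x y : Z), dist (g • x) (g • y) * (max (s g) (dist x (ζ g)) * max (s g) (dist y (ζ g)))
      ≤ C * (s g * dist x y)
  q1_lower : ∀ g (x y : Z), s g * dist x y ≤
      C * (dist (g • x) (g • y) * (max (s g) (dist x (ζ g)) * max (s g) (dist y (ζ g))))
  q2_upper : ∀ g (x : Z), max (s g) (dist (g • x) (ζ g⁻¹)) * max (s g) (dist x (ζ g)) ≤ C * s g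
  q2_lower : ∀ g (x : Z), s g ≤ C * (max (s g) (dist (g • x) (ζ g⁻¹)) * max (s g) (dist x (ζ g)))
  q3 : ∀ T : ℝ, ∃ n : ℕ, ∀ g : G,
      {g' : G | s g ≤ T * s g' ∧ s g' ≤ T * s g ∧ dist (ζ g) (ζ g') ≤ T * s g}.Finite ∧
      {g' : G | s g ≤ T * s g' ∧ s g' ≤ T * s g ∧ dist (ζ g) (ζ g') ≤ T * s g}.ncard ≤ n
  q4 : ∀ (x : Z) (r : ℝ), 0 < r → r ≤ 1 → ∃ g : G, s g ≤ C * r ∧ r ≤ C * s g ∧ dist x (ζ g) ≤ C * r

namespace QM
variable {G Z : Type*} [Group G] [MetricSpace Z] [MulAction G Z]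
/-- `m_g(x)` -/
noncomputable def m (q : QM G Z) (g : G) (x : Z) : ℝ := max (q.s g) (dist x (q.ζ g))
end QM

/-! ## Topological input -/

section Top
variable {Z : Type*} [MetricSpace Z]

/-- A `K_{3,3}` configuration of continua. -/
structure K33 (P W : Fin 3 → Set Z) (E : Fin 3 → Fin 3 → Set Z) : Prop where
  P_compact : ∀ i, IsCompact (P i)
  P_conn : ∀ i, IsConnected (P i)
  W_compact : ∀ i, IsCompact (W i)
  W_conn : ∀ i, IsConnected (W i)
  E_compact : ∀ n i, IsCompact (E n i)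
  E_conn : ∀ n i, IsConnected (E n i)
  PP : ∀ i j, i ≠ j → Disjoint (P i) (P j)
  WW : ∀ n m, n ≠ m → Disjoint (W n) (W m)
  PW : ∀ i n, Disjoint (P i) (W n)
  EE : ∀ n i n' i', (n, i) ≠ (n', i') → Disjoint (E n i) (E n' i')
  EP : ∀ n i, (E n i ∩ P i).Nonempty
  EW : ∀ n i, (E n i ∩ W n).Nonempty
  EP' : ∀ n i j, i ≠ j → Disjoint (E n i) (P j)
  EW' : ∀ n m i, n ≠ m → Disjoint (E n i) (W m)

/-- The topological facts about `Z` (all true for `Z` homeomorphic to the 2-sphere). -/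
structure Planar (Z : Type*) [MetricSpace Z] : Prop where
  t1 : ∀ ε : ℝ, 0 < ε → ∃ δ : ℝ, 0 < δ ∧ ∀ x y : Z, dist x y < δ →
      ∃ K : Set Z, IsCompact K ∧ IsConnected K ∧ x ∈ K ∧ y ∈ K ∧ diam K < ε
  t2 : ∀ t : ℝ, 0 < t → ∃ c : ℝ, 0 < c ∧ ∀ x : Z, ∃ Ω : Set Z, IsCompact Ω ∧ IsConnected Ω ∧
      Disjoint Ω (ball x c) ∧ diam (Ωᶜ) < t
  t3 : ∀ (P W : Fin 3 → Set Z) (E : Fin 3 → Fin 3 → Set Z), ¬ K33 P W E

end Top

/-! ## Leaf families (output of steps A1-A3, input of A4-A7) -/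

section Leaf
variable {G Z : Type*} [Group G] [MetricSpace Z] [MulAction G Z]

/-- leaves of diameter `≥ t` -/
def big (B : Set (NonemptyCompacts Z)) (t : ℝ) : Set (NonemptyCompacts Z) :=
  {K | K ∈ B ∧ t ≤ diam (K : Set Z)}

structure LeafFamily (G : Type*) {Z : Type*} [Group G] [MetricSpace Z] [MulAction G Z]
    (N : ℕ → Finset Z) (B : Set (NonemptyCompacts Z)) (t c : ℝ) : Prop where
  tpos : 0 < t
  cpos : 0 < c
  conn : ∀ K ∈ B, IsConnected (K : Set Z)
  inv : ∀ (g : G), ∀ K ∈ B, ∀ K' : NonemptyCompacts Z, (K' : Set Z) = (fun x => g • x) '' K → K' ∈ B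
  perturb : ∀ (n : ℕ) (K : Fin n → NonemptyCompacts Z), (∀ i, K i ∈ B) → ∀ ε : ℝ, 0 < ε →
      ∃ K' : Fin n → NonemptyCompacts Z, (∀ i, IsConnected (K' i : Set Z)) ∧
        (∀ i, dist (K' i) (K i) < ε) ∧ ∀ i j, i ≠ j → Disjoint (K' i : Set Z) (K' j : Set Z)
  md_ge : ∀ k, c ≤ md (N k) (hit k) (big B t)

end Leaf

end P198Q
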