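import Vale.Agent.P198.Q.Defs

/-!
# Boundary bumping and hyperspace facts (block BB)
-/

open Metric Set TopologicalSpace

namespace P198Q

/-- Boundary bumping in a compact metric space. -/
theorem boundary_bumping {Z : Type*} [MetricSpace Z] [CompactSpace Z] (K : Set Z) (hK : IsCompact K)
    (hc : IsConnected K) (x : Z) (hx : x ∈ K) (c : Z) (r : ℝ) (hxr : dist x c < r)
    (hne : ∃ y ∈ K, r ≤ dist y c) :
    ∃ K' : Set Z, K' ⊆ K ∧ IsCompact K' ∧ IsConnected K' ∧ x ∈ K' ∧ (∀ y ∈ K', dist y c ≤ r) ∧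
      ∃ y ∈ K', r ≤ dist y c := by
  set A : Set Z := K ∩ closedBall c r with hA
  have hAc : IsCompact A := hK.inter_right isClosed_closedBall
  have : CompactSpace A := isCompact_iff_compactSpace.1 hAc
  have hxA : x ∈ A := ⟨hx, by simpa using hxr.le⟩
  set a : A := ⟨x, hxA⟩ with ha
  refine ⟨Subtype.val '' (connectedComponent a), ?_, ?_, ?_, ?_, ?_, ?_⟩
  · rintro _ ⟨y, -, rfl⟩
    exact y.2.1
  · exact (isClosed_connectedComponent.isCompact).image continuous_subtype_val
  · exact isConnected_connectedComponent.image _ continuous_subtype_val.continuousOn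
  · exact ⟨a, mem_connectedComponent, rfl⟩
  · rintro _ ⟨y, -, rfl⟩
    exact y.2.2
  · by_contra hcon
    push Not at hcon
    have hopen : IsOpen {y : A | dist (y : Z) c < r} :=
      isOpen_lt (continuous_subtype_val.dist continuous_const) continuous_const
    have : Nonempty {s : Set A // IsClopen s ∧ a ∈ s} := ⟨⟨univ, isClopen_univ, mem_univ _⟩⟩
    obtain ⟨⟨V, hV, haV⟩, hVU⟩ := exists_subset_nhds_of_isCompact'
      (V := fun s : {s : Set A // IsClopen s ∧ a ∈ s} => (s : Set A))
      (U := {y : A | dist (y : Z) c < r}) (by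
        intro s t
        exact ⟨⟨s.1 ∩ t.1, s.2.1.inter t.2.1, s.2.2, t.2.2⟩, inter_subset_left, inter_subset_right⟩)
      (fun s => s.2.1.isClosed.isCompact) (fun s => s.2.1.isClosed) (by
        intro y hy
        rw [← connectedComponent_eq_iInter_isClopen] at hy
        exact hopen.mem_nhds (hcon y ⟨y, hy, rfl⟩))
    -- the image of `V` is clopen in `K`
    obtain ⟨y, hyK, hyr⟩ := hne
    have hVK : Subtype.val '' V ⊆ K := by
      rintro _ ⟨z, -, rfl⟩
      exact z.2.1
    have hVclosed : IsClosed (Subtype.val '' V : Set Z) :=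
      ((hV.isClosed.isCompact).image continuous_subtype_val).isClosed
    obtain ⟨O, hO, hOV⟩ := isOpen_induced_iff.1 hV.isOpen
    -- open set in `Z`
    have h1 : K ∩ (O ∩ ball c r) = Subtype.val '' V := by
      ext z
      constructor
      · rintro ⟨hz, hzO, hzb⟩
        have hzA : z ∈ A := ⟨hz, ball_subset_closedBall hzb⟩
        refine ⟨⟨z, hzA⟩, ?_, rfl⟩
        rw [← hOV]
        exact hzO
      · rintro ⟨z, hz, rfl⟩
        refine ⟨z.2.1, ?_, hVU hz⟩
        rw [← hOV] at hz
        exact hz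
    have hpre := hc.isPreconnected
    obtain ⟨z, hzK, hz1, hz2⟩ := hpre (O ∩ ball c r) ((Subtype.val '' V)ᶜ)
      (hO.inter isOpen_ball) hVclosed.isOpen_compl (by
        intro z hz
        by_cases hzV : z ∈ Subtype.val '' V
        · left
          rw [← h1] at hzV
          exact hzV.2
        · exact Or.inr hzV)
      ⟨x, by
        have : x ∈ K ∩ (O ∩ ball c r) := by
          rw [h1]
          exact ⟨a, haV, rfl⟩
        exact this⟩
      ⟨y, hyK, by
        rintro ⟨z, hz, hzy⟩
        have h3 : dist (z : Z) c < r := hVU hz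
        rw [hzy] at h3
        linarith⟩
    exact hz2 (h1 ▸ ⟨hzK, hz1⟩)

section Hyper

variable {Z : Type*} [MetricSpace Z]

theorem exists_dist_lt_of_dist_lt {K K' : NonemptyCompacts Z} {r : ℝ} (h : dist K K' < r) {x : Z}
    (hx : x ∈ (K : Set Z)) : ∃ y ∈ (K' : Set Z), dist x y < r := by
  rw [NonemptyCompacts.dist_eq] at h
  exact exists_dist_lt_of_hausdorffDist_lt hx h
    (hausdorffEDist_ne_top_of_nonempty_of_bounded K.nonempty K'.nonempty K.isCompact.isBounded
      K'.isCompact.isBounded)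

theorem dist_lt_of_forall {K K' : NonemptyCompacts Z} {r : ℝ} (hr : 0 < r)
    (h1 : ∀ x ∈ (K : Set Z), ∃ y ∈ (K' : Set Z), dist x y ≤ r)
    (h2 : ∀ y ∈ (K' : Set Z), ∃ x ∈ (K : Set Z), dist y x ≤ r) : dist K K' ≤ r := by
  rw [NonemptyCompacts.dist_eq]
  exact hausdorffDist_le_of_mem_dist hr.le h1 h2

/-- connectedness passes to limits. -/
theorem isConnected_of_forall_near (K : NonemptyCompacts Z)
    (h : ∀ ε : ℝ, 0 < ε → ∃ K' : NonemptyCompacts Z, IsConnected (K' : Set Z) ∧ dist K' K < ε) :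
    IsConnected (K : Set Z) := by
  refine ⟨K.nonempty, ?_⟩
  by_contra hcon
  rw [isPreconnected_iff_subset_of_disjoint] at hcon
  push Not at hcon
  obtain ⟨U, V, hU, hV, hKUV, hdisj, hnU, hnV⟩ := hcon
  obtain ⟨x, hxK, hxU⟩ := not_subset.1 hnU
  obtain ⟨y, hyK, hyV⟩ := not_subset.1 hnV
  have hA : IsCompact ((K : Set Z) \ V) := K.isCompact.diff hV
  have hB : IsCompact ((K : Set Z) \ U) := K.isCompact.diff hU
  have hAB : Disjoint ((K : Set Z) \ V) ((K : Set Z) \ U) := by
    rw [Set.disjoint_left]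
    rintro z ⟨hz, hzV⟩ ⟨-, hzU⟩
    rcases hKUV hz with h | h
    · exact hzU h
    · exact hzV h
  obtain ⟨δ, hδ, hth⟩ := hAB.exists_thickenings hA hB.isClosed
  obtain ⟨K', hK', hd⟩ := h δ hδ
  have hsub : (K' : Set Z) ⊆ thickening δ ((K : Set Z) \ V) ∪ thickening δ ((K : Set Z) \ U) := by
    intro z hz
    obtain ⟨w, hw, hzw⟩ := exists_dist_lt_of_dist_lt hd hz
    by_cases hwV : w ∈ V
    · right
      rw [mem_thickening_iff]
      refine ⟨w, ⟨hw, ?_⟩, hzw⟩
      intro hwU
      have : w ∈ (K : Set Z) ∩ (U ∩ V) := ⟨hw, hwU, hwV⟩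
      rw [hdisj] at this
      exact this
    · left
      rw [mem_thickening_iff]
      exact ⟨w, ⟨hw, hwV⟩, hzw⟩
  have hd' : dist K K' < δ := by rwa [dist_comm]
  obtain ⟨z, -, hz1, hz2⟩ := hK'.isPreconnected _ _ isOpen_thickening isOpen_thickening hsub
    (by
      obtain ⟨w, hw, hyw⟩ := exists_dist_lt_of_dist_lt hd' hyK
      refine ⟨w, hw, ?_⟩
      rw [mem_thickening_iff]
      exact ⟨y, ⟨hyK, hyV⟩, by rwa [dist_comm]⟩)
    (by
      obtain ⟨w, hw, hxw⟩ := exists_dist_lt_of_dist_lt hd' hxK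
      refine ⟨w, hw, ?_⟩
      rw [mem_thickening_iff]
      exact ⟨x, ⟨hxK, hxU⟩, by rwa [dist_comm]⟩)
  exact Set.disjoint_left.1 hth hz1 hz2

theorem isClosed_setOf_isConnected :
    IsClosed {K : NonemptyCompacts Z | IsConnected (K : Set Z)} := by
  rw [← closure_subset_iff_isClosed]
  intro K hK
  refine isConnected_of_forall_near K fun ε hε => ?_
  obtain ⟨K', hK', hd⟩ := Metric.mem_closure_iff.1 hK ε hε
  exact ⟨K', hK', by rwa [dist_comm]⟩

theorem diam_le_add_dist (K K' : NonemptyCompacts Z) :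
    diam (K : Set Z) ≤ diam (K' : Set Z) + 2 * dist K K' := by
  refine le_of_forall_pos_le_add fun ε hε => ?_
  refine diam_le_of_forall_dist_le ?_ ?_
  · have := diam_nonneg (s := (K' : Set Z))
    have := dist_nonneg (x := K) (y := K')
    linarith
  · intro x hx y hy
    have hlt : dist K K' < dist K K' + ε / 2 := by linarith
    obtain ⟨x', hx', hxx⟩ := exists_dist_lt_of_dist_lt hlt hx
    obtain ⟨y', hy', hyy⟩ := exists_dist_lt_of_dist_lt hlt hy
    have h1 : dist x' y' ≤ diam (K' : Set Z) := dist_le_diam_of_mem K'.isCompact.isBounded hx' hy'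
    have h2 := dist_triangle4 x x' y' y
    rw [dist_comm y' y] at h2
    linarith

theorem abs_diam_sub_le (K K' : NonemptyCompacts Z) :
    |diam (K : Set Z) - diam (K' : Set Z)| ≤ 2 * dist K K' := by
  have h1 := diam_le_add_dist K K'
  have h2 := diam_le_add_dist K' K
  rw [dist_comm K' K] at h2
  rw [abs_le]
  constructor <;> linarith

theorem continuous_diam : Continuous (fun K : NonemptyCompacts Z => diam (K : Set Z)) := by
  refine continuous_iff_continuousAt.2 fun K => ?_
  rw [Metric.continuousAt_iff]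
  intro ε hε
  refine ⟨ε / 2, by linarith, fun {K'} hK' => ?_⟩
  rw [Real.dist_eq]
  have := abs_diam_sub_le K' K
  linarith

theorem isClosed_contDiam (t : ℝ) : IsClosed (contDiam Z t) := by
  have : contDiam Z t = {K : NonemptyCompacts Z | IsConnected (K : Set Z)} ∩
      {K : NonemptyCompacts Z | t ≤ diam (K : Set Z)} := by
    ext K
    rfl
  rw [this]
  exact isClosed_setOf_isConnected.inter (isClosed_le continuous_const continuous_diam)

theorem isCompact_contDiam [CompactSpace Z] (t : ℝ) : IsCompact (contDiam Z t) :=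
  (isClosed_contDiam t).isCompact

/-- a continuum of diameter `≥ t` leaves every ball of diameter `< t`. -/
theorem exists_far_of_diam (K : NonemptyCompacts Z) (v : Z) (r : ℝ)
    (h : 2 * r < diam (K : Set Z)) : ∃ y ∈ (K : Set Z), r < dist y v := by
  by_contra hcon
  push Not at hcon
  have hr : 0 ≤ r := by
    obtain ⟨y, hy⟩ := K.nonempty
    exact dist_nonneg.trans (hcon y hy)
  have : diam (K : Set Z) ≤ 2 * r := by
    refine diam_le_of_forall_dist_le (by linarith) ?_
    intro x hx y hy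
    have h1 := dist_triangle_right x y v
    have h2 := hcon x hx
    have h3 := hcon y hy
    linarith
  linarith

/-- two points realising the diameter of a compact set. -/
theorem exists_dist_eq_diam (K : NonemptyCompacts Z) :
    ∃ x ∈ (K : Set Z), ∃ y ∈ (K : Set Z), dist x y = diam (K : Set Z) := by
  obtain ⟨⟨x, y⟩, ⟨hx, hy⟩, hmax⟩ := (K.isCompact.prod K.isCompact).exists_isMaxOn
    (K.nonempty.prod K.nonempty) (f := fun p : Z × Z => dist p.1 p.2) continuous_dist.continuousOn
  refine ⟨x, hx, y, hy, le_antisymm (dist_le_diam_of_mem K.isCompact.isBounded hx hy) ?_⟩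
  refine diam_le_of_forall_dist_le dist_nonneg ?_
  intro a ha b hb
  exact hmax (show (a, b) ∈ (K : Set Z) ×ˢ (K : Set Z) from ⟨ha, hb⟩)

end Hyper

end P198Q
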