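import Vale.Agent.P198.Q.Zoom

/-!
# Doubling from the axioms (block Z2)
-/

open Metric Set TopologicalSpace
open scoped Classical

namespace P198Q

section Dbl
variable {G Z : Type*} [Group G] [MetricSpace Z] [MulAction G Z] (q : QM G Z)
include q

theorem doubling_base [CompactSpace Z] (R : ℝ) (hR : 0 < R) :
    ∃ n : ℕ, ∀ (k : ℕ) (x : Z) (S : Finset Z), (∀ a ∈ S, dist a x ≤ R * sc k) →
      (∀ a ∈ S, ∀ b ∈ S, a ≠ b → sc (k + 1) ≤ dist a b) → S.card ≤ n := by
  have hC := q.one_le_C
  have hC0 : 0 < q.C := by linarith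
  set R1 : ℝ := (q.C + 1) * q.C with hR1
  have hR1' : 1 ≤ R1 := by nlinarith
  set A : ℝ := q.C * R1 * (R1 + 1) with hA
  have hA0 : 0 < A := by positivity
  obtain ⟨n1, hn1⟩ := exists_packing_bound (Z := Z) (min 1 (1 / (2 * q.C * R)) / A)
    (by positivity)
  obtain ⟨n2, hn2⟩ := exists_packing_bound (Z := Z) (1 / (2 * R)) (by positivity)
  refine ⟨max n1 n2, fun k x S hS hsep => ?_⟩
  have hk : 0 < sc k := by unfold sc; positivity
  have hk1 : sc (k + 1) = sc k / 2 := by unfold sc; rw [pow_succ]; ring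
  rcases le_or_gt (R * sc k) 1 with h1 | h1
  · refine le_trans ?_ (le_max_left _ _)
    obtain ⟨g, hg1, hg2, hg3⟩ := q.q4 x (R * sc k) (by positivity) h1
    have hs := q.s_pos g
    have hcard : (S.image (fun a => g • a)).card = S.card :=
      Finset.card_image_of_injective _ (MulAction.injective g)
    rw [← hcard]
    refine hn1 _ ?_
    intro a' ha' b' hb' hab'
    obtain ⟨a, ha, rfl⟩ := Finset.mem_image.1 ha'
    obtain ⟨b, hb, rfl⟩ := Finset.mem_image.1 hb'
    have hab : a ≠ b := fun h => hab' (by rw [h])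
    have hd := hsep a ha b hb hab
    have hm : q.m g a ≤ R1 * q.s g := by
      have h2 : dist a (q.ζ g) ≤ (q.C + 1) * (R * sc k) := by
        have := dist_triangle a x (q.ζ g)
        have := hS a ha
        linarith
      have h3 : q.m g a ≤ (q.C + 1) * (R * sc k) := by
        unfold QM.m
        refine max_le ?_ h2
        have : 0 < R * sc k := by positivity
        linarith
      calc q.m g a ≤ (q.C + 1) * (R * sc k) := h3
        _ ≤ (q.C + 1) * (q.C * q.s g) := by gcongr
        _ = R1 * q.s g := by rw [hR1]; ring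
    have h4 := zoom_lower q R1 hR1' g a b hm
    rw [← hA] at h4
    rw [div_le_iff₀ hA0, mul_comm (dist (g • a) (g • b))]
    refine le_trans ?_ h4
    refine min_le_min le_rfl ?_
    rw [div_le_div_iff₀ (by positivity) hs]
    calc 1 * q.s g ≤ q.C * (R * sc k) := by linarith
      _ = (sc k / 2) * (2 * q.C * R) := by ring
      _ ≤ dist a b * (2 * q.C * R) := by rw [← hk1]; gcongr
  · refine le_trans ?_ (le_max_right _ _)
    refine hn2 S ?_
    intro a ha b hb hab
    refine le_trans ?_ (hsep a ha b hb hab)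
    rw [hk1, div_le_div_iff₀ (by positivity) (by norm_num)]
    nlinarith

theorem doubling [CompactSpace Z] : ∃ (D : ℝ → ℝ) (Q : ℕ), (∀ R, 0 ≤ D R) ∧ Doubling Z D Q := by
  have hch : ∀ R : ℝ, ∃ n : ℕ, 0 < R → ∀ (k : ℕ) (x : Z) (S : Finset Z),
      (∀ a ∈ S, dist a x ≤ R * sc k) →
      (∀ a ∈ S, ∀ b ∈ S, a ≠ b → sc (k + 1) ≤ dist a b) → S.card ≤ n := by
    intro R
    rcases le_or_gt R 0 with h | h
    · exact ⟨0, fun h' => absurd h' (not_lt.2 h)⟩
    · obtain ⟨n, hn⟩ := doubling_base q R h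
      exact ⟨n, fun _ => hn⟩
  choose B hB using hch
  -- induction on the number of levels for balls of radius `1`
  have hind : ∀ (l k : ℕ) (x : Z) (S : Finset Z), (∀ a ∈ S, dist a x ≤ 1 * sc k) →
      (∀ a ∈ S, ∀ b ∈ S, a ≠ b → sc (k + l) ≤ dist a b) → S.card ≤ B 1 ^ (l + 1) := by
    intro l
    induction l with
    | zero =>
      intro k x S hS hsep
      rw [zero_add, pow_one]
      refine hB 1 one_pos k x S hS ?_
      intro a ha b hb hab
      refine le_trans ?_ (hsep a ha b hb hab)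
      unfold sc
      exact pow_le_pow_of_le_one (by norm_num) (by norm_num) (by omega)
    | succ l ih =>
      intro k x S hS hsep
      have hk : 0 < sc (k + 1) := by unfold sc; positivity
      obtain ⟨T, hTS, hTsep, hTcov⟩ := exists_sep_subset S (sc (k + 1)) hk
      have hTcard : T.card ≤ B 1 := hB 1 one_pos k x T (fun a ha => hS a (hTS ha)) hTsep
      have hsub : S ⊆ T.biUnion (fun t => S.filter (fun a => dist a t ≤ 1 * sc (k + 1))) := by
        intro a ha
        obtain ⟨t, ht, hat⟩ := hTcov a ha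
        rw [Finset.mem_biUnion]
        exact ⟨t, ht, Finset.mem_filter.2 ⟨ha, by linarith⟩⟩
      calc S.card ≤ _ := Finset.card_le_card hsub
        _ ≤ ∑ t ∈ T, (S.filter (fun a => dist a t ≤ 1 * sc (k + 1))).card := Finset.card_biUnion_le
        _ ≤ ∑ t ∈ T, B 1 ^ (l + 1) := by
            refine Finset.sum_le_sum fun t _ => ih (k + 1) t _ ?_ ?_
            · intro a ha
              exact (Finset.mem_filter.1 ha).2
            · intro a ha b hb hab
              have := hsep a (Finset.mem_filter.1 ha).1 b (Finset.mem_filter.1 hb).1 hab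
              have he : k + 1 + l = k + (l + 1) := by ring
              rw [he]
              exact this
        _ = T.card * B 1 ^ (l + 1) := by rw [Finset.sum_const, smul_eq_mul]
        _ ≤ B 1 * B 1 ^ (l + 1) := by gcongr
        _ = B 1 ^ (l + 1 + 1) := by ring
  obtain ⟨Q, hQ⟩ : ∃ Q : ℕ, B 1 ≤ 2 ^ Q := ⟨B 1, Nat.lt_two_pow_self.le⟩
  refine ⟨fun R => (B R : ℝ) * 2 ^ Q, Q, fun R => by positivity, ?_⟩
  intro R k l x S hR hS hsep
  have hk : 0 < sc k := by unfold sc; positivity
  obtain ⟨T, hTS, hTsep, hTcov⟩ := exists_sep_subset S (sc k) hk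
  have hTcard : T.card ≤ B R := by
    refine hB R hR k x T (fun a ha => hS a (hTS ha)) ?_
    intro a ha b hb hab
    refine le_trans ?_ (hTsep a ha b hb hab)
    unfold sc
    exact pow_le_pow_of_le_one (by norm_num) (by norm_num) (by omega)
  have hsub : S ⊆ T.biUnion (fun t => S.filter (fun a => dist a t ≤ 1 * sc k)) := by
    intro a ha
    obtain ⟨t, ht, hat⟩ := hTcov a ha
    rw [Finset.mem_biUnion]
    exact ⟨t, ht, Finset.mem_filter.2 ⟨ha, by linarith⟩⟩
  have hcard : S.card ≤ B R * (2 ^ Q * 2 ^ (Q * l)) := by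
    calc S.card ≤ _ := Finset.card_le_card hsub
      _ ≤ ∑ t ∈ T, (S.filter (fun a => dist a t ≤ 1 * sc k)).card := Finset.card_biUnion_le
      _ ≤ ∑ t ∈ T, B 1 ^ (l + 1) := by
          refine Finset.sum_le_sum fun t _ => hind l k t _ ?_ ?_
          · intro a ha
            exact (Finset.mem_filter.1 ha).2
          · intro a ha b hb hab
            exact hsep a (Finset.mem_filter.1 ha).1 b (Finset.mem_filter.1 hb).1 hab
      _ = T.card * B 1 ^ (l + 1) := by rw [Finset.sum_const, smul_eq_mul]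
      _ ≤ B R * (2 ^ Q) ^ (l + 1) := by gcongr
      _ = B R * (2 ^ Q * 2 ^ (Q * l)) := by rw [pow_succ, ← pow_mul]; ring
  calc (S.card : ℝ) ≤ ((B R * (2 ^ Q * 2 ^ (Q * l)) : ℕ) : ℝ) := by exact_mod_cast hcard
    _ = (B R : ℝ) * 2 ^ Q * 2 ^ (Q * l) := by push_cast; ring

end Dbl

end P198Q
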