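import Vale.Agent.P198.Q.Mod
import Vale.Agent.P198.Q.Bump
import Vale.Agent.P198.Q.Doubling

/-!
# Zoom of the modulus (block M6)
-/

open Metric Set TopologicalSpace
open scoped Classical

namespace P198Q

theorem zm_sc_pos (k : ℕ) : 0 < sc k := by
  unfold sc
  positivity

theorem zm_sc_add (i l : ℕ) : sc (i + l) = sc i * sc l := by
  unfold sc
  rw [pow_add]

theorem zm_sc_anti {i k : ℕ} (h : i ≤ k) : sc k ≤ sc i := by
  unfold sc
  exact pow_le_pow_of_le_one (by norm_num) (by norm_num) h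

theorem zm_sc_le_one (k : ℕ) : sc k ≤ 1 := by
  unfold sc
  exact pow_le_one₀ (by norm_num) (by norm_num)

/-- counting net points: a subset of level `k` of diameter at most `R 2^-k`. -/
theorem zm_card_net_le {Z : Type*} [MetricSpace Z] {D : ℝ → ℝ} {Q : ℕ} (hD : Doubling Z D Q)
    (hD0 : ∀ R, 0 ≤ D R) {N : ℕ → Finset Z} (hN : IsNet N) (R : ℝ) (hR : 0 < R) (k : ℕ)
    (S : Finset Z) (hS : S ⊆ N k) (h : ∀ a ∈ S, ∀ b ∈ S, dist a b ≤ R * sc k) :
    (S.card : ℝ) ≤ D R := by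
  rcases S.eq_empty_or_nonempty with he | ⟨a, ha⟩
  · rw [he]
    simpa using hD0 R
  · have := hD R k 0 a S hR (fun b hb => h b hb a ha)
      (fun b hb c hc hbc => hN.sep k b (hS hb) c (hS hc) hbc)
    simpa using this

section
variable {G Z : Type*} [Group G] [MetricSpace Z] [MulAction G Z]

/-- one direction of the degree count: `g` expands by at most the factor `1 / s g`. -/
theorem zm_deg1 (q : QM G Z) {Dd : ℝ → ℝ} {Q : ℕ} (hD : Doubling Z Dd Q)
    (hD0 : ∀ R, 0 ≤ Dd R) {N : ℕ → Finset Z} (hN : IsNet N) (g : G) (i k : ℕ) (hik : i ≤ k)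
    (hs : sc i ≤ q.C * q.s g) (v w : Z) (ρ : ℝ) :
    (((N (k - i)).filter (fun w' => ∃ z : Z, dist z w ≤ sc k ∧ dist z v ≤ ρ ∧
        dist (g • z) w' ≤ sc (k - i))).card : ℝ) ≤ Dd (2 * q.C ^ 2 + 2) := by
  have hc1 : 1 ≤ q.C := q.one_le_C
  have hc0 : 0 < q.C := by linarith
  have hs0 := q.s_pos g
  have hsk := zm_sc_pos k
  have hski := zm_sc_pos (k - i)
  have hskeq : sc k = sc i * sc (k - i) := by
    rw [← zm_sc_add]
    congr 1
    omega
  refine zm_card_net_le hD hD0 hN _ (by positivity) (k - i) _ (Finset.filter_subset _ _) ?_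
  intro a ha b hb
  obtain ⟨-, z, hz1, -, hz3⟩ := Finset.mem_filter.1 ha
  obtain ⟨-, z2, hy1, -, hy3⟩ := Finset.mem_filter.1 hb
  have h1 : dist z z2 ≤ 2 * sc k := by
    have := dist_triangle_right z z2 w
    linarith
  have h2 : dist (g • z) (g • z2) ≤ 2 * q.C ^ 2 * sc (k - i) := by
    have h3 := zoom_upper q g z z2
    have h4 : dist z z2 / q.s g ≤ 2 * q.C * sc (k - i) := by
      rw [div_le_iff₀ hs0]
      calc dist z z2 ≤ 2 * sc k := h1
        _ = 2 * (sc i * sc (k - i)) := by rw [hskeq]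
        _ ≤ 2 * ((q.C * q.s g) * sc (k - i)) := by gcongr
        _ = 2 * q.C * sc (k - i) * q.s g := by ring
    calc dist (g • z) (g • z2) ≤ q.C * (dist z z2 / q.s g) := h3
      _ ≤ q.C * (2 * q.C * sc (k - i)) := by gcongr
      _ = 2 * q.C ^ 2 * sc (k - i) := by ring
  have h5 := dist_triangle4 a (g • z) (g • z2) b
  rw [dist_comm a (g • z)] at h5
  linarith

/-- the other direction: near its centre `g` expands by at least a definite multiple of `1 / s g`. -/
theorem zm_deg2 (q : QM G Z) {Dd : ℝ → ℝ} {Q : ℕ} (hD : Doubling Z Dd Q)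
    (hD0 : ∀ R, 0 ≤ Dd R) {N : ℕ → Finset Z} (hN : IsNet N) (g : G) (i k : ℕ) (hik : i ≤ k)
    (v w' : Z) (R A ρ : ℝ) (hR : 1 ≤ R) (hA : 0 < A) (hg1 : q.s g ≤ q.C * (R * sc i))
    (hg2 : R * sc i ≤ q.C * q.s g)
    (hlow : ∀ a b : Z, dist a v ≤ 2 * (R * sc i) →
      min 1 (dist a b / q.s g) ≤ A * dist (g • a) (g • b)) :
    ((((N k).filter (fun w => dist w v ≤ ρ)).filter
        (fun w => ∃ z : Z, dist z w ≤ sc k ∧ dist z v ≤ 2 * (R * sc i) ∧
        dist (g • z) w' ≤ sc (k - i))).card : ℝ) ≤ Dd (8 * q.C ^ 2 * A * R + 2) := by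
  have hc1 : 1 ≤ q.C := q.one_le_C
  have hc0 : 0 < q.C := by linarith
  have hR0 : 0 < R := by linarith
  have hs0 := q.s_pos g
  have hsi := zm_sc_pos i
  have hsk := zm_sc_pos k
  have hski := zm_sc_pos (k - i)
  have hskeq : sc k = sc i * sc (k - i) := by
    rw [← zm_sc_add]
    congr 1
    omega
  refine zm_card_net_le hD hD0 hN _ (by positivity) k _
    ((Finset.filter_subset _ _).trans (Finset.filter_subset _ _)) ?_
  intro a ha b hb
  obtain ⟨-, z, hz1, hz2, hz3⟩ := Finset.mem_filter.1 ha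
  obtain ⟨-, z2, hy1, hy2, hy3⟩ := Finset.mem_filter.1 hb
  have h1 : dist (g • z) (g • z2) ≤ 2 * sc (k - i) := by
    have := dist_triangle_right (g • z) (g • z2) w'
    linarith
  have h2 := hlow z z2 hz2
  set t := dist z z2 / q.s g with ht
  have ht0 : 0 ≤ t := by positivity
  have ht4 : t ≤ 4 * q.C := by
    rw [ht, div_le_iff₀ hs0]
    have := dist_triangle_right z z2 v
    calc dist z z2 ≤ 4 * (R * sc i) := by linarith
      _ ≤ 4 * (q.C * q.s g) := by gcongr
      _ = 4 * q.C * q.s g := by ring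
  have h3 : t ≤ 4 * q.C * min 1 t := by
    rcases le_total t 1 with h | h
    · rw [min_eq_right h]
      nlinarith
    · rw [min_eq_left h]
      linarith
  have h4 : t ≤ 4 * q.C * (A * (2 * sc (k - i))) := by
    calc t ≤ 4 * q.C * min 1 t := h3
      _ ≤ 4 * q.C * (A * dist (g • z) (g • z2)) := by gcongr
      _ ≤ 4 * q.C * (A * (2 * sc (k - i))) := by gcongr
  have h5 : dist z z2 ≤ 8 * q.C ^ 2 * A * R * sc k := by
    have : dist z z2 = t * q.s g := by rw [ht]; field_simp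
    calc dist z z2 = t * q.s g := this
      _ ≤ (4 * q.C * (A * (2 * sc (k - i)))) * (q.C * (R * sc i)) := by gcongr
      _ = 8 * q.C ^ 2 * A * R * (sc i * sc (k - i)) := by ring
      _ = 8 * q.C ^ 2 * A * R * sc k := by rw [← hskeq]
  have h6 := dist_triangle4 a z z2 b
  rw [dist_comm a z] at h6
  linarith

/-- `g` moves a piece of a crossing continuum to a continuum of definite size. -/
theorem zm_image (q : QM G Z) [CompactSpace Z] (g : G) (v : Z) (r A : ℝ) (hr0 : 0 < r) (hA : 0 < A)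
    (hg1 : q.s g ≤ q.C * r)
    (hlow : ∀ a b : Z, dist a v ≤ 2 * r →
      min 1 (dist a b / q.s g) ≤ A * dist (g • a) (g • b))
    (K : NonemptyCompacts Z) (hKc : IsConnected (K : Set Z)) (hx : ∃ x ∈ (K : Set Z), dist x v ≤ r)
    (hy : ∃ y ∈ (K : Set Z), 2 * r ≤ dist y v) :
    ∃ K' ∈ contDiam Z (1 / (q.C * A)), ∀ y ∈ (K' : Set Z), ∃ z ∈ (K : Set Z), dist z v ≤ 2 * r ∧
      y = g • z := by
  have hc1 : 1 ≤ q.C := q.one_le_C
  have hc0 : 0 < q.C := by linarith
  have hs0 := q.s_pos g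
  obtain ⟨x, hxK, hxv⟩ := hx
  obtain ⟨y, hyK, hyv⟩ := hy
  have hgc : Continuous (fun x : Z => g • x) := smul_continuous q g
  obtain ⟨K', hK'K, hK'c, hK'conn, hxK', hK'b, y', hy'K', hy'v⟩ :=
    boundary_bumping (K : Set Z) K.isCompact hKc x hxK v (2 * r) (by linarith) ⟨y, hyK, hyv⟩
  refine ⟨⟨⟨(fun x : Z => g • x) '' K', hK'c.image hgc⟩, ⟨g • x, x, hxK', rfl⟩⟩, ⟨?_, ?_⟩, ?_⟩
  · exact hK'conn.image _ hgc.continuousOn
  · have h1 : r ≤ dist x y' := by
      have := dist_triangle_left y' v x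
      linarith
    have h2 := hlow x y' (by linarith)
    have h3 : 1 / q.C ≤ min 1 (dist x y' / q.s g) := by
      refine le_min ?_ ?_
      · rw [div_le_one hc0]
        exact hc1
      · rw [div_le_div_iff₀ hc0 hs0, one_mul]
        calc q.s g ≤ q.C * r := hg1
          _ ≤ q.C * dist x y' := by gcongr
          _ = dist x y' * q.C := by ring
    have h4 : 1 / (q.C * A) ≤ dist (g • x) (g • y') := by
      have h5 := h3.trans h2
      rw [div_le_iff₀ hc0] at h5
      rw [div_le_iff₀ (by positivity)]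
      linarith
    refine h4.trans ?_
    exact dist_le_diam_of_mem (hK'c.image hgc).isBounded ⟨x, hxK', rfl⟩ ⟨y', hy'K', rfl⟩
  · rintro _ ⟨z, hzK', rfl⟩
    exact ⟨z, hK'K hzK', hK'b z hzK', rfl⟩

/-- expansion of `g` on the ball of radius `2 r` about its centre region. -/
theorem zm_low (q : QM G Z) (g : G) (v : Z) (r : ℝ) (hr0 : 0 < r)
    (hg1 : q.s g ≤ q.C * r) (hg2 : r ≤ q.C * q.s g) (hg3 : dist v (q.ζ g) ≤ q.C * r) (a b : Z)
    (ha : dist a v ≤ 2 * r) :
    min 1 (dist a b / q.s g) ≤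
      (q.C * ((q.C + 2) * q.C) * ((q.C + 2) * q.C + 1)) * dist (g • a) (g • b) := by
  have hc1 : 1 ≤ q.C := q.one_le_C
  have hc0 : 0 < q.C := by linarith
  refine zoom_lower q ((q.C + 2) * q.C) (by nlinarith) g a b ?_
  have h1 : dist a (q.ζ g) ≤ (q.C + 2) * r := by
    have := dist_triangle a v (q.ζ g)
    linarith
  have h2 : q.m g a ≤ (q.C + 2) * r := by
    unfold QM.m
    refine max_le ?_ h1
    linarith
  calc q.m g a ≤ (q.C + 2) * r := h2
    _ ≤ (q.C + 2) * (q.C * q.s g) := by gcongr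
    _ = (q.C + 2) * q.C * q.s g := by ring

theorem md_cross [CompactSpace Z]
    (q : QM G Z) (N : ℕ → Finset Z) (hN : IsNet N) :
    ∃ t₀ : ℝ, 0 < t₀ ∧ ∀ R : ℝ, 1 ≤ R → ∃ C : ℝ, 0 < C ∧ ∀ (i k : ℕ) (v : Z), i ≤ k → R * sc i ≤ 1 →
      md ((N k).filter (fun w => dist w v ≤ 3 * R * sc i)) (hit k)
        {K | IsConnected (K : Set Z) ∧ (∃ x ∈ (K : Set Z), dist x v ≤ R * sc i) ∧
          ∃ y ∈ (K : Set Z), 2 * R * sc i ≤ dist y v}
        ≤ C * md (N (k - i)) (hit (k - i)) (contDiam Z t₀) := by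
  obtain ⟨Dd, Q, hD0, hD⟩ := doubling q
  have hc1 : 1 ≤ q.C := q.one_le_C
  have hc0 : 0 < q.C := by linarith
  set A : ℝ := q.C * ((q.C + 2) * q.C) * ((q.C + 2) * q.C + 1) with hA
  have hA0 : 0 < A := by positivity
  refine ⟨1 / (q.C * A), by positivity, fun R hR => ?_⟩
  have hR0 : 0 < R := by linarith
  set D : ℕ := ⌈max (Dd (2 * q.C ^ 2 + 2)) (Dd (8 * q.C ^ 2 * A * R + 2))⌉₊ with hDdef
  have hDle : max (Dd (2 * q.C ^ 2 + 2)) (Dd (8 * q.C ^ 2 * A * R + 2)) ≤ (D : ℝ) := Nat.le_ceil _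
  refine ⟨D * D + 1, by positivity, fun i k v hik hRi => ?_⟩
  have hsi := zm_sc_pos i
  have hr0 : 0 < R * sc i := by positivity
  obtain ⟨g, hg1, hg2, hg3⟩ := q.q4 v (R * sc i) hr0 hRi
  have hlow := zm_low q g v (R * sc i) hr0 hg1 hg2 hg3
  rw [← hA] at hlow
  have hscr : sc i ≤ R * sc i := le_mul_of_one_le_left hsi.le hR
  have hmd0 := md_nonneg (N (k - i)) (hit (k - i)) (contDiam Z (1 / (q.C * A)))
  suffices hmain : md ((N k).filter (fun w => dist w v ≤ 3 * R * sc i)) (hit k)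
        {K | IsConnected (K : Set Z) ∧ (∃ x ∈ (K : Set Z), dist x v ≤ R * sc i) ∧
          ∃ y ∈ (K : Set Z), 2 * R * sc i ≤ dist y v}
        ≤ D * D * md (N (k - i)) (hit (k - i)) (contDiam Z (1 / (q.C * A))) by
    refine hmain.trans ?_
    rw [add_mul, one_mul]
    linarith
  refine md_compare _ _ _ _ _ _ ?_
    (fun w w' => ∃ z : Z, dist z w ≤ sc k ∧ dist z v ≤ 2 * (R * sc i) ∧
      dist (g • z) w' ≤ sc (k - i)) D ?_ ?_ ?_
  · -- every continuum hits a cell
    intro K hK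
    obtain ⟨x, hx⟩ := K.nonempty
    obtain ⟨w, hw, hxw⟩ := hN.cov (k - i) x
    exact ⟨w, hw, x, by simpa using hxw, hx⟩
  · intro w hw
    have hcard := zm_deg1 q hD hD0 hN g i k hik (hscr.trans hg2) v w (2 * (R * sc i))
    exact_mod_cast hcard.trans ((le_max_left _ _).trans hDle)
  · intro w' hw'
    have hcard := zm_deg2 q hD hD0 hN g i k hik v w' R A (3 * R * sc i) hR hA0 hg1 hg2 hlow
    exact_mod_cast hcard.trans ((le_max_right _ _).trans hDle)
  · rintro K ⟨hKc, hx, hy⟩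
    rw [mul_assoc 2 R] at hy
    obtain ⟨K', hK', hK'z⟩ := zm_image q g v (R * sc i) A hr0 hA0 hg1 hlow K hKc hx hy
    refine ⟨K', hK', ?_⟩
    rintro w' hw' ⟨y, hyw', hyK'⟩
    obtain ⟨z, hzK, hzv, rfl⟩ := hK'z y hyK'
    obtain ⟨w, hw, hzw⟩ := hN.cov k z
    have hsc : sc k ≤ R * sc i := (zm_sc_anti hik).trans hscr
    refine ⟨w, ?_, ?_, ?_⟩
    · refine Finset.mem_filter.2 ⟨hw, ?_⟩
      have := dist_triangle_left w v z
      rw [mul_assoc 3 R]
      linarith
    · exact ⟨z, by simpa using hzw, hzK⟩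
    · exact ⟨z, hzw, hzv, by simpa using hyw'⟩

/-- (M5) one group element changes moduli by a bounded factor (constant depending on `g`). -/
theorem md_smul [CompactSpace Z]
    (q : QM G Z) (N : ℕ → Finset Z) (hN : IsNet N) (g : G) :
    ∃ C : ℝ, 0 < C ∧ ∀ (k : ℕ) (F F' : Set (NonemptyCompacts Z)),
      (∀ K ∈ F, ∃ K' ∈ F', (K' : Set Z) = (fun x => g • x) '' K) →
      md (N k) (hit k) F ≤ C * md (N k) (hit k) F' := by
  obtain ⟨Dd, Q, hD0, hD⟩ := doubling q
  set c := q.C with hc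
  have hc1 : 1 ≤ c := q.one_le_C
  have hc0 : 0 < c := by linarith
  have hs0 := q.s_pos g
  set b : ℝ := 2 * (c / q.s g) + 2 with hb
  have hb0 : 0 < b := by positivity
  set D : ℕ := ⌈Dd b⌉₊ with hDdef
  have hDle : Dd b ≤ (D : ℝ) := Nat.le_ceil _
  refine ⟨D * D + 1, by positivity, fun k F F' hFF' => ?_⟩
  have hmd0 := md_nonneg (N k) (hit k) F'
  have hsk := zm_sc_pos k
  suffices hmain : md (N k) (hit k) F ≤ D * D * md (N k) (hit k) F' by
    refine hmain.trans ?_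
    nlinarith
  refine md_compare _ _ _ _ _ _ ?_
    (fun w w' => ∃ z : Z, dist z w ≤ sc k ∧ dist (g • z) w' ≤ sc k) D ?_ ?_ ?_
  · intro K hK
    obtain ⟨x, hx⟩ := K.nonempty
    obtain ⟨w, hw, hxw⟩ := hN.cov k x
    exact ⟨w, hw, x, by simpa using hxw, hx⟩
  · intro w hw
    have hcard : (((N k).filter (fun w' => ∃ z : Z, dist z w ≤ sc k ∧
        dist (g • z) w' ≤ sc k)).card : ℝ) ≤ Dd b := by
      refine zm_card_net_le hD hD0 hN b hb0 k _ (Finset.filter_subset _ _) ?_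
      intro a ha b' hb'
      obtain ⟨-, z, hz1, hz3⟩ := Finset.mem_filter.1 ha
      obtain ⟨-, z2, hy1, hy3⟩ := Finset.mem_filter.1 hb'
      have h1 : dist z z2 ≤ 2 * sc k := by
        have := dist_triangle_right z z2 w
        linarith
      have h2 : dist (g • z) (g • z2) ≤ 2 * (c / q.s g) * sc k := by
        calc dist (g • z) (g • z2) ≤ c * (dist z z2 / q.s g) := zoom_upper q g z z2
          _ ≤ c * ((2 * sc k) / q.s g) := by gcongr
          _ = 2 * (c / q.s g) * sc k := by ring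
      have h5 := dist_triangle4 a (g • z) (g • z2) b'
      rw [dist_comm a (g • z)] at h5
      rw [hb]
      linarith
    exact_mod_cast hcard.trans hDle
  · intro w' hw'
    have hcard : (((N k).filter (fun w => ∃ z : Z, dist z w ≤ sc k ∧
        dist (g • z) w' ≤ sc k)).card : ℝ) ≤ Dd b := by
      refine zm_card_net_le hD hD0 hN b hb0 k _ (Finset.filter_subset _ _) ?_
      intro a ha b' hb'
      obtain ⟨-, z, hz1, hz3⟩ := Finset.mem_filter.1 ha
      obtain ⟨-, z2, hy1, hy3⟩ := Finset.mem_filter.1 hb'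
      have h1 : dist (g • z) (g • z2) ≤ 2 * sc k := by
        have := dist_triangle_right (g • z) (g • z2) w'
        linarith
      have h2 : dist z z2 ≤ 2 * (c / q.s g) * sc k := by
        have h3 := zoom_upper q g⁻¹ (g • z) (g • z2)
        rw [inv_smul_smul, inv_smul_smul, q.s_inv] at h3
        calc dist z z2 ≤ c * (dist (g • z) (g • z2) / q.s g) := h3
          _ ≤ c * ((2 * sc k) / q.s g) := by gcongr
          _ = 2 * (c / q.s g) * sc k := by ring
      have h5 := dist_triangle4 a z z2 b'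
      rw [dist_comm a z] at h5
      rw [hb]
      linarith
    exact_mod_cast hcard.trans hDle
  · intro K hK
    obtain ⟨K', hK', hKK'⟩ := hFF' K hK
    refine ⟨K', hK', ?_⟩
    rintro w' hw' ⟨y, hyw', hyK'⟩
    rw [hKK'] at hyK'
    obtain ⟨z, hzK, rfl⟩ := hyK'
    obtain ⟨w, hw, hzw⟩ := hN.cov k z
    exact ⟨w, hw, ⟨z, by simpa using hzw, hzK⟩, z, hzw, by simpa using hyw'⟩

end

end P198Q
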