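import Vale.Agent.P198.Q.Defs

/-!
# P198, block M: abstract calculus of the combinatorial 2-modulus
-/

open Metric Set TopologicalSpace
open scoped Classical

namespace P198Q

section M
variable {α β γ : Type*}

theorem energy_nonneg (V : Finset β) (ρ : β → ℝ) : 0 ≤ energy V ρ :=
  Finset.sum_nonneg fun _ _ => sq_nonneg _

theorem md_bddBelow (V : Finset β) (hit : β → α → Prop) (F : Set α) :
    BddBelow {e | ∃ ρ, Adm V hit F ρ ∧ e = energy V ρ} :=
  ⟨0, by rintro _ ⟨ρ, -, rfl⟩; exact energy_nonneg V ρ⟩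

theorem md_nonneg (V : Finset β) (hit : β → α → Prop) (F : Set α) : 0 ≤ md V hit F :=
  Real.sInf_nonneg (by rintro _ ⟨ρ, -, rfl⟩; exact energy_nonneg V ρ)

theorem md_le (V : Finset β) (hit : β → α → Prop) (F : Set α) (ρ : β → ℝ) (h : Adm V hit F ρ) :
    md V hit F ≤ energy V ρ :=
  csInf_le (md_bddBelow V hit F) ⟨ρ, h, rfl⟩

theorem adm_one (V : Finset β) (hit : β → α → Prop) (F : Set α)
    (hF : ∀ K ∈ F, ∃ v ∈ V, hit v K) : Adm V hit F (fun _ => 1) := by
  refine ⟨fun _ => zero_le_one, fun K hK => ?_⟩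
  obtain ⟨v, hv, hh⟩ := hF K hK
  have h1 : v ∈ V.filter (fun v => hit v K) := Finset.mem_filter.2 ⟨hv, hh⟩
  exact Finset.single_le_sum (f := fun _ : β => (1 : ℝ)) (fun _ _ => zero_le_one) h1

theorem md_le_card (V : Finset β) (hit : β → α → Prop) (F : Set α)
    (hF : ∀ K ∈ F, ∃ v ∈ V, hit v K) : md V hit F ≤ V.card := by
  refine (md_le V hit F _ (adm_one V hit F hF)).trans ?_
  simp [energy]

theorem le_md (V : Finset β) (hit : β → α → Prop) (F : Set α)
    (hF : ∀ K ∈ F, ∃ v ∈ V, hit v K) (c : ℝ)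
    (h : ∀ ρ, Adm V hit F ρ → c ≤ energy V ρ) : c ≤ md V hit F :=
  le_csInf ⟨_, _, adm_one V hit F hF, rfl⟩ (by rintro _ ⟨ρ, hρ, rfl⟩; exact h ρ hρ)

theorem md_mono (V : Finset β) (hit : β → α → Prop) (F F' : Set α) (h : F ⊆ F')
    (hF' : ∀ K ∈ F', ∃ v ∈ V, hit v K) : md V hit F ≤ md V hit F' :=
  le_md V hit F' hF' _ fun ρ hρ => md_le V hit F ρ ⟨hρ.1, fun K hK => hρ.2 K (h hK)⟩

/-- interchange of summation: total length against a flow. -/
theorem sum_len (V : Finset β) (hit : β → α → Prop) (ρ : β → ℝ) (μ : Flow α) :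
    ∑ K ∈ μ.supp, μ.w K * len V hit ρ K = ∑ v ∈ V, ρ v * μ.mass hit v := by
  simp only [len, Flow.mass, Finset.mul_sum, Finset.sum_filter]
  rw [Finset.sum_comm]
  refine Finset.sum_congr rfl fun v _ => Finset.sum_congr rfl fun K _ => ?_
  split_ifs <;> ring

/-- (M1) duality: easy half -/
theorem one_le_energy_mul_md (V : Finset β) (hit : β → α → Prop) (F : Set α)
    (hF : ∀ K ∈ F, ∃ v ∈ V, hit v K) (μ : Flow α) (hμ : ∀ K ∈ μ.supp, K ∈ F) :
    1 ≤ energy V (μ.mass hit) * md V hit F := by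
  have key : ∀ ρ, Adm V hit F ρ → 1 ≤ energy V (μ.mass hit) * energy V ρ := by
    intro ρ hρ
    have h1 : (1 : ℝ) ≤ ∑ v ∈ V, ρ v * μ.mass hit v := by
      rw [← sum_len, ← μ.sum_one]
      refine Finset.sum_le_sum fun K hK => ?_
      have := hρ.2 K (hμ K hK)
      have hp := μ.pos K hK
      nlinarith
    have h2 := Finset.sum_mul_sq_le_sq_mul_sq V ρ (μ.mass hit)
    unfold energy
    nlinarith [h1, h2]
  have hpos : 0 < energy V (μ.mass hit) := by
    have h1 := key _ (adm_one V hit F hF)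
    rcases (energy_nonneg V (μ.mass hit)).lt_or_eq with h | h
    · exact h
    · rw [← h, zero_mul] at h1; linarith
  have h3 : 1 / energy V (μ.mass hit) ≤ md V hit F :=
    le_md V hit F hF _ fun ρ hρ => by
      rw [div_le_iff₀ hpos, mul_comm]; exact key ρ hρ
  rwa [div_le_iff₀ hpos, mul_comm] at h3

/-- a flow of minimal energy: every curve of the family has `mass`-length at least the energy. -/
theorem exists_flow_aux (V : Finset β) (hit : β → α → Prop) (F : Set α) (hne : F.Nonempty) :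
    ∃ μ : Flow α, (∀ K ∈ μ.supp, K ∈ F) ∧
      ∀ K ∈ F, energy V (μ.mass hit) ≤ len V hit (μ.mass hit) K := by
  -- finitely many hitting patterns
  let pat : α → Finset β := fun K => V.filter (fun v => hit v K)
  have hfin : (pat '' F).Finite := by
    refine (V.powerset.finite_toSet).subset ?_
    rintro _ ⟨K, -, rfl⟩
    exact Finset.mem_coe.2 (Finset.mem_powerset.2 (Finset.filter_subset _ _))
  obtain ⟨T, hTF, hTfin, hT⟩ : ∃ T : Set α, T ⊆ F ∧ T.Finite ∧ pat '' T = pat '' F := by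
    obtain ⟨T, h1, h2⟩ := Set.SurjOn.exists_bijOn_subset (Set.surjOn_image pat F)
    exact ⟨T, h1, (h2.finite_iff_finite).2 hfin, h2.image_eq⟩
  lift T to Finset α using hTfin
  have hTne : T.Nonempty := by
    obtain ⟨K, hK⟩ := hne
    have : pat K ∈ pat '' (T : Set α) := by rw [hT]; exact ⟨K, hK, rfl⟩
    obtain ⟨K', hK', -⟩ := this
    exact ⟨K', hK'⟩
  -- masses as functions on the simplex
  let ms : (T → ℝ) → β → ℝ := fun w v => ∑ K : T, if hit v K then w K else 0
  let f : (T → ℝ) → ℝ := fun w => ∑ v ∈ V, ms w v ^ 2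
  have hcont : Continuous f := by
    refine continuous_finsetSum _ fun v _ => Continuous.pow ?_ 2
    refine continuous_finsetSum _ fun K _ => ?_
    by_cases h : hit v K
    · simp only [h, if_true]; exact continuous_apply K
    · simp only [h, if_false]; exact continuous_const
  have : Nonempty T := ⟨⟨_, hTne.choose_spec⟩⟩
  have hsne : (stdSimplex ℝ T).Nonempty :=
    ⟨_, single_mem_stdSimplex ℝ (Classical.arbitrary T)⟩
  obtain ⟨w, hw, hmin⟩ := (isCompact_stdSimplex ℝ T).exists_isMinOn hsne hcont.continuousOn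
  have hw0 : ∀ K, 0 ≤ w K := hw.1
  have hw1 : ∑ K, w K = 1 := hw.2
  -- first variation
  have hvar : ∀ K₀ : T, f w ≤ ∑ v ∈ V, if hit v K₀ then ms w v else 0 := by
    intro K₀
    set e : T → ℝ := Pi.single K₀ 1 with he
    have hms : ∀ (t : ℝ) (v : β), ms (fun K => (1 - t) * w K + t * e K) v
        = ms w v + t * ((if hit v K₀ then 1 else 0) - ms w v) := by
      intro t v
      have h1 : ∑ K : T, (if hit v K then e K else 0) = if hit v K₀ then 1 else 0 := by
        rw [Finset.sum_eq_single K₀]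
        · simp [he]
        · intro K _ hK; simp [he, Pi.single_eq_of_ne hK]
        · intro h; exact absurd (Finset.mem_univ _) h
      have h2 : ms (fun K => (1 - t) * w K + t * e K) v
          = (1 - t) * ms w v + t * ∑ K : T, (if hit v K then e K else 0) := by
        simp only [ms, Finset.mul_sum, ← Finset.sum_add_distrib]
        refine Finset.sum_congr rfl fun K _ => ?_
        split_ifs <;> ring
      rw [h2, h1]; ring
    set A : ℝ := ∑ v ∈ V, ms w v * ((if hit v K₀ then 1 else 0) - ms w v) with hA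
    set Bq : ℝ := ∑ v ∈ V, ((if hit v K₀ then (1:ℝ) else 0) - ms w v) ^ 2 with hB
    have hf : ∀ t : ℝ, f (fun K => (1 - t) * w K + t * e K) = f w + 2 * t * A + t ^ 2 * Bq := by
      intro t
      simp only [f, hms, hA, hB, Finset.mul_sum, ← Finset.sum_add_distrib]
      refine Finset.sum_congr rfl fun v _ => by ring
    have hin : ∀ t : ℝ, 0 ≤ t → t ≤ 1 → 0 ≤ 2 * t * A + t ^ 2 * Bq := by
      intro t h0 h1
      have hmem : (fun K => (1 - t) * w K + t * e K) ∈ stdSimplex ℝ T := by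
        refine ⟨fun K => ?_, ?_⟩
        · have := hw0 K
          have h3 : 0 ≤ e K := by
            by_cases h : K = K₀
            · subst h; simp [he]
            · simp [he, Pi.single_eq_of_ne h]
          have := mul_nonneg (sub_nonneg.2 h1) this
          have := mul_nonneg h0 h3
          linarith
        · rw [Finset.sum_add_distrib, ← Finset.mul_sum, ← Finset.mul_sum, hw1]
          simp [he]
      have := hmin hmem
      simp only [Set.mem_ofPred_eq] at this
      rw [hf t] at this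
      linarith
    have hA0 : 0 ≤ A := by
      by_contra hneg
      push Not at hneg
      have hB0 : 0 ≤ Bq := Finset.sum_nonneg fun _ _ => sq_nonneg _
      -- choose t small
      set t : ℝ := min 1 (-A / (Bq + 1)) with ht
      have ht0 : 0 < t := lt_min one_pos (div_pos (by linarith) (by linarith))
      have ht1 : t ≤ 1 := min_le_left _ _
      have ht2 : t * (Bq + 1) ≤ -A := by
        have : t ≤ -A / (Bq + 1) := min_le_right _ _
        rwa [le_div_iff₀ (by linarith)] at this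
      have := hin t ht0.le ht1
      have h4 : 0 ≤ t * (2 * A + t * Bq) := by nlinarith
      have h5 : 0 ≤ 2 * A + t * Bq := by
        by_contra h6
        push Not at h6
        have := mul_neg_of_pos_of_neg ht0 h6
        linarith
      nlinarith
    have h7 : A = (∑ v ∈ V, if hit v K₀ then ms w v else 0) - f w := by
      simp only [hA, f, ← Finset.sum_sub_distrib]
      refine Finset.sum_congr rfl fun v _ => ?_
      split_ifs <;> ring
    linarith
  -- the flow
  let w' : α → ℝ := fun K => if h : K ∈ T then w ⟨K, h⟩ else 0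
  have hw' : ∀ K : T, w' K = w K := fun K => by simp [w']
  have hsum : ∀ g : α → ℝ, ∑ K ∈ T.filter (fun K => 0 < w' K), w' K * g K = ∑ K : T, w K * g K := by
    intro g
    rw [Finset.sum_filter, ← Finset.sum_coe_sort T]
    refine Finset.sum_congr rfl fun K _ => ?_
    rw [hw']
    rcases (hw0 K).lt_or_eq with h | h
    · rw [if_pos h]
    · rw [← h]; simp
  let μ : Flow α :=
    { supp := T.filter (fun K => 0 < w' K)
      w := w'
      pos := fun K hK => (Finset.mem_filter.1 hK).2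
      sum_one := by
        have h := hsum (fun _ => 1)
        simp only [mul_one] at h
        exact h.trans hw1 }
  have hmass : ∀ v, μ.mass hit v = ms w v := by
    intro v
    have h := hsum (fun K => if hit v K then 1 else 0)
    have h1 : μ.mass hit v = ∑ K ∈ T.filter (fun K => 0 < w' K), w' K * (if hit v K then 1 else 0) := by
      simp only [Flow.mass, Finset.sum_filter, μ]
      refine Finset.sum_congr rfl fun K _ => ?_
      split_ifs <;> simp
    rw [h1, h]
    refine Finset.sum_congr rfl fun K _ => ?_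
    split_ifs <;> simp
  refine ⟨μ, fun K hK => hTF (Finset.mem_filter.1 hK).1, fun K hK => ?_⟩
  have hE : energy V (μ.mass hit) = f w := by
    simp only [energy, f]
    exact Finset.sum_congr rfl fun v _ => by rw [hmass]
  obtain ⟨K₀, hK₀, hpat⟩ : pat K ∈ pat '' (T : Set α) := by rw [hT]; exact ⟨K, hK, rfl⟩
  have hlen : len V hit (μ.mass hit) K = ∑ v ∈ V, if hit v K₀ then ms w v else 0 := by
    unfold len
    have : V.filter (fun v => hit v K) = V.filter (fun v => hit v K₀) := hpat.symm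
    rw [this, Finset.sum_filter]
    exact Finset.sum_congr rfl fun v _ => by rw [hmass]
  rw [hE, hlen]
  exact hvar ⟨K₀, hK₀⟩

theorem exists_flow_adm (V : Finset β) (hit : β → α → Prop) (F : Set α) (hne : F.Nonempty)
    (hF : ∀ K ∈ F, ∃ v ∈ V, hit v K) :
    ∃ μ : Flow α, (∀ K ∈ μ.supp, K ∈ F) ∧ 0 < energy V (μ.mass hit) ∧
      energy V (μ.mass hit) * md V hit F = 1 ∧
      Adm V hit F (fun v => μ.mass hit v / energy V (μ.mass hit)) ∧
      energy V (fun v => μ.mass hit v / energy V (μ.mass hit)) = md V hit F := by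
  obtain ⟨μ, h1, h2⟩ := exists_flow_aux V hit F hne
  have h3 := one_le_energy_mul_md V hit F hF μ h1
  set e := energy V (μ.mass hit) with he
  have hpos : 0 < e := by
    rcases (energy_nonneg V (μ.mass hit)).lt_or_eq with h | h
    · exact h
    · rw [he, ← h, zero_mul] at h3; linarith
  have hm0 : ∀ v, 0 ≤ μ.mass hit v := fun v =>
    Finset.sum_nonneg fun K hK => (μ.pos K (Finset.mem_filter.1 hK).1).le
  have hadm : Adm V hit F (fun v => μ.mass hit v / e) := by
    refine ⟨fun v => div_nonneg (hm0 v) hpos.le, fun K hK => ?_⟩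
    have := h2 K hK
    unfold len at this ⊢
    rw [← Finset.sum_div, le_div_iff₀ hpos, one_mul]
    exact this
  have hen : energy V (fun v => μ.mass hit v / e) = 1 / e := by
    have : energy V (fun v => μ.mass hit v / e) = e / e ^ 2 := by
      conv_rhs => rw [he]
      simp only [energy, div_pow, Finset.sum_div]
      rfl
    rw [this, sq, ← div_div, div_self hpos.ne']
  have h4 : md V hit F ≤ 1 / e := hen ▸ md_le V hit F _ hadm
  have h5 : 1 / e ≤ md V hit F := by rwa [div_le_iff₀ hpos, mul_comm]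
  have h6 : md V hit F = 1 / e := le_antisymm h4 h5
  exact ⟨μ, h1, hpos, by rw [h6, mul_one_div, div_self hpos.ne'], hadm, by rw [hen, h6]⟩

/-- (M1) duality: extremal flow -/
theorem exists_flow (V : Finset β) (hit : β → α → Prop) (F : Set α) (hne : F.Nonempty)
    (hF : ∀ K ∈ F, ∃ v ∈ V, hit v K) :
    ∃ μ : Flow α, (∀ K ∈ μ.supp, K ∈ F) ∧ energy V (μ.mass hit) * md V hit F = 1 := by
  obtain ⟨μ, h1, -, h2, -⟩ := exists_flow_adm V hit F hne hF
  exact ⟨μ, h1, h2⟩

/-- attained -/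
theorem exists_adm (V : Finset β) (hit : β → α → Prop) (F : Set α)
    (hF : ∀ K ∈ F, ∃ v ∈ V, hit v K) : ∃ ρ, Adm V hit F ρ ∧ energy V ρ = md V hit F := by
  rcases F.eq_empty_or_nonempty with h | h
  · subst h
    refine ⟨fun _ => 0, ⟨fun _ => le_rfl, fun K hK => absurd hK (Set.notMem_empty K)⟩, ?_⟩
    have h1 : energy V (fun _ : β => (0:ℝ)) = 0 := by simp [energy]
    have h2 := md_le V hit ∅ (fun _ : β => (0:ℝ))
      ⟨fun _ => le_rfl, fun K hK => absurd hK (Set.notMem_empty K)⟩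
    rw [h1] at h2 ⊢
    exact le_antisymm (md_nonneg V hit ∅) h2
  · obtain ⟨μ, -, -, -, h1, h2⟩ := exists_flow_adm V hit F h hF
    exact ⟨_, h1, h2⟩

theorem len_mono (V : Finset β) (hit : β → α → Prop) {ρ ρ' : β → ℝ} (h : ∀ v ∈ V, ρ v ≤ ρ' v) (K : α) :
    len V hit ρ K ≤ len V hit ρ' K :=
  Finset.sum_le_sum fun v hv => h v (Finset.mem_filter.1 hv).1

theorem md_union (V : Finset β) (hit : β → α → Prop) (F F' : Set α)
    (hF : ∀ K ∈ F, ∃ v ∈ V, hit v K) (hF' : ∀ K ∈ F', ∃ v ∈ V, hit v K) :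
    md V hit (F ∪ F') ≤ md V hit F + md V hit F' := by
  obtain ⟨ρ, h1, h2⟩ := exists_adm V hit F hF
  obtain ⟨ρ', h1', h2'⟩ := exists_adm V hit F' hF'
  have hadm : Adm V hit (F ∪ F') (fun v => max (ρ v) (ρ' v)) := by
    refine ⟨fun v => le_max_of_le_left (h1.1 v), fun K hK => ?_⟩
    rcases hK with hK | hK
    · exact (h1.2 K hK).trans (len_mono V hit (fun v _ => le_max_left _ _) K)
    · exact (h1'.2 K hK).trans (len_mono V hit (fun v _ => le_max_right _ _) K)
  refine (md_le V hit _ _ hadm).trans ?_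
  rw [← h2, ← h2']
  unfold energy
  rw [← Finset.sum_add_distrib]
  refine Finset.sum_le_sum fun v _ => ?_
  show max (ρ v) (ρ' v) ^ 2 ≤ _
  rcases max_cases (ρ v) (ρ' v) with ⟨h, -⟩ | ⟨h, -⟩ <;> rw [h] <;>
    nlinarith [sq_nonneg (ρ v), sq_nonneg (ρ' v)]

/-- (M3) comparison -/
theorem md_compare {α' : Type*} (V : Finset β) (hit : β → α → Prop) (F : Set α)
    (V' : Finset γ) (hit' : γ → α' → Prop) (F' : Set α')
    (hF' : ∀ K ∈ F', ∃ v ∈ V', hit' v K)
    (R : β → γ → Prop) (D : ℕ)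
    (h1 : ∀ v ∈ V, (V'.filter (fun v' => R v v')).card ≤ D)
    (h2 : ∀ v' ∈ V', (V.filter (fun v => R v v')).card ≤ D)
    (h3 : ∀ K ∈ F, ∃ K' ∈ F', ∀ v' ∈ V', hit' v' K' → ∃ v ∈ V, hit v K ∧ R v v') :
    md V hit F ≤ D * D * md V' hit' F' := by
  obtain ⟨ρ', ha, he⟩ := exists_adm V' hit' F' hF'
  set ρ : β → ℝ := fun v => ∑ v' ∈ V' with R v v', ρ' v' with hρ
  have hadm : Adm V hit F ρ := by
    refine ⟨fun v => Finset.sum_nonneg fun _ _ => ha.1 _, fun K hK => ?_⟩
    obtain ⟨K', hK', h4⟩ := h3 K hK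
    refine (ha.2 K' hK').trans ?_
    unfold len
    have e1 : ∑ v ∈ V with hit v K, ρ v
        = ∑ v' ∈ V', ∑ v ∈ V with hit v K, if R v v' then ρ' v' else 0 := by
      rw [Finset.sum_comm]
      refine Finset.sum_congr rfl fun v _ => ?_
      simp only [hρ, Finset.sum_filter]
    rw [e1, Finset.sum_filter]
    refine Finset.sum_le_sum fun v' hv' => ?_
    by_cases hh : hit' v' K'
    · rw [if_pos hh]
      obtain ⟨v, hv, hvK, hR⟩ := h4 v' hv' hh
      have hmem : v ∈ V.filter (fun v => hit v K) := Finset.mem_filter.2 ⟨hv, hvK⟩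
      have := Finset.single_le_sum (f := fun v => if R v v' then ρ' v' else 0)
        (fun v _ => by split_ifs; exacts [ha.1 _, le_rfl]) hmem
      simpa [hR] using this
    · rw [if_neg hh]
      exact Finset.sum_nonneg fun v _ => by split_ifs; exacts [ha.1 _, le_rfl]
  refine (md_le V hit F ρ hadm).trans ?_
  rw [← he]
  have e2 : ∀ v ∈ V, ρ v ^ 2 ≤ D * ∑ v' ∈ V', if R v v' then ρ' v' ^ 2 else 0 := by
    intro v hv
    have := sq_sum_le_card_mul_sum_sq (s := V'.filter (fun v' => R v v')) (f := ρ')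
    refine this.trans ?_
    rw [← Finset.sum_filter]
    refine mul_le_mul_of_nonneg_right ?_ (Finset.sum_nonneg fun _ _ => sq_nonneg _)
    exact_mod_cast h1 v hv
  calc energy V ρ ≤ ∑ v ∈ V, D * ∑ v' ∈ V', (if R v v' then ρ' v' ^ 2 else 0) :=
        Finset.sum_le_sum e2
    _ = D * ∑ v' ∈ V', ∑ v ∈ V, (if R v v' then ρ' v' ^ 2 else 0) := by
        rw [← Finset.mul_sum, Finset.sum_comm]
    _ ≤ D * ∑ v' ∈ V', D * ρ' v' ^ 2 := by
        refine mul_le_mul_of_nonneg_left (Finset.sum_le_sum fun v' hv' => ?_) (Nat.cast_nonneg D)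
        rw [← Finset.sum_filter, Finset.sum_const, nsmul_eq_mul]
        refine mul_le_mul_of_nonneg_right ?_ (sq_nonneg _)
        exact_mod_cast h2 v' hv'
    _ = D * D * energy V' ρ' := by
        rw [← Finset.mul_sum, energy, mul_assoc]

/-- (M4) composition -/
theorem md_comp (V : Finset β) (hitV : β → α → Prop) (W : Finset γ) (hitW : γ → α → Prop)
    (F : Set α) (hF : ∀ K ∈ F, ∃ v ∈ V, hitV v K)
    (σ : β → γ → ℝ) (E : ℝ) (D : ℕ) (hσ : ∀ v w, 0 ≤ σ v w)
    (hadm : ∀ v ∈ V, ∀ K ∈ F, hitV v K → 1 ≤ ∑ w ∈ W with hitW w K, σ v w)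
    (hE : ∀ v ∈ V, ∑ w ∈ W, σ v w ^ 2 ≤ E)
    (hD : ∀ w ∈ W, (V.filter (fun v => σ v w ≠ 0)).card ≤ D) :
    md W hitW F ≤ D * E * md V hitV F := by
  obtain ⟨ρ, ha, he⟩ := exists_adm V hitV F hF
  set ρ' : γ → ℝ := fun w => ∑ v ∈ V, ρ v * σ v w with hρ'
  have hadm' : Adm W hitW F ρ' := by
    refine ⟨fun w => Finset.sum_nonneg fun v _ => mul_nonneg (ha.1 v) (hσ v w), fun K hK => ?_⟩
    have e1 : len W hitW ρ' K = ∑ v ∈ V, ρ v * ∑ w ∈ W with hitW w K, σ v w := by
      simp only [len, hρ', Finset.mul_sum]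
      rw [Finset.sum_comm]
    rw [e1]
    refine (ha.2 K hK).trans ?_
    unfold len
    rw [Finset.sum_filter]
    refine Finset.sum_le_sum fun v hv => ?_
    by_cases hh : hitV v K
    · rw [if_pos hh]
      exact le_mul_of_one_le_right (ha.1 v) (hadm v hv K hK hh)
    · rw [if_neg hh]
      exact mul_nonneg (ha.1 v) (Finset.sum_nonneg fun w _ => hσ v w)
  refine (md_le W hitW F ρ' hadm').trans ?_
  rw [← he]
  have e2 : ∀ w ∈ W, ρ' w ^ 2 ≤ D * ∑ v ∈ V, ρ v ^ 2 * σ v w ^ 2 := by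
    intro w hw
    have e3 : ρ' w = ∑ v ∈ V with σ v w ≠ 0, ρ v * σ v w := by
      rw [hρ', Finset.sum_filter]
      refine Finset.sum_congr rfl fun v _ => ?_
      by_cases h : σ v w = 0 <;> simp [h]
    rw [e3]
    refine (sq_sum_le_card_mul_sum_sq (s := V.filter (fun v => σ v w ≠ 0))
      (f := fun v => ρ v * σ v w)).trans ?_
    refine mul_le_mul ?_ ?_ (Finset.sum_nonneg fun _ _ => sq_nonneg _) (Nat.cast_nonneg D)
    · exact_mod_cast hD w hw
    · simp only [mul_pow]
      exact Finset.sum_le_sum_of_subset_of_nonneg (Finset.filter_subset _ _)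
        fun v _ _ => mul_nonneg (sq_nonneg _) (sq_nonneg _)
  calc energy W ρ' ≤ ∑ w ∈ W, D * ∑ v ∈ V, ρ v ^ 2 * σ v w ^ 2 := Finset.sum_le_sum e2
    _ = D * ∑ v ∈ V, ρ v ^ 2 * ∑ w ∈ W, σ v w ^ 2 := by
        rw [← Finset.mul_sum, Finset.sum_comm]
        simp only [Finset.mul_sum]
    _ ≤ D * ∑ v ∈ V, ρ v ^ 2 * E := by
        refine mul_le_mul_of_nonneg_left (Finset.sum_le_sum fun v hv => ?_) (Nat.cast_nonneg D)
        exact mul_le_mul_of_nonneg_left (hE v hv) (sq_nonneg _)
    _ = D * E * energy V ρ := by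
        rw [← Finset.sum_mul, energy]; ring

/-! ### extra lemmas (helper641's names) -/

theorem energy_div (V : Finset β) (f : β → ℝ) (E : ℝ) :
    energy V (fun v => f v / E) = energy V f / E ^ 2 := by
  unfold energy
  rw [Finset.sum_div]
  exact Finset.sum_congr rfl fun v _ => div_pow _ _ _

theorem len_nonneg (V : Finset β) (hit : β → α → Prop) (ρ : β → ℝ) (hρ : ∀ v, 0 ≤ ρ v) (K : α) :
    0 ≤ len V hit ρ K :=
  Finset.sum_nonneg fun _ _ => hρ _

theorem Flow.mass_nonneg (μ : Flow α) (hit : β → α → Prop) (v : β) : 0 ≤ μ.mass hit v :=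
  Finset.sum_nonneg fun K hK => (μ.pos K (Finset.mem_of_mem_filter K hK)).le

/-- the pairing `∑ ρ(v) μ(v) = ∑ w(K) len(K)`. -/
theorem Flow.pairing (μ : Flow α) (V : Finset β) (hit : β → α → Prop) (ρ : β → ℝ) :
    ∑ v ∈ V, ρ v * μ.mass hit v = ∑ K ∈ μ.supp, μ.w K * len V hit ρ K :=
  (sum_len V hit ρ μ).symm

theorem Flow.one_le_pairing (μ : Flow α) (V : Finset β) (hit : β → α → Prop) (F : Set α)
    (hμ : ∀ K ∈ μ.supp, K ∈ F) (ρ : β → ℝ) (hρ : Adm V hit F ρ) :
    1 ≤ ∑ v ∈ V, ρ v * μ.mass hit v := by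
  rw [μ.pairing]
  calc (1 : ℝ) = ∑ K ∈ μ.supp, μ.w K := μ.sum_one.symm
    _ ≤ _ := Finset.sum_le_sum fun K hK => by
      have h1 := hρ.2 K (hμ K hK)
      have h2 := μ.pos K hK
      nlinarith

theorem Flow.one_le_energy_mul (μ : Flow α) (V : Finset β) (hit : β → α → Prop) (F : Set α)
    (hμ : ∀ K ∈ μ.supp, K ∈ F) (ρ : β → ℝ) (hρ : Adm V hit F ρ) :
    1 ≤ energy V (μ.mass hit) * energy V ρ := by
  have h1 := μ.one_le_pairing V hit F hμ ρ hρ
  have h2 := Finset.sum_mul_sq_le_sq_mul_sq V ρ (μ.mass hit)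
  unfold energy
  nlinarith

/-- minimal norm convex combination of incidence vectors. -/
theorem exists_minflow (V : Finset β) (hit : β → α → Prop) (F : Set α) (hne : F.Nonempty) :
    ∃ μ : Flow α, (∀ K ∈ μ.supp, K ∈ F) ∧
      ∀ K ∈ F, energy V (μ.mass hit) ≤ len V hit (μ.mass hit) K :=
  exists_flow_aux V hit F hne

/-- (M1) duality, full form: an extremal flow, the extremal weight is proportional to its masses. -/
theorem exists_flow' (V : Finset β) (hit : β → α → Prop) (F : Set α) (hne : F.Nonempty)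
    (hF : ∀ K ∈ F, ∃ v ∈ V, hit v K) :
    ∃ μ : Flow α, (∀ K ∈ μ.supp, K ∈ F) ∧ 0 < energy V (μ.mass hit) ∧
      energy V (μ.mass hit) * md V hit F = 1 ∧
      Adm V hit F (fun v => μ.mass hit v / energy V (μ.mass hit)) := by
  obtain ⟨μ, h1, h2, h3, h4, -⟩ := exists_flow_adm V hit F hne hF
  exact ⟨μ, h1, h2, h3, h4⟩

end M

end P198Q
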