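import Vale.Agent.P198.Q.NoK33
import Mathlib.Geometry.Manifold.Instances.Sphere

/-!
# P198, block P2: a metric space homeomorphic to the 2-sphere is `Planar`
-/

open Metric Set TopologicalSpace
open scoped Classical

namespace P198Q

/-- the unit sphere of `ℝ³` -/
abbrev S2 : Type := sphere (0 : EuclideanSpace ℝ (Fin 3)) 1

/-- closed caps of the sphere (images of round balls under inverse stereographic projection) are
compact, connected, and complements of open balls. -/
theorem exists_cap (v : S2) (R : ℝ) (hR : 0 ≤ R) :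
    ∃ Ω : Set S2, IsCompact Ω ∧ IsConnected Ω ∧
      (∀ y ∈ Ω, 16 / (R ^ 2 + 4) ≤ dist y v ^ 2) ∧
      (∀ y, y ∉ Ω → dist y v ^ 2 < 16 / (R ^ 2 + 4)) := by
  have hv : ‖(v : EuclideanSpace ℝ (Fin 3))‖ = 1 := by simp
  have hdist : ∀ w : (Submodule.span ℝ {(v : EuclideanSpace ℝ (Fin 3))})ᗮ,
      dist (stereoInvFun hv w) v ^ 2 = 16 / (‖w‖ ^ 2 + 4) := by
    intro w
    have h1 : inner ℝ (w : EuclideanSpace ℝ (Fin 3)) (v : EuclideanSpace ℝ (Fin 3)) = 0 := by
      have := w.2
      rw [Submodule.mem_orthogonal_singleton_iff_inner_left] at this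
      exact this
    have h2 : (inner ℝ (v : EuclideanSpace ℝ (Fin 3)) (v : EuclideanSpace ℝ (Fin 3)) : ℝ) = 1 := by
      rw [real_inner_self_eq_norm_sq, hv]; norm_num
    have hpos : (0 : ℝ) < ‖w‖ ^ 2 + 4 := by positivity
    have h3 : inner ℝ ((stereoInvFun hv w : S2) : EuclideanSpace ℝ (Fin 3))
        (v : EuclideanSpace ℝ (Fin 3)) = (‖w‖ ^ 2 + 4)⁻¹ * (‖w‖ ^ 2 - 4) := by
      rw [stereoInvFun_apply, inner_smul_left, inner_add_left, inner_smul_left, inner_smul_left,
        h1, h2]
      simp
    have hn : ‖((stereoInvFun hv w : S2) : EuclideanSpace ℝ (Fin 3))‖ = 1 := by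
      simpa using (stereoInvFun hv w).2
    have h4 : dist (stereoInvFun hv w) v ^ 2
        = ‖((stereoInvFun hv w : S2) : EuclideanSpace ℝ (Fin 3)) - v‖ ^ 2 := by
      rw [Subtype.dist_eq, dist_eq_norm]
    rw [h4, norm_sub_sq_real, h3, hn, hv]
    field_simp
    ring
  refine ⟨stereoInvFun hv '' closedBall 0 R, ?_, ?_, ?_, ?_⟩
  · exact (isCompact_closedBall 0 R).image (continuous_stereoInvFun hv)
  · refine IsConnected.image ?_ _ (continuous_stereoInvFun hv).continuousOn
    exact ((convex_closedBall 0 R).isPathConnected ⟨0, by simp [hR]⟩).isConnected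
  · rintro y ⟨w, hw, rfl⟩
    rw [hdist w]
    have : ‖w‖ ≤ R := by simpa using hw
    have h5 : ‖w‖ ^ 2 ≤ R ^ 2 := by gcongr
    exact div_le_div_of_nonneg_left (by positivity) (by positivity) (by linarith)
  · intro y hy
    by_cases hyv : y = v
    · subst hyv
      rw [dist_self]
      have h6 : (0 : ℝ) < 16 / (R ^ 2 + 4) := by positivity
      simpa using h6
    · have hyv' : (y : EuclideanSpace ℝ (Fin 3)) ≠ v := fun h => hyv (Subtype.ext h)
      have hl := stereo_left_inv hv hyv'
      set w := stereoToFun (v : EuclideanSpace ℝ (Fin 3)) y with hw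
      rw [← hl, hdist w]
      have hlt : R < ‖w‖ := by
        by_contra hcon
        push Not at hcon
        exact hy ⟨w, by simpa using hcon, hl⟩
      have h5 : R ^ 2 < ‖w‖ ^ 2 := by gcongr
      exact div_lt_div_of_pos_left (by positivity) (by positivity) (by linarith)

/-- transfer of `K33` along a homeomorphism. -/
theorem K33.image {Z Z' : Type*} [MetricSpace Z] [MetricSpace Z'] (e : Z ≃ₜ Z')
    {P W : Fin 3 → Set Z} {E : Fin 3 → Fin 3 → Set Z} (h : K33 P W E) :
    K33 (fun i => e '' P i) (fun n => e '' W n) (fun n i => e '' E n i) where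
  P_compact i := (h.P_compact i).image e.continuous
  P_conn i := (h.P_conn i).image _ e.continuous.continuousOn
  W_compact i := (h.W_compact i).image e.continuous
  W_conn i := (h.W_conn i).image _ e.continuous.continuousOn
  E_compact n i := (h.E_compact n i).image e.continuous
  E_conn n i := (h.E_conn n i).image _ e.continuous.continuousOn
  PP i j hij := (disjoint_image_iff e.injective).2 (h.PP i j hij)
  WW n m hnm := (disjoint_image_iff e.injective).2 (h.WW n m hnm)
  PW i n := (disjoint_image_iff e.injective).2 (h.PW i n)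
  EE n i n' i' hne := (disjoint_image_iff e.injective).2 (h.EE n i n' i' hne)
  EP n i := by
    obtain ⟨x, hx, hx'⟩ := h.EP n i
    exact ⟨e x, mem_image_of_mem _ hx, mem_image_of_mem _ hx'⟩
  EW n i := by
    obtain ⟨x, hx, hx'⟩ := h.EW n i
    exact ⟨e x, mem_image_of_mem _ hx, mem_image_of_mem _ hx'⟩
  EP' n i j hij := (disjoint_image_iff e.injective).2 (h.EP' n i j hij)
  EW' n m i hnm := (disjoint_image_iff e.injective).2 (h.EW' n m i hnm)

/-- a compact, locally connected metric space is uniformly locally connected. -/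
theorem t1_of_locallyConnected {Z : Type*} [MetricSpace Z] [CompactSpace Z]
    [LocallyConnectedSpace Z] (ε : ℝ) (hε : 0 < ε) :
    ∃ δ : ℝ, 0 < δ ∧ ∀ x y : Z, dist x y < δ →
      ∃ K : Set Z, IsCompact K ∧ IsConnected K ∧ x ∈ K ∧ y ∈ K ∧ diam K < ε := by
  have h1 : ∀ z : Z, ∃ V : Set Z, V ⊆ ball z (ε / 4) ∧ IsOpen V ∧ z ∈ V ∧ IsConnected V := by
    intro z
    exact locallyConnectedSpace_iff_subsets_isOpen_isConnected.1 inferInstance z
      (ball z (ε / 4)) (ball_mem_nhds z (by positivity))
  choose V hV1 hV2 hV3 hV4 using h1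
  obtain ⟨δ, hδ, hL⟩ := lebesgue_number_lemma_of_metric (s := (univ : Set Z)) isCompact_univ hV2
    (fun z _ => mem_iUnion.2 ⟨z, hV3 z⟩)
  refine ⟨δ, hδ, fun x y hxy => ?_⟩
  obtain ⟨z, hz⟩ := hL x (mem_univ x)
  refine ⟨closure (V z), isClosed_closure.isCompact, (hV4 z).closure, ?_, ?_, ?_⟩
  · exact subset_closure (hz (mem_ball_self hδ))
  · exact subset_closure (hz (by rwa [mem_ball, dist_comm]))
  · rw [diam_closure]
    have h2 : diam (V z) ≤ 2 * (ε / 4) :=
      (diam_mono (hV1 z) isBounded_ball).trans (diam_ball (by positivity))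
    linarith

instance : LocallyConnectedSpace S2 := by
  have : Fact (Module.finrank ℝ (EuclideanSpace ℝ (Fin 3)) = 2 + 1) := ⟨by simp⟩
  exact ChartedSpace.locallyConnectedSpace (EuclideanSpace ℝ (Fin 2)) _

theorem planar_of_homeomorph {Z : Type*} [MetricSpace Z]
    (e : Z ≃ₜ sphere (0 : EuclideanSpace ℝ (Fin 3)) 1) : Planar Z := by
  have : CompactSpace Z := e.symm.compactSpace
  have : LocallyConnectedSpace Z := e.isOpenEmbedding.locallyConnectedSpace
  refine ⟨fun ε hε => t1_of_locallyConnected ε hε, ?_, ?_⟩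
  · intro t ht
    have hu : UniformContinuous e := CompactSpace.uniformContinuous_of_continuous e.continuous
    have hu' : UniformContinuous e.symm :=
      CompactSpace.uniformContinuous_of_continuous e.symm.continuous
    obtain ⟨δ, hδ, hd⟩ := Metric.uniformContinuous_iff.1 hu' (t / 2) (by positivity)
    -- radius
    set R : ℝ := 8 / δ with hRdef
    have hR : 0 ≤ R := by positivity
    have hRpos : (0 : ℝ) < R ^ 2 + 4 := by positivity
    have hRδ : 16 / (R ^ 2 + 4) < (δ / 2) ^ 2 := by
      rw [div_lt_iff₀ hRpos]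
      have : (δ / 2) ^ 2 * (R ^ 2 + 4) = 16 + δ ^ 2 := by
        rw [hRdef]; field_simp; ring
      rw [this]
      have : 0 < δ ^ 2 := by positivity
      linarith
    set r : ℝ := Real.sqrt (16 / (R ^ 2 + 4)) with hr
    have hrpos : 0 < r := Real.sqrt_pos.2 (by positivity)
    have hr2 : r ^ 2 = 16 / (R ^ 2 + 4) := Real.sq_sqrt (by positivity)
    obtain ⟨c, hc, hcd⟩ := Metric.uniformContinuous_iff.1 hu r hrpos
    refine ⟨c, hc, fun x => ?_⟩
    obtain ⟨Ω, hΩ1, hΩ2, hΩ3, hΩ4⟩ := exists_cap (e x) R hR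
    refine ⟨e.symm '' Ω, hΩ1.image e.symm.continuous,
      hΩ2.image _ e.symm.continuous.continuousOn, ?_, ?_⟩
    · rw [Set.disjoint_left]
      rintro _ ⟨y, hy, rfl⟩ hyx
      have h1 := hcd hyx
      rw [e.apply_symm_apply] at h1
      have h2 := hΩ3 y hy
      rw [← hr2] at h2
      have h3 : r ≤ dist y (e x) := (abs_le_of_sq_le_sq' h2 dist_nonneg).2
      linarith
    · have hsub : ∀ a ∈ (e.symm '' Ω)ᶜ, dist (e a) (e x) < δ / 2 := by
        intro a ha
        have h1 : e a ∉ Ω := fun h => ha ⟨e a, h, e.symm_apply_apply a⟩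
        have h2 := (hΩ4 _ h1).trans hRδ
        exact (abs_lt_of_sq_lt_sq' h2 (by positivity)).2
      have : diam (e.symm '' Ω)ᶜ ≤ t / 2 := by
        refine diam_le_of_forall_dist_le (by positivity) fun a ha b hb => ?_
        have h3 : dist (e a) (e b) < δ := by
          have h4 := dist_triangle_right (e a) (e b) (e x)
          have := hsub a ha
          have := hsub b hb
          linarith
        have h5 := hd h3
        rw [e.symm_apply_apply, e.symm_apply_apply] at h5
        exact h5.le
      linarith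
  · intro P W E h
    exact no_K33_sphere _ _ _ (h.image e)

end P198Q
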