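import Vale.Agent.P198.Q.Defs

/-!
# Consequences of the axioms: zoom, far field, nets, doubling (blocks Z1, Z2)
-/

open Metric Set TopologicalSpace
open scoped Classical

namespace P198Q

section Zm
variable {G Z : Type*} [Group G] [MetricSpace Z] [MulAction G Z] (q : QM G Z)
include q

theorem zoom_upper (g : G) (a b : Z) : dist (g • a) (g • b) ≤ q.C * (dist a b / q.s g) := by
  have hs := q.s_pos g
  have h1 := q.q1_upper g a b
  have h2 : dist (g • a) (g • b) * (q.s g * q.s g) ≤ q.C * (q.s g * dist a b) := by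
    refine le_trans ?_ h1
    gcongr
    · exact le_max_left _ _
    · exact le_max_left _ _
  have h3 : (dist (g • a) (g • b) * q.s g) * q.s g ≤ (q.C * dist a b) * q.s g := by
    calc _ = dist (g • a) (g • b) * (q.s g * q.s g) := by ring
      _ ≤ q.C * (q.s g * dist a b) := h2
      _ = _ := by ring
  have h4 := le_of_mul_le_mul_right h3 hs
  rw [← mul_div_assoc, le_div_iff₀ hs]
  exact h4

theorem zoom_lower (R : ℝ) (hR : 1 ≤ R) (g : G) (a b : Z) (ha : q.m g a ≤ R * q.s g) :
    min 1 (dist a b / q.s g) ≤ (q.C * R * (R + 1)) * dist (g • a) (g • b) := by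
  have hs := q.s_pos g
  have hC := q.one_le_C
  have hC0 : 0 < q.C := by linarith
  have hR0 : 0 < R := by linarith
  have h1 := q.q1_lower g a b
  have hmb : max (q.s g) (dist b (q.ζ g)) ≤ R * q.s g + dist a b := by
    have h0 : max (q.s g) (dist a (q.ζ g)) ≤ R * q.s g := ha
    have h2 := (le_max_right (q.s g) (dist a (q.ζ g))).trans h0
    have h3 := dist_triangle_left b (q.ζ g) a
    refine max_le ?_ (by linarith)
    have := dist_nonneg (x := a) (y := b)
    nlinarith
  set Δ := dist (g • a) (g • b) with hΔ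
  have hΔ0 : 0 ≤ Δ := dist_nonneg
  have h4 : q.s g * dist a b ≤ q.C * (Δ * ((R * q.s g) * (R * q.s g + dist a b))) := by
    refine h1.trans ?_
    gcongr
    exact ha
  set t := dist a b / q.s g with ht
  have hd : dist a b = t * q.s g := by rw [ht]; field_simp
  have ht0 : 0 ≤ t := by positivity
  have h5 : t ≤ q.C * Δ * R * (R + t) := by
    rw [hd] at h4
    have h6 : (q.s g * q.s g) * t ≤ (q.s g * q.s g) * (q.C * Δ * R * (R + t)) := by
      calc _ = q.s g * (t * q.s g) := by ring
        _ ≤ _ := h4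
        _ = _ := by ring
    exact le_of_mul_le_mul_left h6 (by positivity)
  rcases le_total t 1 with h | h
  · rw [min_eq_right h]
    calc t ≤ q.C * Δ * R * (R + t) := h5
      _ ≤ q.C * Δ * R * (R + 1) := by gcongr
      _ = _ := by ring
  · rw [min_eq_left h]
    have ht1 : 0 < t := by linarith
    have h7 : t * 1 ≤ t * (q.C * R * (R + 1) * Δ) := by
      calc t * 1 = t := by ring
        _ ≤ q.C * Δ * R * (R + t) := h5
        _ ≤ q.C * Δ * R * (R * t + t) := by
            gcongr
            nlinarith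
        _ = _ := by ring
    exact le_of_mul_le_mul_left h7 ht1

theorem far_upper (c : ℝ) (hc : 0 < c) (g : G) (a b : Z) (ha : c ≤ dist a (q.ζ g)) (hb : c ≤ dist b (q.ζ g)) :
    dist (g • a) (g • b) ≤ q.C / c ^ 2 * (q.s g * dist a b) := by
  have h1 := q.q1_upper g a b
  have h2 : dist (g • a) (g • b) * (c * c) ≤ q.C * (q.s g * dist a b) := by
    refine le_trans ?_ h1
    gcongr
    · exact ha.trans (le_max_right _ _)
    · exact hb.trans (le_max_right _ _)
  rw [div_mul_eq_mul_div, le_div_iff₀ (by positivity)]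
  calc _ = dist (g • a) (g • b) * (c * c) := by ring
    _ ≤ _ := h2

theorem far_center (c : ℝ) (hc : 0 < c) (g : G) (a : Z) (ha : c ≤ dist a (q.ζ g)) :
    dist (g • a) (q.ζ g⁻¹) ≤ q.C / c * q.s g := by
  have hs := q.s_pos g
  have h1 := q.q2_upper g a
  rw [div_mul_eq_mul_div, le_div_iff₀ hc]
  refine le_trans ?_ h1
  gcongr
  · exact le_max_right _ _
  · exact ha.trans (le_max_right _ _)

theorem smul_continuous (g : G) : Continuous (fun x : Z => g • x) := by
  have hs := q.s_pos g
  have hC0 : 0 < q.C := by linarith [q.one_le_C]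
  refine continuous_iff_continuousAt.2 fun x => ?_
  rw [Metric.continuousAt_iff]
  intro ε hε
  refine ⟨ε * q.s g / q.C, by positivity, fun {y} hy => ?_⟩
  have h1 := zoom_upper q g y x
  refine h1.trans_lt ?_
  rw [lt_div_iff₀ hC0] at hy
  rw [← mul_div_assoc, div_lt_iff₀ hs]
  linarith

end Zm

section Nets
variable {Z : Type*} [MetricSpace Z]

/-- maximal separated subset of a finite set -/
theorem exists_sep_subset (S : Finset Z) (r : ℝ) (hr : 0 < r) :
    ∃ T ⊆ S, (∀ a ∈ T, ∀ b ∈ T, a ≠ b → r ≤ dist a b) ∧ ∀ a ∈ S, ∃ b ∈ T, dist a b < r := by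
  obtain ⟨T, hT, hmax⟩ := Finset.exists_max_image
    (S.powerset.filter (fun T => ∀ a ∈ T, ∀ b ∈ T, a ≠ b → r ≤ dist a b)) Finset.card
    ⟨∅, by simp⟩
  rw [Finset.mem_filter, Finset.mem_powerset] at hT
  refine ⟨T, hT.1, hT.2, fun a ha => ?_⟩
  by_contra hcon
  push Not at hcon
  have haT : a ∉ T := fun h => by
    have := hcon a h
    rw [dist_self] at this
    linarith
  have h1 : insert a T ∈ S.powerset.filter (fun T => ∀ a ∈ T, ∀ b ∈ T, a ≠ b → r ≤ dist a b) := by
    rw [Finset.mem_filter, Finset.mem_powerset]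
    refine ⟨Finset.insert_subset ha hT.1, ?_⟩
    intro x hx y hy hxy
    rcases Finset.mem_insert.1 hx with hx1 | hx1
    · rcases Finset.mem_insert.1 hy with hy1 | hy1
      · exact absurd (hx1.trans hy1.symm) hxy
      · rw [hx1]
        exact hcon y hy1
    · rcases Finset.mem_insert.1 hy with hy1 | hy1
      · rw [dist_comm, hy1]
        exact hcon x hx1
      · exact hT.2 x hx1 y hy1 hxy
  have h2 := hmax _ h1
  rw [Finset.card_insert_of_notMem haT] at h2
  omega

/-- separated sets in a compact space have bounded cardinality. -/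
theorem exists_packing_bound [CompactSpace Z] (ε : ℝ) (hε : 0 < ε) :
    ∃ n : ℕ, ∀ S : Finset Z, (∀ a ∈ S, ∀ b ∈ S, a ≠ b → ε ≤ dist a b) → S.card ≤ n := by
  obtain ⟨t, -, htf, ht⟩ := finite_cover_balls_of_compact (isCompact_univ (X := Z))
    (show 0 < ε / 2 by linarith)
  have hch : ∀ a : Z, ∃ x ∈ t, a ∈ ball x (ε / 2) := by
    intro a
    have := ht (mem_univ a)
    simpa using this
  choose f hf hf' using hch
  refine ⟨htf.toFinset.card, fun S hS => ?_⟩
  refine Finset.card_le_card_of_injOn f (fun a _ => by simpa using hf a) ?_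
  intro a ha b hb hab
  by_contra hne
  have h1 := hS a ha b hb hne
  have h2 := hf' a
  have h3 := hf' b
  rw [← hab] at h3
  rw [mem_ball] at h2 h3
  have := dist_triangle_right a b (f a)
  linarith

end Nets

/-! ### nets exist -/
theorem exists_net (Z : Type*) [MetricSpace Z] [CompactSpace Z] : ∃ N : ℕ → Finset Z, IsNet N := by
  have h : ∀ k : ℕ, ∃ S : Finset Z, (∀ x ∈ S, ∀ y ∈ S, x ≠ y → sc k ≤ dist x y) ∧
      ∀ x : Z, ∃ v ∈ S, dist x v ≤ sc k := by
    intro k
    have hk : 0 < sc k := by unfold sc; positivity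
    obtain ⟨n, hn⟩ := exists_packing_bound (Z := Z) (sc k) hk
    set A : Set ℕ := {m | ∃ S : Finset Z, (∀ x ∈ S, ∀ y ∈ S, x ≠ y → sc k ≤ dist x y) ∧ S.card = m}
      with hA
    have hne : A.Nonempty := ⟨0, ∅, by simp⟩
    have hbdd : BddAbove A := ⟨n, by
      rintro m ⟨S, hS, rfl⟩
      exact hn S hS⟩
    obtain ⟨S, hS, hScard⟩ := Nat.sSup_mem hne hbdd
    refine ⟨S, hS, fun x => ?_⟩
    by_contra hcon
    push Not at hcon
    have hxS : x ∉ S := fun h => by
      have := hcon x h
      rw [dist_self] at this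
      linarith
    have h1 : (insert x S).card ∈ A := by
      refine ⟨insert x S, ?_, rfl⟩
      intro a ha b hb hab
      rcases Finset.mem_insert.1 ha with ha1 | ha1
      · rcases Finset.mem_insert.1 hb with hb1 | hb1
        · exact absurd (ha1.trans hb1.symm) hab
        · rw [ha1]
          exact (hcon b hb1).le
      · rcases Finset.mem_insert.1 hb with hb1 | hb1
        · rw [dist_comm, hb1]
          exact (hcon a ha1).le
        · exact hS a ha1 b hb1 hab
    have h2 := le_csSup hbdd h1
    rw [Finset.card_insert_of_notMem hxS] at h2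
    omega
  choose N hN1 hN2 using h
  exact ⟨N, hN1, hN2⟩

end P198Q
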