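import Vale.Agent.P198.Q.Defs

/-!
# P198, block A7b: geometry of the maps `f_v = h_v g_0`
-/

open Metric Set TopologicalSpace
open scoped Classical

namespace P198Q

/-- geometry of `f_v = h_v g_0`, `β_v = h_v b_0` at relative level `l` -/
structure Geom7 (G : Type*) {Z : Type*} [Group G] [MetricSpace Z] [MulAction G Z]
    (N : ℕ → Finset Z) (Ω : Set Z) (c₁ A A₂ : ℝ) (N₂ a : ℕ) (i₀ : ℕ) (x₀ : Z) (l : ℕ)
    (f : Z → G) (β : Z → Z) : Prop where
  W : ∀ v, dist v x₀ ≤ 7 / 5 * sc i₀ → ∀ y ∈ Ω, dist (f v • y) (β v) ≤ A * (sc l * sc i₀)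
  far : ∀ v p, dist v x₀ ≤ 7 / 5 * sc i₀ → dist p v ≤ 2 * sc (i₀ + l) → c₁ ≤ dist (f v • p) (β v)
  sep : ∀ v p y (n : ℕ), dist v x₀ ≤ 7 / 5 * sc i₀ → dist p v ≤ 2 * sc (i₀ + l) →
      sc (i₀ + l + n) ≤ dist p y → c₁ * sc n ≤ dist (f v • p) (f v • y)
  related : ∀ v, dist v x₀ ≤ 7 / 5 * sc i₀ →
      ((N (i₀ + l)).filter (fun v' => dist v' x₀ ≤ 7 / 5 * sc i₀ ∧
        dist (β v) (β v') < A₂ * sc l)).card ≤ N₂
  avoid : ∀ v v', dist v x₀ ≤ 7 / 5 * sc i₀ → dist v' x₀ ≤ 7 / 5 * sc i₀ →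
      A₂ * sc l ≤ dist (β v) (β v') →
      ∃ z, dist z x₀ ≤ 3 / 2 * sc i₀ ∧ ∀ y, dist (f v • y) (β v') ≤ A * (sc l * sc i₀) →
        dist y z ≤ sc (i₀ + (i₀ - a))

namespace Geo7

theorem sc_pos (k : ℕ) : 0 < sc k := by unfold sc; positivity

theorem sc_le_one (k : ℕ) : sc k ≤ 1 := by
  unfold sc; exact pow_le_one₀ (by norm_num) (by norm_num)

theorem sc_add (a b : ℕ) : sc (a + b) = sc a * sc b := by unfold sc; rw [pow_add]

theorem sc_anti {a b : ℕ} (h : a ≤ b) : sc b ≤ sc a := by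
  unfold sc; exact pow_le_pow_of_le_one (by norm_num) (by norm_num) h

theorem exists_sc_lt {ε : ℝ} (h : 0 < ε) : ∃ k : ℕ, sc k < ε := by
  unfold sc; exact exists_pow_lt_of_lt_one h (by norm_num)

variable {G Z : Type*} [Group G] [MetricSpace Z] [MulAction G Z] (q : QM G Z)

theorem zoom_upper (g : G) (a b : Z) : dist (g • a) (g • b) ≤ q.C * (dist a b / q.s g) := by
  have hs := q.s_pos g
  have h := q.q1_upper g a b
  have h1 : dist (g • a) (g • b) * (q.s g * q.s g) ≤ q.C * (q.s g * dist a b) := by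
    refine le_trans ?_ h
    apply mul_le_mul_of_nonneg_left _ dist_nonneg
    exact mul_le_mul (le_max_left _ _) (le_max_left _ _) hs.le (hs.le.trans (le_max_left _ _))
  rw [← mul_div_assoc, le_div_iff₀ hs]
  have h2 : dist (g • a) (g • b) * q.s g * q.s g ≤ q.C * dist a b * q.s g := by
    calc _ = dist (g • a) (g • b) * (q.s g * q.s g) := by ring
      _ ≤ _ := h1
      _ = _ := by ring
  exact le_of_mul_le_mul_right h2 hs

theorem zoom_lower (R : ℝ) (hR : 1 ≤ R) (g : G) (a b : Z) (ha : q.m g a ≤ R * q.s g) :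
    min 1 (dist a b / q.s g) ≤ (q.C * R * (R + 1)) * dist (g • a) (g • b) := by
  have hs := q.s_pos g
  have hC := q.one_le_C
  have h := q.q1_lower g a b
  unfold QM.m at ha
  have hmb : max (q.s g) (dist b (q.ζ g)) ≤ R * q.s g + dist a b := by
    apply max_le
    · have : 0 ≤ dist a b := dist_nonneg
      nlinarith
    · have t := dist_triangle b a (q.ζ g)
      rw [dist_comm b a] at t
      have := (le_max_right _ _).trans ha
      linarith
  set t := dist a b / q.s g with ht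
  have hd : dist a b = t * q.s g := by rw [ht]; field_simp
  have ht0 : 0 ≤ t := by rw [ht]; positivity
  set Dg := dist (g • a) (g • b) with hDg
  have hDg0 : 0 ≤ Dg := dist_nonneg
  have h1 : q.s g * dist a b ≤ q.C * (Dg * ((R * q.s g) * (R * q.s g + dist a b))) := by
    refine h.trans ?_
    apply mul_le_mul_of_nonneg_left _ (by linarith)
    apply mul_le_mul_of_nonneg_left _ hDg0
    exact mul_le_mul ha hmb (hs.le.trans (le_max_left _ _)) (by positivity)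
  rw [hd] at h1
  have h2 : t ≤ q.C * R * Dg * (R + t) := by
    have : t * (q.s g * q.s g) ≤ (q.C * R * Dg * (R + t)) * (q.s g * q.s g) := by
      calc _ = q.s g * (t * q.s g) := by ring
        _ ≤ _ := h1
        _ = _ := by ring
    exact le_of_mul_le_mul_right this (by positivity)
  rcases le_total t 1 with h3 | h3
  · rw [min_eq_right h3]
    calc t ≤ _ := h2
      _ ≤ q.C * R * Dg * (R + 1) := by
        apply mul_le_mul_of_nonneg_left (by linarith); positivity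
      _ = _ := by ring
  · rw [min_eq_left h3]
    have h4 : q.C * R * Dg * (R + t) ≤ (q.C * R * (R + 1) * Dg) * t := by
      calc _ = q.C * R * Dg * (R * 1 + t) := by ring
        _ ≤ q.C * R * Dg * (R * t + t) := by
          apply mul_le_mul_of_nonneg_left _ (by positivity)
          have := mul_le_mul_of_nonneg_left h3 (show (0:ℝ) ≤ R by linarith)
          linarith
        _ = _ := by ring
    have h5 : 1 * t ≤ (q.C * R * (R + 1) * Dg) * t := by rw [one_mul]; exact h2.trans h4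
    exact le_of_mul_le_mul_right h5 (by linarith)

theorem far_upper (c : ℝ) (hc : 0 < c) (g : G) (a b : Z) (ha : c ≤ dist a (q.ζ g))
    (hb : c ≤ dist b (q.ζ g)) :
    dist (g • a) (g • b) ≤ q.C / c ^ 2 * (q.s g * dist a b) := by
  have h := q.q1_upper g a b
  have h1 : dist (g • a) (g • b) * (c * c) ≤ q.C * (q.s g * dist a b) := by
    refine le_trans ?_ h
    apply mul_le_mul_of_nonneg_left _ dist_nonneg
    exact mul_le_mul (ha.trans (le_max_right _ _)) (hb.trans (le_max_right _ _)) hc.le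
      (hc.le.trans (ha.trans (le_max_right _ _)))
  rw [div_mul_eq_mul_div, le_div_iff₀ (by positivity), pow_two]
  exact h1

theorem far_center (c : ℝ) (hc : 0 < c) (g : G) (a : Z) (ha : c ≤ dist a (q.ζ g)) :
    dist (g • a) (q.ζ g⁻¹) ≤ q.C / c * q.s g := by
  have h := q.q2_upper g a
  have hs := q.s_pos g
  have h1 : dist (g • a) (q.ζ g⁻¹) * c ≤ q.C * q.s g := by
    refine le_trans ?_ h
    exact mul_le_mul (le_max_right _ _) (ha.trans (le_max_right _ _)) hc.le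
      (hs.le.trans (le_max_left _ _))
  rw [div_mul_eq_mul_div, le_div_iff₀ hc]
  exact h1

/-- base point data: `g₀` zooms `B(x₀, r)` to unit size. -/
structure Base (g₀ : G) (x₀ : Z) (r : ℝ) : Prop where
  rpos : 0 < r
  s_le : q.s g₀ ≤ q.C * r
  le_s : r ≤ q.C * q.s g₀
  dist_le : dist x₀ (q.ζ g₀) ≤ q.C * r
  small : r < 1 / (5 * q.C ^ 4)

/-- `κ` -/
noncomputable def kap : ℝ := 1 / (5 * q.C ^ 3)

theorem C_pos : 0 < q.C := lt_of_lt_of_le one_pos q.one_le_C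

theorem kap_pos : 0 < kap q := by
  have := C_pos q
  unfold kap; positivity

theorem kap_le : kap q ≤ 1 / 5 := by
  have h := q.one_le_C
  unfold kap
  apply one_div_le_one_div_of_le (by norm_num)
  have : 1 ≤ q.C ^ 3 := one_le_pow₀ h
  linarith

variable {q}

theorem Base.m_le {g₀ : G} {x₀ : Z} {r : ℝ} (hb : Base q g₀ x₀ r) {y : Z} (hy : dist y x₀ ≤ 4 * r) :
    q.m g₀ y ≤ 5 * q.C * r := by
  have hC := q.one_le_C
  have hr := hb.rpos
  have h1 : r ≤ q.C * r := by nlinarith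
  unfold QM.m
  apply max_le
  · have := hb.s_le; nlinarith
  · have := dist_triangle y x₀ (q.ζ g₀)
    have := hb.dist_le
    nlinarith

theorem Base.m_le' {g₀ : G} {x₀ : Z} {r : ℝ} (hb : Base q g₀ x₀ r) {y : Z} (hy : dist y x₀ ≤ 4 * r) :
    q.m g₀ y ≤ (5 * q.C ^ 2) * q.s g₀ := by
  have hC := q.one_le_C
  have h := hb.m_le hy
  have := hb.le_s
  have h2 : 5 * q.C * r ≤ 5 * q.C * (q.C * q.s g₀) := by
    apply mul_le_mul_of_nonneg_left this; positivity
  calc q.m g₀ y ≤ 5 * q.C * r := h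
    _ ≤ _ := h2
    _ = _ := by ring

/-- (ii) -/
theorem Base.center_far {g₀ : G} {x₀ : Z} {r : ℝ} (hb : Base q g₀ x₀ r) {y : Z}
    (hy : dist y x₀ ≤ 4 * r) : kap q ≤ dist (g₀ • y) (q.ζ g₀⁻¹) := by
  have hC := q.one_le_C
  have hCp := C_pos q
  have hr := hb.rpos
  have hm := hb.m_le hy
  unfold QM.m at hm
  have h2 := q.q2_lower g₀ y
  have hs := hb.le_s
  set M := max (q.s g₀) (dist (g₀ • y) (q.ζ g₀⁻¹)) with hM
  have hM0 : 0 ≤ M := le_trans (q.s_pos g₀).le (le_max_left _ _)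
  have h3 : M * max (q.s g₀) (dist y (q.ζ g₀)) ≤ M * (5 * q.C * r) :=
    mul_le_mul_of_nonneg_left hm hM0
  have h4 : q.s g₀ ≤ q.C * (M * (5 * q.C * r)) :=
    h2.trans (mul_le_mul_of_nonneg_left h3 hCp.le)
  have h5 : r ≤ q.C * (q.C * (M * (5 * q.C * r))) :=
    hs.trans (mul_le_mul_of_nonneg_left h4 hCp.le)
  have h6 : 1 ≤ 5 * q.C ^ 3 * M := by
    have : r * 1 ≤ r * (5 * q.C ^ 3 * M) := by nlinarith
    exact le_of_mul_le_mul_left this hr
  have h7 : kap q ≤ M := by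
    unfold kap
    rw [div_le_iff₀ (by positivity)]
    linarith
  have h8 : q.s g₀ < kap q := by
    have h9 : q.C * r < q.C * (1 / (5 * q.C ^ 4)) := mul_lt_mul_of_pos_left hb.small hCp
    have h10 : q.C * (1 / (5 * q.C ^ 4)) = kap q := by
      unfold kap; field_simp
    linarith [hb.s_le]
  rcases le_max_iff.mp (hM ▸ h7) with h | h
  · linarith
  · exact h

/-- second zoom data -/
structure Sec (q : QM G Z) (g₀ h : G) (v : Z) (u : ℝ) : Prop where
  upos : 0 < u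
  u_le : u ≤ 1
  s_le : q.s h ≤ q.C * u
  le_s : u ≤ q.C * q.s h
  dist_le : dist (g₀ • v) (q.ζ h) ≤ q.C * u
  small : q.C * u ≤ kap q / 4

section
variable {g₀ h : G} {x₀ v : Z} {r u : ℝ}

theorem Sec.b_far (hb : Base q g₀ x₀ r) (hs : Sec q g₀ h v u) (hv : dist v x₀ ≤ 7 / 5 * r) :
    kap q / 2 ≤ dist (q.ζ g₀⁻¹) (q.ζ h) := by
  have hr := hb.rpos
  have h1 := hb.center_far (y := v) (by linarith)
  have h2 := hs.dist_le
  have h3 := hs.small
  have h4 := dist_triangle (g₀ • v) (q.ζ h) (q.ζ g₀⁻¹)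
  rw [dist_comm (q.ζ h)] at h4
  have := kap_pos q
  linarith

theorem Sec.W (hb : Base q g₀ x₀ r) (hs : Sec q g₀ h v u) (hv : dist v x₀ ≤ 7 / 5 * r)
    {c : ℝ} (hc : 0 < c) (h1 : q.C * r ≤ c / 2) (h2 : 2 * q.C ^ 2 / c * r ≤ kap q / 4)
    {y : Z} (hy : c ≤ dist y x₀) :
    dist (h • g₀ • y) (h • q.ζ g₀⁻¹) ≤ 32 * q.C ^ 4 / (kap q ^ 2 * c) * (u * r) := by
  have hCp := C_pos q
  have hr := hb.rpos
  have hk := kap_pos q
  have hu := hs.upos
  have e1 : c / 2 ≤ dist y (q.ζ g₀) := by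
    have := dist_triangle y (q.ζ g₀) x₀
    have h3 := hb.dist_le
    rw [dist_comm] at h3
    linarith
  have e2 : dist (g₀ • y) (q.ζ g₀⁻¹) ≤ 2 * q.C ^ 2 / c * r := by
    have := far_center q (c / 2) (by linarith) g₀ y e1
    calc _ ≤ _ := this
      _ ≤ q.C / (c / 2) * (q.C * r) := by
        apply mul_le_mul_of_nonneg_left hb.s_le; positivity
      _ = _ := by field_simp
  have e3 := hs.b_far hb hv
  have e4 : kap q / 4 ≤ dist (g₀ • y) (q.ζ h) := by
    have := dist_triangle (q.ζ g₀⁻¹) (g₀ • y) (q.ζ h)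
    rw [dist_comm (q.ζ g₀⁻¹) (g₀ • y)] at this
    linarith
  have e5 := far_upper q (kap q / 4) (by positivity) h (g₀ • y) (q.ζ g₀⁻¹) e4 (by linarith)
  calc _ ≤ _ := e5
    _ ≤ q.C / (kap q / 4) ^ 2 * ((q.C * u) * (2 * q.C ^ 2 / c * r)) := by
      apply mul_le_mul_of_nonneg_left _ (by positivity)
      apply mul_le_mul hs.s_le e2 dist_nonneg (by positivity)
    _ = _ := by field_simp; ring

theorem Sec.center_close (hb : Base q g₀ x₀ r) (hs : Sec q g₀ h v u) (hv : dist v x₀ ≤ 7 / 5 * r) :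
    dist (h • q.ζ g₀⁻¹) (q.ζ h⁻¹) ≤ 2 * q.C ^ 2 / kap q * u := by
  have hCp := C_pos q
  have hk := kap_pos q
  have e3 := hs.b_far hb hv
  have := far_center q (kap q / 2) (by positivity) h _ e3
  calc _ ≤ _ := this
    _ ≤ q.C / (kap q / 2) * (q.C * u) := by
        apply mul_le_mul_of_nonneg_left hs.s_le; positivity
    _ = _ := by field_simp

/-- lower bound constants -/
noncomputable def K1 (q : QM G Z) : ℝ := q.C * (5 * q.C ^ 2) * (5 * q.C ^ 2 + 1)
noncomputable def K2 (q : QM G Z) : ℝ := q.C * (3 * q.C ^ 3) * (3 * q.C ^ 3 + 1)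

theorem one_le_K1 : 1 ≤ K1 q := by
  have h := q.one_le_C
  have h1 : 1 ≤ q.C ^ 2 := one_le_pow₀ h
  unfold K1
  have h2 : 1 ≤ q.C * (5 * q.C ^ 2) := by nlinarith
  nlinarith

theorem one_le_K2 : 1 ≤ K2 q := by
  have h := q.one_le_C
  have h1 : 1 ≤ q.C ^ 3 := one_le_pow₀ h
  unfold K2
  have h2 : 1 ≤ q.C * (3 * q.C ^ 3) := by nlinarith
  nlinarith

theorem Base.lower (hb : Base q g₀ x₀ r) {p : Z} (hp : dist p x₀ ≤ 4 * r) (y : Z) :
    min 1 (dist p y / q.s g₀) ≤ K1 q * dist (g₀ • p) (g₀ • y) := by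
  have h := q.one_le_C
  have h1 : 1 ≤ q.C ^ 2 := one_le_pow₀ h
  exact zoom_lower q (5 * q.C ^ 2) (by linarith) g₀ p y (hb.m_le' hp)

theorem Sec.m_le (hb : Base q g₀ x₀ r) (hs : Sec q g₀ h v u) {p : Z}
    (hp : dist p v ≤ 2 * (r * u)) : q.m h (g₀ • p) ≤ (3 * q.C ^ 3) * q.s h := by
  have hC := q.one_le_C
  have hCp := C_pos q
  have hu := hs.upos
  have hr := hb.rpos
  have hs0 := q.s_pos g₀
  have hC2 : 1 ≤ q.C ^ 2 := one_le_pow₀ hC
  have hC3 : 1 ≤ q.C ^ 3 := one_le_pow₀ hC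
  have e1 : dist (g₀ • p) (g₀ • v) ≤ 2 * q.C ^ 2 * u := by
    have h1 := zoom_upper q g₀ p v
    have h2 : dist p v / q.s g₀ ≤ 2 * q.C * u := by
      rw [div_le_iff₀ hs0]
      calc dist p v ≤ 2 * (r * u) := hp
        _ ≤ 2 * ((q.C * q.s g₀) * u) := by
          apply mul_le_mul_of_nonneg_left _ (by norm_num)
          exact mul_le_mul_of_nonneg_right hb.le_s hu.le
        _ = _ := by ring
    calc _ ≤ _ := h1
      _ ≤ q.C * (2 * q.C * u) := mul_le_mul_of_nonneg_left h2 hCp.le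
      _ = _ := by ring
  have e2 : u ≤ q.C * q.s h := hs.le_s
  unfold QM.m
  apply max_le
  · have := q.s_pos h
    nlinarith
  · have e3 := dist_triangle (g₀ • p) (g₀ • v) (q.ζ h)
    have e4 := hs.dist_le
    have hCC : q.C ≤ q.C ^ 2 := by nlinarith
    have e5 : 2 * q.C ^ 2 * u + q.C * u ≤ 3 * q.C ^ 2 * u := by
      have := mul_le_mul_of_nonneg_right hCC hu.le
      linarith
    have e6 : 3 * q.C ^ 2 * u ≤ 3 * q.C ^ 2 * (q.C * q.s h) :=
      mul_le_mul_of_nonneg_left e2 (by positivity)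
    calc _ ≤ _ := e3
      _ ≤ 3 * q.C ^ 2 * u := by linarith
      _ ≤ _ := e6
      _ = _ := by ring

theorem Sec.lower (hb : Base q g₀ x₀ r) (hs : Sec q g₀ h v u) {p : Z}
    (hp : dist p v ≤ 2 * (r * u)) (z : Z) :
    min 1 (dist (g₀ • p) z / q.s h) ≤ K2 q * dist (h • g₀ • p) (h • z) := by
  have hC := q.one_le_C
  have h1 : 1 ≤ q.C ^ 3 := one_le_pow₀ hC
  exact zoom_lower q (3 * q.C ^ 3) (by linarith) h (g₀ • p) z (hs.m_le hb hp)

theorem dist_x0_le (hb : Base q g₀ x₀ r) (hs : Sec q g₀ h v u) (hv : dist v x₀ ≤ 7 / 5 * r) {p : Z}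
    (hp : dist p v ≤ 2 * (r * u)) : dist p x₀ ≤ 4 * r := by
  have := dist_triangle p v x₀
  have hu := hs.u_le
  have hr := hb.rpos
  nlinarith

theorem Sec.far (hb : Base q g₀ x₀ r) (hs : Sec q g₀ h v u) (hv : dist v x₀ ≤ 7 / 5 * r) {p : Z}
    (hp : dist p v ≤ 2 * (r * u)) : 1 / K2 q ≤ dist (h • g₀ • p) (h • q.ζ g₀⁻¹) := by
  have h1 := hb.center_far (dist_x0_le hb hs hv hp)
  have h2 := hs.lower hb hp (q.ζ g₀⁻¹)
  have hk := kap_pos q
  have hK := one_le_K2 (q := q)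
  have hsp := q.s_pos h
  have h3 : 1 ≤ dist (g₀ • p) (q.ζ g₀⁻¹) / q.s h := by
    rw [le_div_iff₀ hsp]
    have := hs.small
    have := hs.s_le
    linarith
  rw [min_eq_left h3] at h2
  rw [div_le_iff₀ (by linarith)]
  linarith

theorem Sec.sep (hb : Base q g₀ x₀ r) (hs : Sec q g₀ h v u) (hv : dist v x₀ ≤ 7 / 5 * r) {p y : Z}
    (hp : dist p v ≤ 2 * (r * u)) {e : ℝ} (he : 0 < e) (he1 : e ≤ 1) (hpy : r * u * e ≤ dist p y) :
    1 / (q.C ^ 2 * K1 q * K2 q) * e ≤ dist (h • g₀ • p) (h • g₀ • y) := by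
  have hC := q.one_le_C
  have hCp := C_pos q
  have hC2 : 1 ≤ q.C ^ 2 := one_le_pow₀ hC
  have hK1 := one_le_K1 (q := q)
  have hK2 := one_le_K2 (q := q)
  have hsp := q.s_pos h
  have hs0 := q.s_pos g₀
  have hu := hs.upos
  have hu1 := hs.u_le
  have hr := hb.rpos
  have h1 := hb.lower (dist_x0_le hb hs hv hp) y
  have h2 : u * e / q.C ≤ dist (g₀ • p) (g₀ • y) * K1 q := by
    refine le_trans (le_min ?_ ?_) (h1.trans (le_of_eq (mul_comm _ _)))
    · rw [div_le_one hCp]; nlinarith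
    · rw [div_le_div_iff₀ hCp hs0]
      calc u * e * q.s g₀ ≤ u * e * (q.C * r) := by
            apply mul_le_mul_of_nonneg_left hb.s_le; positivity
        _ = r * u * e * q.C := by ring
        _ ≤ dist p y * q.C := mul_le_mul_of_nonneg_right hpy hCp.le
  have h3 : e / (q.C ^ 2 * K1 q) ≤ dist (g₀ • p) (g₀ • y) / q.s h := by
    rw [div_le_div_iff₀ (by positivity) hsp]
    rw [div_le_iff₀ hCp] at h2
    calc e * q.s h ≤ e * (q.C * u) := mul_le_mul_of_nonneg_left hs.s_le he.le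
      _ = q.C * (u * e) := by ring
      _ ≤ q.C * (dist (g₀ • p) (g₀ • y) * K1 q * q.C) := mul_le_mul_of_nonneg_left h2 hCp.le
      _ = _ := by ring
  have h4 := hs.lower hb hp (g₀ • y)
  have h5 : e / (q.C ^ 2 * K1 q) ≤ K2 q * dist (h • g₀ • p) (h • g₀ • y) := by
    refine le_trans (le_min ?_ h3) h4
    rw [div_le_one (by positivity)]
    have : 1 ≤ q.C ^ 2 * K1 q := by nlinarith
    linarith
  rw [div_le_iff₀ (by positivity)] at h5
  rw [div_mul_eq_mul_div, one_mul, div_le_iff₀ (by positivity)]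
  calc e ≤ _ := h5
    _ = _ := by ring

/-- points `v, v'` with the same `h` are close. -/
theorem same_h (hb : Base q g₀ x₀ r) {v' : Z} (hs : Sec q g₀ h v u) (hs' : Sec q g₀ h v' u)
    (hv : dist v x₀ ≤ 7 / 5 * r) (hsm : 2 * q.C * K1 q * u < 1) :
    dist v v' ≤ 2 * q.C ^ 2 * K1 q * (r * u) := by
  have hC := q.one_le_C
  have hCp := C_pos q
  have hK1 := one_le_K1 (q := q)
  have hr := hb.rpos
  have hu := hs.upos
  have hs0 := q.s_pos g₀
  have h1 := hb.lower (p := v) (by linarith) v'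
  have h2 : dist (g₀ • v) (g₀ • v') ≤ 2 * q.C * u := by
    have := dist_triangle (g₀ • v) (q.ζ h) (g₀ • v')
    have a1 := hs.dist_le
    have a2 := hs'.dist_le
    rw [dist_comm] at a2
    linarith
  have h3 : K1 q * dist (g₀ • v) (g₀ • v') ≤ 2 * q.C * K1 q * u := by
    calc _ ≤ K1 q * (2 * q.C * u) := mul_le_mul_of_nonneg_left h2 (by linarith)
      _ = _ := by ring
  have h4 : dist v v' / q.s g₀ ≤ 2 * q.C * K1 q * u := by
    rcases min_le_iff.mp (h1.trans h3) with h | h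
    · linarith
    · exact h
  rw [div_le_iff₀ hs0] at h4
  calc _ ≤ _ := h4
    _ ≤ 2 * q.C * K1 q * u * (q.C * r) := by
      apply mul_le_mul_of_nonneg_left hb.s_le; positivity
    _ = _ := by ring

/-- the avoidance estimate -/
theorem Sec.avoid (hb : Base q g₀ x₀ r) (hs : Sec q g₀ h v u) (hv : dist v x₀ ≤ 7 / 5 * r)
    {A M : ℝ} (hA : 0 < A) (hM : 2 * q.C ^ 2 / kap q + A + 320 * q.C ^ 4 / kap q ^ 2 ≤ M)
    (hsm : q.C * u ≤ kap q ^ 2 / (320 * q.C ^ 2)) (hr1 : r ≤ 1) {z' : Z}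
    (hz' : 2 * M * u ≤ dist (h • q.ζ g₀⁻¹) z') :
    ∃ w, dist w x₀ ≤ 3 / 2 * r ∧ ∀ y, dist (h • g₀ • y) z' ≤ A * (u * r) →
      dist y w ≤ 4 * q.C ^ 2 / kap q * (r * r) := by
  have hC := q.one_le_C
  have hCp := C_pos q
  have hk := kap_pos q
  have hk1 := kap_le q
  have hr := hb.rpos
  have hu := hs.upos
  have hs0 := q.s_pos g₀
  have hcc := hs.center_close hb hv
  have hC2 : 1 ≤ q.C ^ 2 := one_le_pow₀ hC
  have p1 : 0 < 2 * q.C ^ 2 / kap q := by positivity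
  have p2 : 0 < 320 * q.C ^ 4 / kap q ^ 2 := by positivity
  have hMp : 0 < M := by linarith
  -- C^2/M ≤ κ²/(320 C²)
  have hM1 : q.C ^ 2 / M ≤ kap q ^ 2 / (320 * q.C ^ 2) := by
    rw [div_le_div_iff₀ hMp (by positivity)]
    have : 320 * q.C ^ 4 / kap q ^ 2 ≤ M := by linarith
    rw [div_le_iff₀ (by positivity)] at this
    calc q.C ^ 2 * (320 * q.C ^ 2) = 320 * q.C ^ 4 := by ring
      _ ≤ _ := this
      _ = _ := by ring
  have hM2 : q.C ^ 2 / M ≤ kap q / 4 := by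
    refine hM1.trans ?_
    rw [div_le_div_iff₀ (by positivity) (by norm_num)]
    nlinarith
  -- distances from ζ h⁻¹
  have far' : ∀ z : Z, dist z z' ≤ A * (u * r) → M * u ≤ dist z (q.ζ h⁻¹) := by
    intro z hz
    have t1 := dist_triangle (h • q.ζ g₀⁻¹) z z'
    have t2 := dist_triangle (h • q.ζ g₀⁻¹) (q.ζ h⁻¹) z
    rw [dist_comm (q.ζ h⁻¹) z] at t2
    have t3 : A * (u * r) ≤ A * u := by
      apply mul_le_mul_of_nonneg_left _ hA.le
      nlinarith
    have t4 : 2 * q.C ^ 2 / kap q * u + A * u ≤ M * u := by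
      rw [← add_mul]; apply mul_le_mul_of_nonneg_right _ hu.le; linarith
    linarith
  have fz' := far' z' (by rw [dist_self]; positivity)
  -- h⁻¹ z' close to g₀ v
  have c1 : dist (h⁻¹ • z') (q.ζ h) ≤ q.C ^ 2 / M := by
    have h1 := q.q2_upper h⁻¹ z'
    rw [inv_inv] at h1
    have h2 : dist (h⁻¹ • z') (q.ζ h) * (M * u) ≤ q.C * q.s h⁻¹ := by
      refine le_trans ?_ h1
      apply mul_le_mul (le_max_right _ _) (fz'.trans (le_max_right _ _)) (by positivity)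
      exact le_trans dist_nonneg (le_max_right _ _)
    rw [q.s_inv] at h2
    rw [le_div_iff₀ hMp]
    have h3 : dist (h⁻¹ • z') (q.ζ h) * M * u ≤ q.C ^ 2 * u := by
      have := mul_le_mul_of_nonneg_left hs.s_le hCp.le
      nlinarith
    exact le_of_mul_le_mul_right h3 hu
  have c2 : dist (h⁻¹ • z') (g₀ • v) ≤ q.C ^ 2 / M + q.C * u := by
    have := dist_triangle (h⁻¹ • z') (q.ζ h) (g₀ • v)
    have h2 := hs.dist_le
    rw [dist_comm] at h2
    linarith
  have cv : kap q ≤ dist (g₀ • v) (q.ζ g₀⁻¹) := hb.center_far (by linarith)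
  have c3 : kap q / 2 ≤ dist (h⁻¹ • z') (q.ζ g₀⁻¹) := by
    have t1 := dist_triangle (g₀ • v) (h⁻¹ • z') (q.ζ g₀⁻¹)
    rw [dist_comm (g₀ • v) (h⁻¹ • z')] at t1
    have := hs.small
    linarith
  have s0inv : q.s g₀⁻¹ ≤ q.C * r := by rw [q.s_inv]; exact hb.s_le
  have key : ∀ a b : Z, kap q / 4 ≤ dist a (q.ζ g₀⁻¹) → kap q / 4 ≤ dist b (q.ζ g₀⁻¹) →
      dist (g₀⁻¹ • a) (g₀⁻¹ • b) ≤ 16 * q.C ^ 2 / kap q ^ 2 * (r * dist a b) := by
    intro a b ha hb'
    have := far_upper q (kap q / 4) (by positivity) g₀⁻¹ a b ha hb'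
    calc _ ≤ _ := this
      _ ≤ q.C / (kap q / 4) ^ 2 * ((q.C * r) * dist a b) := by
        apply mul_le_mul_of_nonneg_left _ (by positivity)
        exact mul_le_mul_of_nonneg_right s0inv dist_nonneg
      _ = _ := by field_simp; ring
  refine ⟨g₀⁻¹ • h⁻¹ • z', ?_, ?_⟩
  · have e1 := key (h⁻¹ • z') (g₀ • v) (by linarith) (by linarith)
    rw [inv_smul_smul] at e1
    have e2 : 16 * q.C ^ 2 / kap q ^ 2 * (r * dist (h⁻¹ • z') (g₀ • v)) ≤ r / 10 := by
      have e3 : dist (h⁻¹ • z') (g₀ • v) ≤ 2 * (kap q ^ 2 / (320 * q.C ^ 2)) := by linarith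
      calc _ ≤ 16 * q.C ^ 2 / kap q ^ 2 * (r * (2 * (kap q ^ 2 / (320 * q.C ^ 2)))) := by
            apply mul_le_mul_of_nonneg_left _ (by positivity)
            exact mul_le_mul_of_nonneg_left e3 hr.le
        _ = r / 10 := by field_simp; ring
    have := dist_triangle (g₀⁻¹ • h⁻¹ • z') v x₀
    linarith
  · intro y hy
    have fz := far' (h • g₀ • y) hy
    have e1 : dist (g₀ • y) (h⁻¹ • z') ≤ kap q / 4 * r := by
      have h1 := q.q1_upper h⁻¹ (h • g₀ • y) z'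
      rw [inv_smul_smul] at h1
      have h2 : dist (g₀ • y) (h⁻¹ • z') * ((M * u) * (M * u)) ≤ q.C * (q.s h⁻¹ * dist (h • g₀ • y) z') := by
        refine le_trans ?_ h1
        apply mul_le_mul_of_nonneg_left _ dist_nonneg
        apply mul_le_mul (fz.trans (le_max_right _ _)) (fz'.trans (le_max_right _ _)) (by positivity)
        exact le_trans dist_nonneg (le_max_right _ _)
      rw [q.s_inv] at h2
      have h3 : q.C * (q.s h * dist (h • g₀ • y) z') ≤ q.C * ((q.C * u) * (A * (u * r))) := by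
        apply mul_le_mul_of_nonneg_left _ hCp.le
        apply mul_le_mul hs.s_le hy dist_nonneg (by positivity)
      have h4 : dist (g₀ • y) (h⁻¹ • z') * (M * M) * (u * u) ≤ (q.C ^ 2 * A * r) * (u * u) := by
        calc _ = dist (g₀ • y) (h⁻¹ • z') * ((M * u) * (M * u)) := by ring
          _ ≤ _ := h2.trans h3
          _ = _ := by ring
      have h5 : dist (g₀ • y) (h⁻¹ • z') * (M * M) ≤ q.C ^ 2 * A * r :=
        le_of_mul_le_mul_right h4 (by positivity)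
      have h6 : q.C ^ 2 * A * r ≤ q.C ^ 2 * M * r := by
        apply mul_le_mul_of_nonneg_right _ hr.le
        apply mul_le_mul_of_nonneg_left _ (by positivity)
        linarith
      have h7 : dist (g₀ • y) (h⁻¹ • z') ≤ q.C ^ 2 / M * r := by
        rw [div_mul_eq_mul_div, le_div_iff₀ hMp]
        have : dist (g₀ • y) (h⁻¹ • z') * M * M ≤ q.C ^ 2 * r * M := by nlinarith
        exact le_of_mul_le_mul_right this hMp
      exact h7.trans (mul_le_mul_of_nonneg_right hM2 hr.le)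
    have e2 : kap q / 4 ≤ dist (g₀ • y) (q.ζ g₀⁻¹) := by
      have t1 := dist_triangle (h⁻¹ • z') (g₀ • y) (q.ζ g₀⁻¹)
      rw [dist_comm (h⁻¹ • z') (g₀ • y)] at t1
      have : kap q / 4 * r ≤ kap q / 4 := by nlinarith
      linarith
    have e3 := key (g₀ • y) (h⁻¹ • z') e2 (by linarith)
    rw [inv_smul_smul] at e3
    calc _ ≤ _ := e3
      _ ≤ 16 * q.C ^ 2 / kap q ^ 2 * (r * (kap q / 4 * r)) := by
        apply mul_le_mul_of_nonneg_left _ (by positivity)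
        exact mul_le_mul_of_nonneg_left e1 hr.le
      _ = _ := by field_simp; ring

/-- number of related cells. -/
theorem related_count (hb : Base q g₀ x₀ r) {hh : Z → G} (hs : ∀ v, Sec q g₀ (hh v) v u)
    (hv : dist v x₀ ≤ 7 / 5 * r) {K : ℝ} (hK : 0 ≤ K) {nT : ℕ}
    (hnT : {g' : G | q.s (hh v)⁻¹ ≤ (max (q.C ^ 2) ((K + 2 * (2 * q.C ^ 2 / kap q)) * q.C)) * q.s g' ∧
        q.s g' ≤ (max (q.C ^ 2) ((K + 2 * (2 * q.C ^ 2 / kap q)) * q.C)) * q.s (hh v)⁻¹ ∧
        dist (q.ζ (hh v)⁻¹) (q.ζ g') ≤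
          (max (q.C ^ 2) ((K + 2 * (2 * q.C ^ 2 / kap q)) * q.C)) * q.s (hh v)⁻¹}.Finite ∧
      {g' : G | q.s (hh v)⁻¹ ≤ (max (q.C ^ 2) ((K + 2 * (2 * q.C ^ 2 / kap q)) * q.C)) * q.s g' ∧
        q.s g' ≤ (max (q.C ^ 2) ((K + 2 * (2 * q.C ^ 2 / kap q)) * q.C)) * q.s (hh v)⁻¹ ∧
        dist (q.ζ (hh v)⁻¹) (q.ζ g') ≤
          (max (q.C ^ 2) ((K + 2 * (2 * q.C ^ 2 / kap q)) * q.C)) * q.s (hh v)⁻¹}.ncard ≤ nT)
    (u2 : 2 * q.C * K1 q * u < 1) {k : ℕ} (N : Finset Z)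
    (hN : ∀ a ∈ N, ∀ b ∈ N, a ≠ b → sc k ≤ dist a b)
    (D : ℝ → ℝ) (Q : ℕ) (hD : Doubling Z D Q) (esc : sc k = r * u) :
    (N.filter (fun v' => dist v' x₀ ≤ 7 / 5 * r ∧
        dist (hh v • q.ζ g₀⁻¹) (hh v' • q.ζ g₀⁻¹) < K * u)).card ≤
      nT * ⌈D (2 * q.C ^ 2 * K1 q)⌉₊ := by
  have hCp := C_pos q
  have hk := kap_pos q
  have hK1 := one_le_K1 (q := q)
  have hup := (hs v).upos
  set B : ℝ := 2 * q.C ^ 2 / kap q with hB
  have hBp : 0 < B := by positivity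
  set T : ℝ := max (q.C ^ 2) ((K + 2 * B) * q.C) with hT
  set S := N.filter (fun v' => dist v' x₀ ≤ 7 / 5 * r ∧
      dist (hh v • q.ζ g₀⁻¹) (hh v' • q.ζ g₀⁻¹) < K * u) with hS
  obtain ⟨hfin, hcard⟩ := hnT
  set X := {g' : G | q.s (hh v)⁻¹ ≤ T * q.s g' ∧ q.s g' ≤ T * q.s (hh v)⁻¹ ∧
    dist (q.ζ (hh v)⁻¹) (q.ζ g') ≤ T * q.s (hh v)⁻¹} with hX
  have hmaps : ∀ v' ∈ S, (hh v')⁻¹ ∈ hfin.toFinset := by
    intro v' hv'
    rw [hS, Finset.mem_filter] at hv'
    obtain ⟨-, hv1, hv2⟩ := hv'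
    rw [Set.Finite.mem_toFinset, hX]
    have a1 : q.s (hh v) ≤ q.C ^ 2 * q.s (hh v') := by
      have b1 := (hs v).s_le
      have b2 := (hs v').le_s
      calc _ ≤ _ := b1
        _ ≤ q.C * (q.C * q.s (hh v')) := mul_le_mul_of_nonneg_left b2 hCp.le
        _ = _ := by ring
    have a2 : q.s (hh v') ≤ q.C ^ 2 * q.s (hh v) := by
      have b1 := (hs v').s_le
      have b2 := (hs v).le_s
      calc _ ≤ _ := b1
        _ ≤ q.C * (q.C * q.s (hh v)) := mul_le_mul_of_nonneg_left b2 hCp.le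
        _ = _ := by ring
    refine ⟨?_, ?_, ?_⟩
    · rw [q.s_inv, q.s_inv]
      exact a1.trans (mul_le_mul_of_nonneg_right (le_max_left _ _) (q.s_pos _).le)
    · rw [q.s_inv, q.s_inv]
      exact a2.trans (mul_le_mul_of_nonneg_right (le_max_left _ _) (q.s_pos _).le)
    · have d1 := (hs v).center_close hb hv
      have d2 := (hs v').center_close hb hv1
      have t1 := dist_triangle4 (q.ζ (hh v)⁻¹) (hh v • q.ζ g₀⁻¹) (hh v' • q.ζ g₀⁻¹) (q.ζ (hh v')⁻¹)
      rw [dist_comm (q.ζ (hh v)⁻¹) (hh v • q.ζ g₀⁻¹)] at t1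
      have t2 : dist (q.ζ (hh v)⁻¹) (q.ζ (hh v')⁻¹) ≤ (K + 2 * B) * u := by
        have : (K + 2 * B) * u = K * u + B * u + B * u := by ring
        linarith
      have t3 : (K + 2 * B) * u ≤ (K + 2 * B) * (q.C * q.s (hh v)) :=
        mul_le_mul_of_nonneg_left (hs v).le_s (by positivity)
      rw [q.s_inv]
      calc _ ≤ _ := t2
        _ ≤ _ := t3
        _ = (K + 2 * B) * q.C * q.s (hh v) := by ring
        _ ≤ _ := mul_le_mul_of_nonneg_right (le_max_right _ _) (q.s_pos _).le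
  have hfib : ∀ g' ∈ hfin.toFinset, (S.filter (fun v' => (hh v')⁻¹ = g')).card ≤
      ⌈D (2 * q.C ^ 2 * K1 q)⌉₊ := by
    intro g' _
    rcases (S.filter (fun v' => (hh v')⁻¹ = g')).eq_empty_or_nonempty with h0 | ⟨w, hw⟩
    · rw [h0]; simp
    · have hcard2 := hD (2 * q.C ^ 2 * K1 q) k 0 w (S.filter (fun v' => (hh v')⁻¹ = g'))
        (by positivity) (by
          intro w' hw'
          rw [Finset.mem_filter, hS, Finset.mem_filter] at hw hw'
          have e1 : hh w = hh w' := by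
            have : (hh w)⁻¹ = (hh w')⁻¹ := hw.2.trans hw'.2.symm
            exact inv_injective this
          have s1 := hs w
          have s2 := hs w'
          rw [← e1] at s2
          rw [esc, dist_comm]
          exact same_h hb s1 s2 hw.1.2.1 u2) (by
          intro w1 hw1 w2 hw2 hne
          rw [Finset.mem_filter, hS, Finset.mem_filter] at hw1 hw2
          exact hN _ hw1.1.1 _ hw2.1.1 hne)
      rw [Nat.mul_zero, pow_zero, mul_one] at hcard2
      exact_mod_cast hcard2.trans (Nat.le_ceil _)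
  have := Finset.card_le_mul_card_image_of_maps_to hmaps _ hfib
  calc S.card ≤ ⌈D (2 * q.C ^ 2 * K1 q)⌉₊ * hfin.toFinset.card := this
    _ ≤ ⌈D (2 * q.C ^ 2 * K1 q)⌉₊ * nT := by
      apply Nat.mul_le_mul_left
      rw [← Set.ncard_eq_toFinset_card X hfin]
      exact hcard
    _ = _ := Nat.mul_comm _ _

end

end Geo7

open Geo7 in
theorem exists_geom7 {G Z : Type*} [Group G] [MetricSpace Z] [MulAction G Z]
    (q : QM G Z) (N : ℕ → Finset Z) (hN : IsNet N) (D : ℝ → ℝ) (Q : ℕ) (hD : Doubling Z D Q)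
    (c : ℝ) (hc : 0 < c) :
    ∃ (c₁ A A₂ : ℝ) (N₂ a lmin j : ℕ), 0 < c₁ ∧ 0 < A ∧ 4 * A ≤ A₂ ∧ a ≤ j ∧
      ∀ i₀ ≥ j, ∀ (x₀ : Z) (Ω : Set Z), Disjoint Ω (ball x₀ c) → ∀ l ≥ lmin,
        ∃ (f : Z → G) (β : Z → Z), Geom7 G N Ω c₁ A A₂ N₂ a i₀ x₀ l f β := by
  have hC := q.one_le_C
  have hCp := C_pos q
  have hk := kap_pos q
  have hk1 := kap_le q
  have hK1 := one_le_K1 (q := q)
  have hK2 := one_le_K2 (q := q)
  have hC2 : 1 ≤ q.C ^ 2 := one_le_pow₀ hC
  -- constants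
  set A : ℝ := 32 * q.C ^ 4 / (kap q ^ 2 * c) with hA
  have hAp : 0 < A := by positivity
  set B : ℝ := 2 * q.C ^ 2 / kap q with hB
  have hBp : 0 < B := by positivity
  set E : ℝ := 320 * q.C ^ 4 / kap q ^ 2 with hE
  have hEp : 0 < E := by positivity
  set M : ℝ := B + 2 * A + E with hM
  have hMp : 0 < M := by positivity
  set c₁ : ℝ := 1 / (q.C ^ 2 * K1 q * K2 q) with hc₁
  have hc₁p : 0 < c₁ := by positivity
  set T : ℝ := max (q.C ^ 2) ((2 * M + 2 * B) * q.C) with hT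
  obtain ⟨nT, hnT⟩ := q.q3 T
  set nD : ℕ := ⌈D (2 * q.C ^ 2 * K1 q)⌉₊ with hnD
  obtain ⟨lmin, hlmin⟩ := exists_sc_lt (ε := min (kap q ^ 2 / (320 * q.C ^ 2) / q.C)
    (1 / (2 * q.C * K1 q))) (by positivity)
  obtain ⟨a, ha⟩ := pow_unbounded_of_one_lt (4 * q.C ^ 2 / kap q) (one_lt_two (α := ℝ))
  obtain ⟨j₁, hj₁⟩ := exists_sc_lt (ε := min (1 / (5 * q.C ^ 4)) (min (c / 2 / q.C)
    (kap q / 4 / (2 * q.C ^ 2 / c)))) (by positivity)
  refine ⟨c₁, A, 2 * M, nT * nD, a, lmin, max a j₁, hc₁p, hAp, by linarith, le_max_left _ _, ?_⟩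
  intro i₀ hi₀ x₀ Ω hΩ l hl
  have hi1 : j₁ ≤ i₀ := le_trans (le_max_right _ _) hi₀
  have hia : a ≤ i₀ := le_trans (le_max_left _ _) hi₀
  set r := sc i₀ with hr
  set u := sc l with hu
  have hrp : 0 < r := sc_pos i₀
  have hup : 0 < u := sc_pos l
  have hr1 : r ≤ 1 := sc_le_one i₀
  have hu1 : u ≤ 1 := sc_le_one l
  have hrs : r < min (1 / (5 * q.C ^ 4)) (min (c / 2 / q.C) (kap q / 4 / (2 * q.C ^ 2 / c))) :=
    lt_of_le_of_lt (sc_anti hi1) hj₁
  have hus : u < min (kap q ^ 2 / (320 * q.C ^ 2) / q.C) (1 / (2 * q.C * K1 q)) :=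
    lt_of_le_of_lt (sc_anti hl) hlmin
  have r1 : r < 1 / (5 * q.C ^ 4) := lt_of_lt_of_le hrs (min_le_left _ _)
  have r2 : q.C * r ≤ c / 2 := by
    have : r < c / 2 / q.C := lt_of_lt_of_le hrs (le_trans (min_le_right _ _) (min_le_left _ _))
    rw [lt_div_iff₀ hCp] at this
    linarith
  have r3 : 2 * q.C ^ 2 / c * r ≤ kap q / 4 := by
    have : r < kap q / 4 / (2 * q.C ^ 2 / c) :=
      lt_of_lt_of_le hrs (le_trans (min_le_right _ _) (min_le_right _ _))
    rw [lt_div_iff₀ (by positivity)] at this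
    linarith
  have u1 : q.C * u ≤ kap q ^ 2 / (320 * q.C ^ 2) := by
    have : u < kap q ^ 2 / (320 * q.C ^ 2) / q.C := lt_of_lt_of_le hus (min_le_left _ _)
    rw [lt_div_iff₀ hCp] at this
    linarith
  have u2 : 2 * q.C * K1 q * u < 1 := by
    have : u < 1 / (2 * q.C * K1 q) := lt_of_lt_of_le hus (min_le_right _ _)
    rw [lt_div_iff₀ (by positivity)] at this
    linarith
  have u3 : q.C * u ≤ kap q / 4 := by
    refine u1.trans ?_
    rw [div_le_div_iff₀ (by positivity) (by norm_num)]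
    nlinarith
  obtain ⟨g₀, hg1, hg2, hg3⟩ := q.q4 x₀ r hrp hr1
  have hb : Base q g₀ x₀ r := ⟨hrp, hg1, hg2, hg3, r1⟩
  choose hh hh1 hh2 hh3 using fun v : Z => q.q4 (g₀ • v) u hup hu1
  have hs : ∀ v, Sec q g₀ (hh v) v u := fun v => ⟨hup, hu1, hh1 v, hh2 v, hh3 v, u3⟩
  have esc : sc (i₀ + l) = r * u := sc_add _ _
  refine ⟨fun v => hh v * g₀, fun v => hh v • q.ζ g₀⁻¹, ?_, ?_, ?_, ?_, ?_⟩
  · intro v hv y hy
    have hcy : c ≤ dist y x₀ := by
      by_contra hlt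
      exact Set.disjoint_left.mp hΩ hy (mem_ball.mpr (not_le.mp hlt))
    rw [mul_smul]
    exact (hs v).W hb hv hc r2 r3 hcy
  · intro v p hv hp
    rw [mul_smul]
    rw [esc] at hp
    refine le_trans ?_ ((hs v).far hb hv hp)
    rw [hc₁]
    apply one_div_le_one_div_of_le (by linarith)
    have : 1 ≤ q.C ^ 2 * K1 q := by nlinarith
    nlinarith
  · intro v p y n hv hp hpy
    rw [mul_smul, mul_smul]
    rw [esc] at hp
    rw [sc_add, esc] at hpy
    exact (hs v).sep hb hv hp (sc_pos n) (sc_le_one n) hpy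
  · intro v hv
    exact related_count hb hs hv (K := 2 * M) (by positivity) (hnT (hh v)⁻¹) u2 (N (i₀ + l))
      (fun a ha b hb' hne => hN.sep _ a ha b hb' hne) D Q hD esc
  · intro v v' hv hv' hbb
    obtain ⟨w, hw1, hw2⟩ := (hs v).avoid hb hv hAp (M := M) (by linarith) u1 hr1
      (z' := hh v' • q.ζ g₀⁻¹) hbb
    refine ⟨w, hw1, ?_⟩
    intro y hy
    rw [mul_smul] at hy
    refine (hw2 y hy).trans ?_
    have e1 : sc (i₀ + (i₀ - a)) = r * (r * 2 ^ a) := by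
      rw [sc_add, hr]
      congr 1
      have : sc i₀ = sc (i₀ - a) * sc a := by rw [← sc_add]; congr 1; omega
      rw [this]
      unfold sc
      rw [mul_assoc, ← mul_pow]
      norm_num
    rw [e1]
    have := ha.le
    calc _ ≤ 2 ^ a * (r * r) := mul_le_mul_of_nonneg_right this (by positivity)
      _ = _ := by ring

end P198Q
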