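import Vale.Agent.P198.Q.Good5

open Metric Set TopologicalSpace
open scoped Classical

namespace P198Q

section G6
variable {Z : Type*} [MetricSpace Z]

theorem g6_sc_pos (k : ℕ) : 0 < sc k := by unfold sc; positivity

theorem g6_sc_add (a b : ℕ) : sc (a + b) = sc a * sc b := by unfold sc; rw [pow_add]

theorem g6_sc_anti {a b : ℕ} (h : a ≤ b) : sc b ≤ sc a := by
  unfold sc
  exact pow_le_pow_of_le_one (by norm_num) (by norm_num) h

/-- a leaf hit by the cell `v` of level `k` is hit by a cell of level `k+n` at distance `≤ 2 sc k`. -/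
theorem g6_cov (N : ℕ → Finset Z) (hN : IsNet N) (k n : ℕ) (v : Z) (K : NonemptyCompacts Z)
    (h : hit k v K) : ∃ w ∈ N (k + n), dist w v ≤ 2 * sc k ∧ hit (k + n) w K := by
  obtain ⟨x, hx1, hx2⟩ := h
  obtain ⟨w, hw, hxw⟩ := hN.cov (k + n) x
  refine ⟨w, hw, ?_, x, ?_, hx2⟩
  · have h1 : dist x v ≤ sc k := hx1
    have h2 : dist w v ≤ dist x w + dist x v := by
      rw [dist_comm x w]; exact dist_triangle _ _ _
    have h3 : sc (k + n) ≤ sc k := g6_sc_anti (Nat.le_add_right _ _)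
    linarith
  · exact hxw

/-- the number of cells of level `k` within `2 sc k` of a point. -/
theorem g6_card (N : ℕ → Finset Z) (hN : IsNet N) (D : ℝ → ℝ) (Q : ℕ) (hD : Doubling Z D Q)
    (R : ℝ) (hR : 0 < R) (k l : ℕ) (x : Z) (V : Finset Z) (hV : V ⊆ N (k + l))
    (hVx : ∀ v ∈ V, dist v x ≤ R * sc k) : (V.card : ℝ) ≤ D R * 2 ^ (Q * l) :=
  hD R k l x V hR hVx (fun a ha b hb hab => hN.sep (k + l) a (hV ha) b (hV hb) hab)

/-- one step of the composition -/
theorem g6_step (N : ℕ → Finset Z) (hN : IsNet N) (D : ℝ → ℝ) (Q : ℕ) (hD : Doubling Z D Q)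
    (S : Finset (NonemptyCompacts Z)) (k n : ℕ) (V V' : Finset Z) (Dn : ℕ) (hDn : D 2 ≤ Dn) (E : ℝ)
    (hV : V ⊆ N k) (hV' : V' ⊆ N (k + n))
    (hVV' : ∀ v ∈ V, ∀ w ∈ N (k + n), dist w v ≤ 2 * sc k → w ∈ V')
    (hF : ∀ K ∈ S, ∃ v ∈ V, hit k v K)
    (hE : ∀ v ∈ V, md ((N (k + n)).filter (fun w => dist w v ≤ 2 * sc k)) (hit (k + n))
      {K | K ∈ S ∧ hit k v K} ≤ E) :
    md V' (hit (k + n)) {K | K ∈ S} ≤ Dn * E * md V (hit k) {K | K ∈ S} := by
  have hex : ∀ v : Z, ∃ ρ : Z → ℝ, Adm ((N (k + n)).filter (fun w => dist w v ≤ 2 * sc k)) (hit (k + n))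
      {K | K ∈ S ∧ hit k v K} ρ ∧ energy ((N (k + n)).filter (fun w => dist w v ≤ 2 * sc k)) ρ =
      md ((N (k + n)).filter (fun w => dist w v ≤ 2 * sc k)) (hit (k + n)) {K | K ∈ S ∧ hit k v K} := by
    intro v
    apply exists_adm
    rintro K ⟨_, hK⟩
    obtain ⟨w, hw, hwv, hwK⟩ := g6_cov N hN k n v K hK
    exact ⟨w, Finset.mem_filter.2 ⟨hw, hwv⟩, hwK⟩
  choose ρ hρ hρE using hex
  set σ : Z → Z → ℝ := fun v w => if dist w v ≤ 2 * sc k then ρ v w else 0 with hσdef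
  refine md_comp V (hit k) V' (hit (k + n)) {K | K ∈ S} (fun K hK => hF K hK) σ E Dn ?_ ?_ ?_ ?_
  · intro v w
    simp only [hσdef]
    split_ifs
    · exact (hρ v).1 w
    · exact le_rfl
  · intro v hv K hK hvK
    have h1 := (hρ v).2 K ⟨hK, hvK⟩
    unfold len at h1
    refine h1.trans (le_of_eq ?_)
    rw [Finset.filter_filter]
    have h2 : ∑ w ∈ N (k + n) with (dist w v ≤ 2 * sc k ∧ hit (k + n) w K), ρ v w
        = ∑ w ∈ N (k + n) with (dist w v ≤ 2 * sc k ∧ hit (k + n) w K), σ v w := by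
      apply Finset.sum_congr rfl
      intro w hw
      have := (Finset.mem_filter.1 hw).2.1
      simp only [hσdef, if_pos this]
    rw [h2]
    apply Finset.sum_subset
    · intro w hw
      obtain ⟨hw1, hw2, hw3⟩ := Finset.mem_filter.1 hw
      exact Finset.mem_filter.2 ⟨hVV' v hv w hw1 hw2, hw3⟩
    · intro w hw hw'
      obtain ⟨hw1, hw2⟩ := Finset.mem_filter.1 hw
      simp only [hσdef]
      rw [if_neg]
      intro hd
      exact hw' (Finset.mem_filter.2 ⟨hV' hw1, hd, hw2⟩)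
  · intro v hv
    have h1 : ∑ w ∈ V', σ v w ^ 2 = ∑ w ∈ N (k + n) with dist w v ≤ 2 * sc k, ρ v w ^ 2 := by
      symm
      have h2 : ∑ w ∈ N (k + n) with dist w v ≤ 2 * sc k, ρ v w ^ 2
          = ∑ w ∈ N (k + n) with dist w v ≤ 2 * sc k, σ v w ^ 2 := by
        apply Finset.sum_congr rfl
        intro w hw
        have := (Finset.mem_filter.1 hw).2
        simp only [hσdef, if_pos this]
      rw [h2]
      apply Finset.sum_subset
      · intro w hw
        obtain ⟨hw1, hw2⟩ := Finset.mem_filter.1 hw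
        exact hVV' v hv w hw1 hw2
      · intro w hw hw'
        simp only [hσdef]
        rw [if_neg]
        · simp
        · intro hd
          exact hw' (Finset.mem_filter.2 ⟨hV' hw, hd⟩)
    rw [h1]
    have h3 := hρE v
    unfold energy at h3
    rw [h3]
    exact hE v hv
  · intro w hw
    have h1 : ((V.filter (fun v => σ v w ≠ 0)).card : ℝ) ≤ D 2 * 2 ^ (Q * 0) := by
      apply g6_card N hN D Q hD 2 (by norm_num) k 0 w
      · intro v hv
        exact hV (Finset.mem_filter.1 hv).1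
      · intro v hv
        have h2 := (Finset.mem_filter.1 hv).2
        simp only [hσdef] at h2
        by_contra h3
        apply h2
        rw [if_neg]
        rw [dist_comm]
        exact h3
    have h2 : ((V.filter (fun v => σ v w ≠ 0)).card : ℝ) ≤ (Dn : ℝ) := by
      refine h1.trans ?_
      rw [Nat.mul_zero, pow_zero, mul_one]
      exact hDn
    exact_mod_cast h2

/-- trivial bound of the local modulus -/
theorem g6_trivial (N : ℕ → Finset Z) (hN : IsNet N) (D : ℝ → ℝ) (Q : ℕ) (hD : Doubling Z D Q)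
    (S : Finset (NonemptyCompacts Z)) (k n : ℕ) (v : Z) :
    md ((N (k + n)).filter (fun w => dist w v ≤ 2 * sc k)) (hit (k + n))
      {K | K ∈ S ∧ hit k v K} ≤ D 2 * 2 ^ (Q * n) := by
  refine (md_le_card _ _ _ ?_).trans ?_
  · rintro K ⟨_, hK⟩
    obtain ⟨w, hw, hwv, hwK⟩ := g6_cov N hN k n v K hK
    exact ⟨w, Finset.mem_filter.2 ⟨hw, hwv⟩, hwK⟩
  · apply g6_card N hN D Q hD 2 (by norm_num) k n v
    · exact Finset.filter_subset _ _
    · intro w hw
      exact (Finset.mem_filter.1 hw).2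

/-- the sets of cells used in the composition -/
noncomputable def g6V (N : ℕ → Finset Z) (x₀ : Z) (mid : ℝ) (k₀ n t : ℕ) : Finset Z :=
  (N (k₀ + n * t)).filter (fun v => |dist v x₀ - mid| ≤ 5 * sc k₀ - 4 * sc (k₀ + n * t))

theorem g6V_next (N : ℕ → Finset Z) (x₀ : Z) (mid : ℝ) (k₀ n t : ℕ) (hn : 1 ≤ n) (v w : Z)
    (hv : v ∈ g6V N x₀ mid k₀ n t) (hw : w ∈ N (k₀ + n * (t + 1)))
    (hvw : dist w v ≤ 2 * sc (k₀ + n * t)) : w ∈ g6V N x₀ mid k₀ n (t + 1) := by
  refine Finset.mem_filter.2 ⟨hw, ?_⟩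
  have h1 := (Finset.mem_filter.1 hv).2
  have h2 : |dist w x₀ - dist v x₀| ≤ dist w v := abs_dist_sub_le _ _ _
  have h3 : |dist w x₀ - mid| ≤ |dist w x₀ - dist v x₀| + |dist v x₀ - mid| := by
    have : dist w x₀ - mid = (dist w x₀ - dist v x₀) + (dist v x₀ - mid) := by ring
    rw [this]; exact abs_add_le _ _
  have h4 : sc (k₀ + n * (t + 1)) ≤ sc (k₀ + n * t) * (1 / 2) := by
    have : k₀ + n * (t + 1) = (k₀ + n * t) + n := by ring
    rw [this, g6_sc_add]
    have h5 : sc n ≤ 1 / 2 := by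
      have := g6_sc_anti hn
      simpa [sc] using this
    exact mul_le_mul_of_nonneg_left h5 (g6_sc_pos _).le
  linarith

theorem g6V_hit (N : ℕ → Finset Z) (hN : IsNet N) (x₀ : Z) (mid : ℝ) (k₀ n : ℕ) (hn : 1 ≤ n)
    (S : Finset (NonemptyCompacts Z)) (h0 : ∀ K ∈ S, ∃ v ∈ g6V N x₀ mid k₀ n 0, hit k₀ v K) (t : ℕ) :
    ∀ K ∈ S, ∃ v ∈ g6V N x₀ mid k₀ n t, hit (k₀ + n * t) v K := by
  induction t with
  | zero => simpa using h0
  | succ t ih =>
    intro K hK
    obtain ⟨v, hv, hvK⟩ := ih K hK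
    obtain ⟨w, hw, hwv, hwK⟩ := g6_cov N hN (k₀ + n * t) n v K hvK
    have he : k₀ + n * t + n = k₀ + n * (t + 1) := by ring
    rw [he] at hw hwK
    exact ⟨w, g6V_next N x₀ mid k₀ n t hn v w hv hw hwv, hwK⟩

theorem g6_chain (N : ℕ → Finset Z) (hN : IsNet N) (D : ℝ → ℝ) (Q : ℕ) (hD : Doubling Z D Q)
    (x₀ : Z) (mid : ℝ) (k₀ n : ℕ) (hn : 1 ≤ n) (Dn : ℕ) (hDn : D 2 ≤ Dn)
    (S : Finset (NonemptyCompacts Z)) (h0 : ∀ K ∈ S, ∃ v ∈ g6V N x₀ mid k₀ n 0, hit k₀ v K)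
    (E : ℕ → ℝ) (hE0 : ∀ t, 0 ≤ E t) (T : ℕ)
    (hE : ∀ t < T, ∀ v ∈ g6V N x₀ mid k₀ n t,
      md ((N (k₀ + n * t + n)).filter (fun w => dist w v ≤ 2 * sc (k₀ + n * t))) (hit (k₀ + n * t + n))
      {K | K ∈ S ∧ hit (k₀ + n * t) v K} ≤ E t) :
    md (g6V N x₀ mid k₀ n T) (hit (k₀ + n * T)) {K | K ∈ S} ≤
      (∏ t ∈ Finset.range T, (Dn * E t)) * md (g6V N x₀ mid k₀ n 0) (hit k₀) {K | K ∈ S} := by
  induction T with
  | zero => simp
  | succ T ih =>
    have ih' := ih (fun t ht v hv => hE t (Nat.lt_succ_of_lt ht) v hv)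
    have he : k₀ + n * (T + 1) = k₀ + n * T + n := by ring
    have hs : md (g6V N x₀ mid k₀ n (T + 1)) (hit (k₀ + n * T + n)) {K | K ∈ S} ≤
        Dn * E T * md (g6V N x₀ mid k₀ n T) (hit (k₀ + n * T)) {K | K ∈ S} := by
      apply g6_step N hN D Q hD S (k₀ + n * T) n _ _ Dn hDn (E T)
      · exact Finset.filter_subset _ _
      · rw [← he]; exact Finset.filter_subset _ _
      · intro v hv w hw hwv
        rw [← he] at hw
        exact g6V_next N x₀ mid k₀ n T hn v w hv hw hwv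
      · exact g6V_hit N hN x₀ mid k₀ n hn S h0 T
      · exact hE T (Nat.lt_succ_self T)
    rw [he, Finset.prod_range_succ]
    refine hs.trans ?_
    have h1 : (0 : ℝ) ≤ Dn * E T := mul_nonneg (Nat.cast_nonneg _) (hE0 T)
    calc (Dn : ℝ) * E T * md (g6V N x₀ mid k₀ n T) (hit (k₀ + n * T)) {K | K ∈ S}
        ≤ Dn * E T * ((∏ t ∈ Finset.range T, (Dn * E t)) *
            md (g6V N x₀ mid k₀ n 0) (hit k₀) {K | K ∈ S}) :=
          mul_le_mul_of_nonneg_left ih' h1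
      _ = _ := by ring

/-- pigeonhole: an annulus with few dirty levels -/
theorem g6_pigeon (J M T' : ℕ) (hJ : 0 < J) (hM : 0 < M) (dirty : ℕ → ℕ → Prop)
    [∀ a t, Decidable (dirty a t)]
    (h : ∀ t < J * T', ((Finset.range (J * M)).filter (fun a => dirty a t)).card ≤ M) :
    ∃ a < J * M, ((Finset.range (J * T')).filter (fun t => dirty a t)).card ≤ T' := by
  by_contra hcon
  push Not at hcon
  have h1 : ∑ a ∈ Finset.range (J * M), ((Finset.range (J * T')).filter (fun t => dirty a t)).card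
      = ∑ t ∈ Finset.range (J * T'), ((Finset.range (J * M)).filter (fun a => dirty a t)).card := by
    simp only [Finset.card_filter]
    exact Finset.sum_comm
  have h2 : (J * M) * (T' + 1) ≤
      ∑ a ∈ Finset.range (J * M), ((Finset.range (J * T')).filter (fun t => dirty a t)).card := by
    have := Finset.card_nsmul_le_sum (Finset.range (J * M))
      (fun a => ((Finset.range (J * T')).filter (fun t => dirty a t)).card) (T' + 1)
      (fun a ha => hcon a (Finset.mem_range.1 ha))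
    simpa using this
  have h3 : ∑ t ∈ Finset.range (J * T'), ((Finset.range (J * M)).filter (fun a => dirty a t)).card
      ≤ (J * T') * M := by
    have := Finset.sum_le_card_nsmul (Finset.range (J * T'))
      (fun t => ((Finset.range (J * M)).filter (fun a => dirty a t)).card) M
      (fun t ht => h t (Finset.mem_range.1 ht))
    simpa using this
  have h4 : (J * M) * (T' + 1) ≤ (J * T') * M := by
    rw [h1] at h2; exact h2.trans h3
  have h5 : (J * T') * M = (J * M) * T' := by ring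
  rw [h5] at h4
  have h6 : 0 < J * M := Nat.mul_pos hJ hM
  nlinarith

/-- the numerical estimate for the product of the local factors -/
theorem g6_prod (p Q T' : ℕ) (hp : 1 ≤ p) (dirty : ℕ → Prop) [DecidablePred dirty] (x : ℕ → ℝ) (hx0 : ∀ t, 0 ≤ x t)
    (hxd : ∀ t, dirty t → x t ≤ 2 ^ (p * (2 * Q + 1))) (hxc : ∀ t, ¬ dirty t → x t ≤ (1 / 2) ^ p)
    (hd : ((Finset.range (4 * (Q + 1) * T')).filter dirty).card ≤ T') :
    ∏ t ∈ Finset.range (4 * (Q + 1) * T'), x t ≤ (1 / 2) ^ T' := by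
  set T := 4 * (Q + 1) * T' with hT
  set d := ((Finset.range T).filter dirty).card with hdd
  set e := ((Finset.range T).filter (fun t => ¬ dirty t)).card with hee
  have hde : d + e = T := by
    have := Finset.card_filter_add_card_filter_not (s := Finset.range T) dirty
    rw [Finset.card_range] at this
    exact this
  have h1 : ∏ t ∈ Finset.range T, x t
      ≤ (2 ^ (p * (2 * Q + 1))) ^ d * ((1 / 2) ^ p) ^ e := by
    rw [← Finset.prod_filter_mul_prod_filter_not (Finset.range T) dirty]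
    apply mul_le_mul
    · calc ∏ t ∈ Finset.range T with dirty t, x t
          ≤ ∏ t ∈ Finset.range T with dirty t, (2 : ℝ) ^ (p * (2 * Q + 1)) :=
            Finset.prod_le_prod (fun t _ => hx0 t) (fun t ht => hxd t (Finset.mem_filter.1 ht).2)
        _ = (2 ^ (p * (2 * Q + 1))) ^ d := by rw [Finset.prod_const]
    · calc ∏ t ∈ Finset.range T with ¬ dirty t, x t
          ≤ ∏ t ∈ Finset.range T with ¬ dirty t, ((1 : ℝ) / 2) ^ p :=
            Finset.prod_le_prod (fun t _ => hx0 t) (fun t ht => hxc t (Finset.mem_filter.1 ht).2)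
        _ = ((1 / 2) ^ p) ^ e := by rw [Finset.prod_const]
    · exact Finset.prod_nonneg (fun t _ => hx0 t)
    · positivity
  have ha : (1 : ℝ) ≤ 2 ^ (p * (2 * Q + 1)) := one_le_pow₀ (by norm_num)
  have hb : ((1 : ℝ) / 2) ^ p ≤ 1 := pow_le_one₀ (by norm_num) (by norm_num)
  have hb0 : (0 : ℝ) < (1 / 2) ^ p := by positivity
  have h2 : ((2 : ℝ) ^ (p * (2 * Q + 1))) ^ d ≤ (2 ^ (p * (2 * Q + 1))) ^ T' := pow_le_pow_right₀ ha hd
  have h3 : (((1 : ℝ) / 2) ^ p) ^ e ≤ ((1 / 2) ^ p) ^ ((4 * Q + 3) * T') := by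
    apply pow_le_pow_of_le_one hb0.le hb
    have : T = (4 * Q + 3) * T' + T' := by rw [hT]; ring
    omega
  have h4 : ((2 : ℝ) ^ (p * (2 * Q + 1))) ^ T' * ((1 / 2) ^ p) ^ ((4 * Q + 3) * T')
      = ((1 / 2) ^ (p * (2 * Q + 2))) ^ T' := by
    rw [pow_mul (((1 : ℝ) / 2) ^ p), ← mul_pow]
    congr 1
    rw [← pow_mul]
    have e1 : p * (4 * Q + 3) = p * (2 * Q + 1) + p * (2 * Q + 2) := by ring
    rw [e1, pow_add, ← mul_assoc, ← mul_pow]
    norm_num
  have h5 : (((1 : ℝ) / 2) ^ (p * (2 * Q + 2))) ^ T' ≤ (1 / 2) ^ T' := by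
    apply pow_le_pow_left₀ (by positivity)
    calc ((1 : ℝ) / 2) ^ (p * (2 * Q + 2)) ≤ (1 / 2) ^ 1 := by
          apply pow_le_pow_of_le_one (by norm_num) (by norm_num)
          nlinarith
      _ = 1 / 2 := by norm_num
  calc ∏ t ∈ Finset.range T, x t
      ≤ (2 ^ (p * (2 * Q + 1))) ^ d * ((1 / 2) ^ p) ^ e := h1
    _ ≤ (2 ^ (p * (2 * Q + 1))) ^ T' * ((1 / 2) ^ p) ^ ((4 * Q + 3) * T') := by
        apply mul_le_mul h2 h3 (by positivity) (by positivity)
    _ ≤ (1 / 2) ^ T' := by rw [h4]; exact h5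

/-- A6: many good cells -/
theorem many_good [CompactSpace Z]
    (N : ℕ → Finset Z) (hN : IsNet N) (D : ℝ → ℝ) (Q : ℕ) (hD : Doubling Z D Q) (C : ℝ) :
    ∃ n : ℕ, ∀ M lmin : ℕ, ∃ lmax : ℕ, ∀ (i₀ : ℕ) (x₀ : Z) (ν : Flow (NonemptyCompacts Z)),
      (∀ K ∈ ν.supp, IsConnected (K : Set Z) ∧ hit i₀ x₀ K ∧ ∃ y ∈ (K : Set Z), 2 * sc i₀ ≤ dist y x₀) →
      (∀ l ≤ lmax, ∑ v ∈ N (i₀ + l) with dist v x₀ ≤ 3 / 2 * sc i₀, ν.mass (hit (i₀ + l)) v ^ 2 ≤ C) →
      ∃ l, lmin ≤ l ∧ l ≤ lmax ∧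
        M ≤ ((N (i₀ + l)).filter (fun v => dist v x₀ ≤ 7 / 5 * sc i₀ ∧ Good ν.supp (i₀ + l) n v)).card := by
  obtain ⟨C₃, hC₃, hbad⟩ := not_good_md N hN D Q hD
  obtain ⟨Dn, hDn⟩ := exists_nat_ge (D 2)
  obtain ⟨p, hp⟩ := pow_unbounded_of_one_lt ((Dn : ℝ) * (C₃ + Dn)) (one_lt_two)
  -- the block length
  set n := 2 * (p + 1) with hn
  have hn1 : 1 ≤ n := by omega
  refine ⟨n, fun M lmin => ?_⟩
  rcases Nat.eq_zero_or_pos M with rfl | hM
  · exact ⟨lmin, fun _ _ _ _ _ => ⟨lmin, le_rfl, le_rfl, Nat.zero_le _⟩⟩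
  set m := 4 * (Q + 1) * M with hm
  have hm0 : 0 < m := by positivity
  have hmR : (0 : ℝ) < m := by exact_mod_cast hm0
  -- starting level
  obtain ⟨l1, hl1⟩ := exists_pow_lt_of_lt_one (show (0 : ℝ) < 3 / (100 * m) by positivity)
    (show (1 / 2 : ℝ) < 1 by norm_num)
  set l0 := l1 + lmin + 2 with hl0
  have hl0s : sc l0 ≤ 3 / (100 * m) := by
    refine (g6_sc_anti (show l1 ≤ l0 by omega)).trans ?_
    unfold sc; exact hl1.le
  -- number of blocks
  obtain ⟨T', hT'⟩ := pow_unbounded_of_one_lt (|C| * (Dn * 2 ^ (Q * l0))) (one_lt_two)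
  set T := 4 * (Q + 1) * T' with hT
  refine ⟨l0 + n * T, fun i₀ x₀ ν hν hen => ?_⟩
  by_contra hcon
  push Not at hcon
  set k₀ := i₀ + l0 with hk₀
  have hassoc : ∀ t, i₀ + (l0 + n * t) = k₀ + n * t := fun t => by rw [hk₀]; ring
  have hr : 0 < sc i₀ := g6_sc_pos i₀
  set w : ℝ := 3 / (10 * m) * sc i₀ with hw
  have hw0 : 0 < w := by positivity
  set rad : ℕ → ℝ := fun a => 11 / 10 * sc i₀ + a * w with hrad
  set dirty : ℕ → ℕ → Prop := fun a t => ∃ v ∈ N (k₀ + n * t),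
    (rad a ≤ dist v x₀ ∧ dist v x₀ < rad (a + 1)) ∧ Good ν.supp (k₀ + n * t) n v with hdirty
  have hradle : ∀ a < m, rad (a + 1) ≤ 7 / 5 * sc i₀ := by
    intro a ha
    have h1 : ((a : ℝ) + 1) ≤ m := by exact_mod_cast ha
    have h2 : ((a : ℝ) + 1) * w ≤ m * w := mul_le_mul_of_nonneg_right h1 hw0.le
    have h3 : (m : ℝ) * w = 3 / 10 * sc i₀ := by rw [hw]; field_simp
    simp only [hrad]
    push_cast
    linarith
  -- few dirty annuli at each level
  have hfew : ∀ t < 4 * (Q + 1) * T', ((Finset.range (4 * (Q + 1) * M)).filter (fun a => dirty a t)).card ≤ M := by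
    intro t ht
    have hlt : l0 + n * t ≤ l0 + n * T :=
      Nat.add_le_add_left (Nat.mul_le_mul_left n ht.le) l0
    have h1 := hcon (l0 + n * t) (by omega) hlt
    rw [hassoc] at h1
    refine le_trans ?_ h1.le
    set GG := (N (k₀ + n * t)).filter (fun v => dist v x₀ ≤ 7 / 5 * sc i₀ ∧ Good ν.supp (k₀ + n * t) n v) with hGG
    refine (Finset.card_le_card (t := GG.image (fun v => ⌊(dist v x₀ - 11 / 10 * sc i₀) / w⌋₊)) ?_).trans
      Finset.card_image_le
    intro a ha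
    obtain ⟨ha1, v, hv, ⟨hv1, hv2⟩, hv3⟩ := Finset.mem_filter.1 ha
    refine Finset.mem_image.2 ⟨v, Finset.mem_filter.2 ⟨hv, ?_, hv3⟩, ?_⟩
    · exact hv2.le.trans (hradle a (Finset.mem_range.1 ha1))
    · have h4 : (a : ℝ) ≤ (dist v x₀ - 11 / 10 * sc i₀) / w := by
        rw [le_div_iff₀ hw0]
        simp only [hrad] at hv1
        linarith
      have h5 : (dist v x₀ - 11 / 10 * sc i₀) / w < a + 1 := by
        rw [div_lt_iff₀ hw0]
        simp only [hrad] at hv2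
        push_cast at hv2
        linarith
      rw [Nat.floor_eq_iff ((Nat.cast_nonneg a).trans h4)]
      exact ⟨h4, h5⟩
  obtain ⟨a, ham, had⟩ := g6_pigeon (4 * (Q + 1)) M T' (by omega) hM dirty hfew
  set mid := rad a + w / 2 with hmid
  have hrad1 : rad (a + 1) = rad a + w := by
    simp only [hrad]; push_cast; ring
  have hmid1 : 11 / 10 * sc i₀ ≤ mid := by
    have : (0 : ℝ) ≤ a * w := by positivity
    simp only [hmid, hrad]; linarith
  have hmid2 : mid + w / 2 ≤ 7 / 5 * sc i₀ := by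
    have := hradle a ham
    rw [hrad1] at this
    simp only [hmid]; linarith
  have h5sc : 5 * sc k₀ ≤ w / 2 := by
    rw [hk₀, g6_sc_add]
    have : sc i₀ * sc l0 ≤ sc i₀ * (3 / (100 * m)) := mul_le_mul_of_nonneg_left hl0s hr.le
    have h2 : 5 * (sc i₀ * (3 / (100 * m))) = w / 2 := by rw [hw]; ring
    linarith
  -- cells of V t are in the annulus
  have hVann : ∀ t, ∀ v ∈ g6V N x₀ mid k₀ n t, rad a ≤ dist v x₀ ∧ dist v x₀ < rad (a + 1) := by
    intro t v hv
    have h1 := (Finset.mem_filter.1 hv).2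
    have h2 := g6_sc_pos (k₀ + n * t)
    have h3 := abs_le.1 h1
    rw [hrad1]
    constructor
    · simp only [hmid] at h3; linarith [h3.1]
    · simp only [hmid] at h3; linarith [h3.2]
  have hV75 : ∀ t, ∀ v ∈ g6V N x₀ mid k₀ n t, dist v x₀ ≤ 7 / 5 * sc i₀ := by
    intro t v hv
    exact (hVann t v hv).2.le.trans (hradle a ham)
  -- leaves cross the middle sphere
  have h0 : ∀ K ∈ ν.supp, ∃ v ∈ g6V N x₀ mid k₀ n 0, hit k₀ v K := by
    intro K hK
    obtain ⟨hc, hx, y, hy, hyd⟩ := hν K hK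
    obtain ⟨x, hx1, hx2⟩ := hx
    have hx1' : dist x x₀ ≤ sc i₀ := hx1
    have hmem : mid ∈ (fun z => dist z x₀) '' (K : Set Z) := by
      apply hc.isPreconnected.intermediate_value hx2 hy (by fun_prop)
      refine ⟨?_, ?_⟩
      · show dist x x₀ ≤ mid
        linarith
      · show mid ≤ dist y x₀
        linarith
    obtain ⟨z, hz, hzm⟩ := hmem
    have hzm' : dist z x₀ = mid := hzm
    obtain ⟨v, hv, hzv⟩ := hN.cov k₀ z
    refine ⟨v, Finset.mem_filter.2 ⟨by simpa using hv, ?_⟩, z, hzv, hz⟩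
    have h1 : |dist v x₀ - dist z x₀| ≤ dist v z := abs_dist_sub_le _ _ _
    rw [hzm', dist_comm v z] at h1
    simp only [Nat.mul_zero, Nat.add_zero]
    linarith
  -- local moduli
  set E : ℕ → ℝ := fun t => if dirty a t then (Dn : ℝ) * 2 ^ (Q * n) else C₃ * (1 / 2) ^ n with hE
  have hE0 : ∀ t, 0 ≤ E t := by
    intro t
    simp only [hE]
    split_ifs <;> positivity
  have hsck : ∀ t, sc (k₀ + n * t) ≤ sc i₀ / 4 := by
    intro t
    have h1 : sc (k₀ + n * t) ≤ sc (i₀ + 2) := g6_sc_anti (by omega)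
    have h2 : sc (i₀ + 2) = sc i₀ / 4 := by rw [g6_sc_add]; unfold sc; ring
    linarith
  have hEl : ∀ t < T, ∀ v ∈ g6V N x₀ mid k₀ n t,
      md ((N (k₀ + n * t + n)).filter (fun w => dist w v ≤ 2 * sc (k₀ + n * t))) (hit (k₀ + n * t + n))
      {K | K ∈ ν.supp ∧ hit (k₀ + n * t) v K} ≤ E t := by
    intro t _ v hv
    simp only [hE]
    split_ifs with hdt
    · refine (g6_trivial N hN D Q hD ν.supp (k₀ + n * t) n v).trans ?_
      exact mul_le_mul_of_nonneg_right hDn (by positivity)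
    · apply hbad ν.supp (k₀ + n * t) n v
      · intro K hK
        obtain ⟨hc, _, y, hy, hyd⟩ := hν K hK
        refine ⟨hc, y, hy, ?_⟩
        have h1 := hV75 t v hv
        have h2 : dist y x₀ ≤ dist y v + dist v x₀ := dist_triangle _ _ _
        have h3 := hsck t
        linarith
      · intro hg
        exact hdt ⟨v, (Finset.mem_filter.1 hv).1, hVann t v hv, hg⟩
  have hchain := g6_chain N hN D Q hD x₀ mid k₀ n hn1 Dn hDn ν.supp h0 E hE0 T hEl
  -- numerical estimate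
  have hp1 : (2 : ℝ) ^ p ≤ 2 ^ (p + 1) := pow_le_pow_right₀ (by norm_num) (Nat.le_succ p)
  have hDnC : (Dn : ℝ) * C₃ ≤ 2 ^ (p + 1) := by
    have h1 : (Dn : ℝ) * C₃ ≤ Dn * (C₃ + Dn) := by
      apply mul_le_mul_of_nonneg_left _ (Nat.cast_nonneg _)
      linarith [(Nat.cast_nonneg Dn : (0 : ℝ) ≤ Dn)]
    linarith
  have hDnD : (Dn : ℝ) * Dn ≤ 2 ^ (p + 1) := by
    have h1 : (Dn : ℝ) * Dn ≤ Dn * (C₃ + Dn) := by
      apply mul_le_mul_of_nonneg_left _ (Nat.cast_nonneg _)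
      linarith
    linarith
  have hprod : ∏ t ∈ Finset.range T, ((Dn : ℝ) * E t) ≤ (1 / 2) ^ T' := by
    apply g6_prod (p + 1) Q T' (by omega) (fun t => dirty a t) (fun t => (Dn : ℝ) * E t)
    · intro t; exact mul_nonneg (Nat.cast_nonneg _) (hE0 t)
    · intro t ht
      simp only [hE, if_pos ht]
      calc (Dn : ℝ) * (Dn * 2 ^ (Q * n)) = (Dn * Dn) * 2 ^ (Q * n) := by ring
        _ ≤ 2 ^ (p + 1) * 2 ^ (Q * n) := mul_le_mul_of_nonneg_right hDnD (by positivity)
        _ = 2 ^ ((p + 1) * (2 * Q + 1)) := by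
            rw [← pow_add]; congr 1; rw [hn]; ring
    · intro t ht
      simp only [hE, if_neg ht]
      calc (Dn : ℝ) * (C₃ * (1 / 2) ^ n) = (Dn * C₃) * (1 / 2) ^ n := by ring
        _ ≤ 2 ^ (p + 1) * (1 / 2) ^ n := mul_le_mul_of_nonneg_right hDnC (by positivity)
        _ = (1 / 2) ^ (p + 1) := by
            rw [hn, two_mul, pow_add ((1 : ℝ) / 2) (p + 1) (p + 1), ← mul_assoc, ← mul_pow]; norm_num
    · exact had
  -- the upper bound
  have hcard0 : md (g6V N x₀ mid k₀ n 0) (hit k₀) {K | K ∈ ν.supp} ≤ Dn * 2 ^ (Q * l0) := by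
    refine (md_le_card _ _ _ (fun K hK => h0 K hK)).trans ?_
    refine (g6_card N hN D Q hD 2 (by norm_num) i₀ l0 x₀ _ ?_ ?_).trans
      (mul_le_mul_of_nonneg_right hDn (by positivity))
    · have : (g6V N x₀ mid k₀ n 0) ⊆ N (k₀ + n * 0) := Finset.filter_subset _ _
      simpa using this
    · intro v hv
      have := hV75 0 v hv
      linarith
  have hmdT : md (g6V N x₀ mid k₀ n T) (hit (k₀ + n * T)) {K | K ∈ ν.supp} ≤
      (1 / 2) ^ T' * (Dn * 2 ^ (Q * l0)) := by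
    refine hchain.trans ?_
    exact mul_le_mul hprod hcard0 (md_nonneg _ _ _) (by positivity)
  -- the lower bound
  have hlow := one_le_energy_mul_md (g6V N x₀ mid k₀ n T) (hit (k₀ + n * T)) {K | K ∈ ν.supp}
    (g6V_hit N hN x₀ mid k₀ n hn1 ν.supp h0 T) ν (fun K hK => hK)
  have henT : energy (g6V N x₀ mid k₀ n T) (ν.mass (hit (k₀ + n * T))) ≤ |C| := by
    have h1 := hen (l0 + n * T) le_rfl
    rw [hassoc] at h1
    refine le_trans ?_ (h1.trans (le_abs_self C))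
    unfold energy
    apply Finset.sum_le_sum_of_subset_of_nonneg
    · intro v hv
      refine Finset.mem_filter.2 ⟨(Finset.mem_filter.1 hv).1, ?_⟩
      have := hV75 T v hv
      linarith
    · intro v _ _
      positivity
  have hfin : (1 : ℝ) ≤ |C| * ((1 / 2) ^ T' * (Dn * 2 ^ (Q * l0))) :=
    hlow.trans (mul_le_mul henT hmdT (md_nonneg _ _ _) (abs_nonneg _))
  have h2T : (0 : ℝ) < 2 ^ T' := by positivity
  have heq : |C| * ((1 / 2) ^ T' * (Dn * 2 ^ (Q * l0))) = (|C| * (Dn * 2 ^ (Q * l0))) / 2 ^ T' := by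
    rw [one_div, inv_pow]; field_simp
  rw [heq, le_div_iff₀ h2T] at hfin
  linarith

end G6

end P198Q
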