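import Vale.Agent.P198.Q.Flow4
import Vale.Agent.P198.Q.Good6

/-!
# P198, block A7a: types and pigeonhole

From a flow of leaves with bounded energies we find three good cells at one level, of the same type,
pairwise unrelated, whose leaves belong to classes of big mass.
-/

open Metric Set TopologicalSpace
open scoped Classical

namespace P198Q

/-- image of a nonempty compact set -/
noncomputable def img {Z : Type*} [MetricSpace Z] (f : Z → Z) (hf : Continuous f)
    (K : NonemptyCompacts Z) : NonemptyCompacts Z :=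
  ⟨⟨f '' K, K.isCompact.image hf⟩, K.nonempty.image f⟩

namespace T7

/-- a finite colouring with classes of small diameter -/
lemma exists_colour (X : Type*) [MetricSpace X] [CompactSpace X] (τ : ℝ) (hτ : 0 < τ) :
    ∃ (m : ℕ) (c : X → Fin m), ∀ x y, c x = c y → dist x y ≤ τ := by
  obtain ⟨t, -, htf, htc⟩ := finite_cover_balls_of_compact (isCompact_univ (X := X))
    (e := τ / 2) (by positivity)
  have hex : ∀ x : X, ∃ y : t, dist x y < τ / 2 := by
    intro x
    have := htc (mem_univ x)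
    simp only [mem_iUnion, mem_ball, exists_prop] at this
    obtain ⟨y, hy, hxy⟩ := this
    exact ⟨⟨y, hy⟩, hxy⟩
  choose f hf using hex
  have : Finite t := htf
  obtain ⟨m, ⟨e⟩⟩ := Finite.exists_equiv_fin t
  refine ⟨m, fun x => e (f x), fun x y hxy => ?_⟩
  have h1 := e.injective hxy
  have h2 := hf x
  have h3 := hf y
  rw [← h1] at h3
  have h4 := dist_triangle_right x y (f x : X)
  linarith

variable {α : Type*}

lemma pr_add_not (ν : Flow α) (p : α → Prop) : ν.pr p + ν.pr (fun K => ¬ p K) = 1 := by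
  unfold Flow.pr
  rw [Finset.sum_filter_add_sum_filter_not, ν.sum_one]

lemma pr_le_sum' {ι : Type*} (ν : Flow α) (p : α → Prop) (s : Finset ι) (r : ι → α → Prop)
    (h : ∀ K ∈ ν.supp, p K → ∃ m ∈ s, r m K) : ν.pr p ≤ ∑ m ∈ s, ν.pr (r m) := by
  unfold Flow.pr
  have h1 : ∑ K ∈ ν.supp with p K, ν.w K ≤
      ∑ K ∈ ν.supp, ∑ m ∈ s, (if r m K then ν.w K else 0) := by
    rw [Finset.sum_filter]
    refine Finset.sum_le_sum fun K hK => ?_
    have hw : 0 ≤ ν.w K := (ν.pos K hK).le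
    have hnn : ∀ m ∈ s, 0 ≤ (if r m K then ν.w K else 0) := by
      intro m _
      split_ifs <;> simp [hw]
    split_ifs with hp
    · obtain ⟨m, hm, hr⟩ := h K hK hp
      refine le_trans ?_ (Finset.single_le_sum hnn hm)
      simp [hr]
    · exact Finset.sum_nonneg hnn
  refine h1.trans (le_of_eq ?_)
  rw [Finset.sum_comm]
  refine Finset.sum_congr rfl fun m _ => ?_
  rw [Finset.sum_filter]

lemma cond_supp (ν : Flow α) (p : α → Prop) (hp : 0 < ν.pr p) :
    ∀ K ∈ (F4.cond ν p hp).supp, K ∈ ν.supp ∧ p K := by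
  intro K hK
  unfold F4.cond at hK
  exact Finset.mem_filter.1 hK

/-- choosing three pairwise unrelated elements -/
lemma exists_three {Z : Type*} (S : Finset Z) (rel : Z → Z → Prop) (n : ℕ)
    (hrel : ∀ v ∈ S, (S.filter (fun v' => rel v v')).card ≤ n)
    (hsymm : ∀ v w, rel v w → rel w v) (hS : 2 * n < S.card) :
    ∃ v : Fin 3 → Z, (∀ i, v i ∈ S) ∧ ∀ i j, i ≠ j → ¬ rel (v i) (v j) := by
  have h0 : S.Nonempty := by rw [← Finset.card_pos]; omega
  obtain ⟨a, ha⟩ := h0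
  have h1 : (S.filter (fun v' => ¬ rel a v')).Nonempty := by
    rw [← Finset.card_pos]
    have := Finset.card_filter_add_card_filter_not (s := S) (fun v' => rel a v')
    have := hrel a ha
    omega
  obtain ⟨b, hb⟩ := h1
  rw [Finset.mem_filter] at hb
  have h2 : ((S.filter (fun v' => ¬ rel a v')).filter (fun v' => ¬ rel b v')).Nonempty := by
    rw [← Finset.card_pos]
    have e1 := Finset.card_filter_add_card_filter_not (s := S) (fun v' => rel a v')
    have e2 := Finset.card_filter_add_card_filter_not (s := S.filter (fun v' => ¬ rel a v'))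
      (fun v' => rel b v')
    have e3 := hrel a ha
    have e4 := hrel b hb.1
    have e5 : ((S.filter (fun v' => ¬ rel a v')).filter (fun v' => rel b v')).card ≤
        (S.filter (fun v' => rel b v')).card := by
      refine Finset.card_le_card fun x hx => ?_
      rw [Finset.mem_filter, Finset.mem_filter] at hx
      rw [Finset.mem_filter]
      exact ⟨hx.1.1, hx.2⟩
    omega
  obtain ⟨c, hc⟩ := h2
  rw [Finset.mem_filter, Finset.mem_filter] at hc
  have ab : ¬ rel a b := hb.2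
  have ac : ¬ rel a c := hc.1.2
  have bc : ¬ rel b c := hc.2
  have ba : ¬ rel b a := fun h => ab (hsymm _ _ h)
  have ca : ¬ rel c a := fun h => ac (hsymm _ _ h)
  have cb : ¬ rel c b := fun h => bc (hsymm _ _ h)
  refine ⟨![a, b, c], ?_, ?_⟩
  · intro i
    fin_cases i
    · exact ha
    · exact hb.1
    · exact hc.1.1
  · intro i j hij
    fin_cases i <;> fin_cases j
    · exact absurd rfl hij
    · exact ab
    · exact ac
    · exact ba
    · exact absurd rfl hij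
    · exact bc
    · exact ca
    · exact cb
    · exact absurd rfl hij

end T7

open T7

theorem types7 {Z : Type*} [MetricSpace Z] [CompactSpace Z] (N : ℕ → Finset Z) (hN : IsNet N)
    (D : ℝ → ℝ) (Q : ℕ) (hD : Doubling Z D Q) (C : ℝ) :
  ∃ n₀ : ℕ, ∀ (τ A₂ : ℝ), 0 < τ → ∀ N₂ lmin : ℕ, ∃ (lmax : ℕ) (θ : ℝ), 0 < θ ∧
   ∀ (i₀ : ℕ) (x₀ : Z) (ν : Flow (NonemptyCompacts Z)),
   (∀ K ∈ ν.supp, IsConnected (K : Set Z) ∧ hit i₀ x₀ K ∧ ∃ y ∈ (K : Set Z), 2 * sc i₀ ≤ dist y x₀) →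
   (∀ l ≤ lmax, ∑ v ∈ N (i₀ + l) with dist v x₀ ≤ 3 / 2 * sc i₀, ν.mass (hit (i₀ + l)) v ^ 2 ≤ C) →
   ∀ (φ : ℕ → Z → Z → Z) (hφ : ∀ l v, Continuous (φ l v)) (β : ℕ → Z → Z),
   (∀ l, lmin ≤ l → l ≤ lmax → ∀ v, dist v x₀ ≤ 7 / 5 * sc i₀ →
      ((N (i₀ + l)).filter (fun v' => dist v' x₀ ≤ 7 / 5 * sc i₀ ∧
        dist (β l v) (β l v') < A₂ * sc l)).card ≤ N₂) →
   ∃ l, lmin ≤ l ∧ l ≤ lmax ∧ ∃ (v : Fin 3 → Z) (K : Fin 3 → Fin 3 → NonemptyCompacts Z)
     (p : Fin 3 → Fin 3 → Z),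
     (∀ n, v n ∈ N (i₀ + l) ∧ dist (v n) x₀ ≤ 7 / 5 * sc i₀) ∧
     (∀ n m, n ≠ m → A₂ * sc l ≤ dist (β l (v n)) (β l (v m))) ∧
     (∀ n i, K n i ∈ ν.supp ∧ hit (i₀ + l) (v n) (K n i)) ∧
     (∀ n i, p n i ∈ (K n i : Set Z) ∧ dist (p n i) (v n) ≤ 2 * sc (i₀ + l)) ∧
     (∀ n i j, i ≠ j → ∀ y ∈ (K n j : Set Z), sc (i₀ + l + n₀) ≤ dist (p n i) y) ∧
     (∀ n m i, dist (φ l (v n) (p n i)) (φ l (v m) (p m i)) ≤ τ) ∧
     (∀ n m i, dist (img (φ l (v n)) (hφ _ _) (K n i)) (img (φ l (v m)) (hφ _ _) (K m i)) ≤ τ) ∧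
     (∀ n i, θ ≤ ν.pr (fun K' => hit (i₀ + l) (v n) K' ∧
        dist (img (φ l (v n)) (hφ _ _) K') (img (φ l (v n)) (hφ _ _) (K n i)) ≤ τ)) := by
  obtain ⟨n₀, hmany⟩ := many_good N hN D Q hD (4 * C)
  refine ⟨n₀, fun τ A₂ hτ N₂ lmin => ?_⟩
  obtain ⟨mK, cK, hcK⟩ := exists_colour (NonemptyCompacts Z) τ hτ
  obtain ⟨mZ, cZ, hcZ⟩ := exists_colour Z τ hτ
  set T := (Fin 3 → Fin mK) × (Fin 3 → Fin mZ) with hT
  obtain ⟨lmax, hlmax⟩ := hmany (Fintype.card T * (2 * N₂) + 1) lmin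
  set X : ℝ := ∑ l ∈ Finset.range (lmax + 1), |D (3 / 2)| * 2 ^ (Q * l) * mK with hX
  have hX0 : 0 ≤ X := Finset.sum_nonneg fun l _ => by positivity
  refine ⟨lmax, 1 / (2 * (X + 1)), by positivity, ?_⟩
  set θ : ℝ := 1 / (2 * (X + 1)) with hθ
  have hθ0 : 0 < θ := by positivity
  have hXθ : X * θ ≤ 1 / 2 := by
    rw [hθ, mul_one_div, div_le_div_iff₀ (by positivity) (by norm_num)]
    linarith
  intro i₀ x₀ ν hν hen φ hφ β hrel
  -- heavy leaves
  set cl : ℕ → Z → NonemptyCompacts Z → Fin mK := fun l v K => cK (img (φ l v) (hφ l v) K) with hcl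
  set H : NonemptyCompacts Z → Prop := fun K => ∀ l ≤ lmax, ∀ v ∈ N (i₀ + l),
    dist v x₀ ≤ 3 / 2 * sc i₀ → hit (i₀ + l) v K →
      θ ≤ ν.pr (fun K' => hit (i₀ + l) v K' ∧ cl l v K' = cl l v K) with hH
  have hnotH : ν.pr (fun K => ¬ H K) ≤ 1 / 2 := by
    refine le_trans ?_ hXθ
    rw [hX, Finset.sum_mul]
    refine (pr_le_sum' ν _ (Finset.range (lmax + 1)) (fun l K => ∃ v ∈ N (i₀ + l),
      dist v x₀ ≤ 3 / 2 * sc i₀ ∧ hit (i₀ + l) v K ∧
        ν.pr (fun K' => hit (i₀ + l) v K' ∧ cl l v K' = cl l v K) < θ) ?_).trans ?_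
    · intro K _ hK
      simp only [hH] at hK
      push Not at hK
      obtain ⟨l, hl, v, hv, h1, h2, h3⟩ := hK
      exact ⟨l, Finset.mem_range.2 (by omega), v, hv, h1, h2, h3⟩
    · refine Finset.sum_le_sum fun l _ => ?_
      refine (pr_le_sum' ν _ ((N (i₀ + l)).filter (fun v => dist v x₀ ≤ 3 / 2 * sc i₀))
        (fun v K => hit (i₀ + l) v K ∧
          ν.pr (fun K' => hit (i₀ + l) v K' ∧ cl l v K' = cl l v K) < θ) ?_).trans ?_
      · rintro K _ ⟨v, hv, h1, h2, h3⟩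
        exact ⟨v, Finset.mem_filter.2 ⟨hv, h1⟩, h2, h3⟩
      · have hcell : ∀ v ∈ (N (i₀ + l)).filter (fun v => dist v x₀ ≤ 3 / 2 * sc i₀),
            ν.pr (fun K => hit (i₀ + l) v K ∧
              ν.pr (fun K' => hit (i₀ + l) v K' ∧ cl l v K' = cl l v K) < θ) ≤ mK * θ := by
          intro v _
          refine (pr_le_sum' ν _ (Finset.univ : Finset (Fin mK))
            (fun y K => (hit (i₀ + l) v K ∧ cl l v K = y) ∧
              ν.pr (fun K' => hit (i₀ + l) v K' ∧ cl l v K' = y) < θ) ?_).trans ?_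
          · rintro K _ ⟨h1, h2⟩
            exact ⟨cl l v K, Finset.mem_univ _, ⟨h1, rfl⟩, h2⟩
          · have : ∀ y ∈ (Finset.univ : Finset (Fin mK)),
                ν.pr (fun K => (hit (i₀ + l) v K ∧ cl l v K = y) ∧
                  ν.pr (fun K' => hit (i₀ + l) v K' ∧ cl l v K' = y) < θ) ≤ θ := by
              intro y _
              by_cases hy : ν.pr (fun K' => hit (i₀ + l) v K' ∧ cl l v K' = y) < θ
              · refine le_trans ?_ hy.le
                exact F4.pr_mono ν _ _ fun K _ h => h.1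
              · refine le_trans (F4.pr_mono ν _ (fun _ => False) fun K _ h => hy h.2) ?_
                unfold Flow.pr
                simp [hθ0.le]
            refine (Finset.sum_le_sum this).trans ?_
            simp
        refine (Finset.sum_le_sum hcell).trans ?_
        rw [Finset.sum_const, nsmul_eq_mul]
        have hcard : (((N (i₀ + l)).filter (fun v => dist v x₀ ≤ 3 / 2 * sc i₀)).card : ℝ) ≤
            |D (3 / 2)| * 2 ^ (Q * l) := by
          have h1 := hD (3 / 2) i₀ l x₀ ((N (i₀ + l)).filter (fun v => dist v x₀ ≤ 3 / 2 * sc i₀))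
            (by norm_num) (fun a ha => (Finset.mem_filter.1 ha).2)
            (fun a ha b hb hab => hN.sep _ a (Finset.mem_filter.1 ha).1 b
              (Finset.mem_filter.1 hb).1 hab)
          refine h1.trans ?_
          exact mul_le_mul_of_nonneg_right (le_abs_self _) (by positivity)
        calc (((N (i₀ + l)).filter (fun v => dist v x₀ ≤ 3 / 2 * sc i₀)).card : ℝ) * (mK * θ)
            ≤ (|D (3 / 2)| * 2 ^ (Q * l)) * (mK * θ) :=
              mul_le_mul_of_nonneg_right hcard (by positivity)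
          _ = |D (3 / 2)| * 2 ^ (Q * l) * mK * θ := by ring
  have hHpr : 1 / 2 ≤ ν.pr H := by
    have := pr_add_not ν H
    linarith
  have hHpos : 0 < ν.pr H := by linarith
  set ν' := F4.cond ν H hHpos with hν'
  have hsupp : ∀ K ∈ ν'.supp, K ∈ ν.supp ∧ H K := cond_supp ν H hHpos
  obtain ⟨l, hl1, hl2, hcard⟩ := hlmax i₀ x₀ ν' (fun K hK => hν K (hsupp K hK).1) (by
    intro l hl
    have h1 : ∀ v, ν'.mass (hit (i₀ + l)) v ^ 2 ≤ 4 * ν.mass (hit (i₀ + l)) v ^ 2 := by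
      intro v
      have h2 := F4.cond_mass_le ν H hHpos (hit (i₀ + l)) v
      have h3 := F4.mass_nonneg ν' (hit (i₀ + l)) v
      have h4 := F4.mass_nonneg ν (hit (i₀ + l)) v
      have h5 : ν.mass (hit (i₀ + l)) v / ν.pr H ≤ 2 * ν.mass (hit (i₀ + l)) v := by
        rw [div_le_iff₀ hHpos]
        nlinarith
      have h6 := h2.trans h5
      nlinarith
    refine (Finset.sum_le_sum fun v _ => h1 v).trans ?_
    rw [← Finset.mul_sum]
    linarith [hen l hl])
  set S := (N (i₀ + l)).filter (fun v => dist v x₀ ≤ 7 / 5 * sc i₀ ∧ Good ν'.supp (i₀ + l) n₀ v)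
    with hS
  have hgood : ∀ v : Z, ∃ (K : Fin 3 → NonemptyCompacts Z) (p : Fin 3 → Z), v ∈ S →
      (∀ i, K i ∈ ν'.supp) ∧ (∀ i, hit (i₀ + l) v (K i)) ∧
      (∀ i, p i ∈ (K i : Set Z)) ∧ (∀ i, dist (p i) v ≤ 2 * sc (i₀ + l)) ∧
      ∀ i j, i ≠ j → ∀ y ∈ (K j : Set Z), sc (i₀ + l + n₀) ≤ dist (p i) y := by
    intro v
    by_cases hv : v ∈ S
    · obtain ⟨K, p, h⟩ := (Finset.mem_filter.1 hv).2.2
      exact ⟨K, p, fun _ => h⟩
    · obtain ⟨K0, hK0⟩ : ν.supp.Nonempty := by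
        rw [Finset.nonempty_iff_ne_empty]
        intro h
        have := ν.sum_one
        rw [h] at this
        simp at this
      exact ⟨fun _ => K0, fun _ => v, fun h => absurd h hv⟩
  choose Kf pf hKp using hgood
  -- pigeonhole on types
  set ty : Z → T := fun v => (fun i => cl l v (Kf v i), fun i => cZ (φ l v (pf v i))) with hty
  obtain ⟨y, -, hy⟩ := Finset.exists_lt_card_fiber_of_mul_lt_card_of_maps_to
    (s := S) (t := (Finset.univ : Finset T)) (f := ty) (n := 2 * N₂)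
    (fun v _ => Finset.mem_univ _) (by rw [Finset.card_univ]; omega)
  obtain ⟨v, hvS, hvrel⟩ := exists_three (S.filter (fun v => ty v = y))
    (fun v v' => dist (β l v) (β l v') < A₂ * sc l) N₂ (by
      intro v hv
      have hvS := (Finset.mem_filter.1 hv).1
      have hvx := (Finset.mem_filter.1 hvS).2.1
      refine (Finset.card_le_card ?_).trans (hrel l hl1 hl2 v hvx)
      intro x hx
      rw [Finset.mem_filter] at hx
      have hxS := (Finset.mem_filter.1 hx.1).1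
      rw [hS, Finset.mem_filter] at hxS
      rw [Finset.mem_filter]
      exact ⟨hxS.1, hxS.2.1, hx.2⟩)
    (fun a b h => by rw [dist_comm]; exact h) hy
  have hvS' : ∀ n, v n ∈ S := fun n => (Finset.mem_filter.1 (hvS n)).1
  have hvty : ∀ n, ty (v n) = y := fun n => (Finset.mem_filter.1 (hvS n)).2
  have hvN : ∀ n, v n ∈ N (i₀ + l) ∧ dist (v n) x₀ ≤ 7 / 5 * sc i₀ := fun n =>
    ⟨(Finset.mem_filter.1 (hvS' n)).1, (Finset.mem_filter.1 (hvS' n)).2.1⟩
  have hcls : ∀ n m i, cl l (v n) (Kf (v n) i) = cl l (v m) (Kf (v m) i) := by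
    intro n m i
    have h1 := (hvty n).trans (hvty m).symm
    exact congrFun (Prod.ext_iff.1 h1).1 i
  have hclz : ∀ n m i, cZ (φ l (v n) (pf (v n) i)) = cZ (φ l (v m) (pf (v m) i)) := by
    intro n m i
    have h1 := (hvty n).trans (hvty m).symm
    exact congrFun (Prod.ext_iff.1 h1).2 i
  refine ⟨l, hl1, hl2, v, fun n => Kf (v n), fun n => pf (v n), hvN, ?_, ?_, ?_, ?_, ?_, ?_, ?_⟩
  · intro n m hnm
    exact not_lt.1 (hvrel n m hnm)
  · intro n i
    exact ⟨(hsupp _ ((hKp _ (hvS' n)).1 i)).1, (hKp _ (hvS' n)).2.1 i⟩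
  · intro n i
    exact ⟨(hKp _ (hvS' n)).2.2.1 i, (hKp _ (hvS' n)).2.2.2.1 i⟩
  · intro n i j hij
    exact (hKp _ (hvS' n)).2.2.2.2 i j hij
  · intro n m i
    exact hcZ _ _ (hclz n m i)
  · intro n m i
    exact hcK _ _ (hcls n m i)
  · intro n i
    have h1 := (hsupp _ ((hKp _ (hvS' n)).1 i)).2 l hl2 (v n) (hvN n).1
      (by have := F4.sc_pos i₀; have := (hvN n).2; linarith) ((hKp _ (hvS' n)).2.1 i)
    refine h1.trans (F4.pr_mono ν _ _ fun K' _ h => ⟨h.1, ?_⟩)
    exact hcK _ _ h.2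

end P198Q
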