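import Vale.Agent.P198.Q.Assembly7a
import Vale.Agent.P198.Q.Types7
import Vale.Agent.P198.Q.Geom7

/-!
# P198, block A7c: a leaf family does not exist
-/

open Metric Set TopologicalSpace
open scoped Classical

namespace P198Q

/-- A leaf family does not exist (with the doubling property as a hypothesis). -/
theorem leafFamily_false_aux {G Z : Type*} [Group G] [MetricSpace Z] [MulAction G Z]
    [CompactSpace Z] (q : QM G Z) (hP : Planar Z) (N : ℕ → Finset Z) (hN : IsNet N)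
    (D : ℝ → ℝ) (Q : ℕ) (hD : Doubling Z D Q)
    (B : Set (NonemptyCompacts Z)) (t c : ℝ) (hB : LeafFamily G N B t c) : False := by
  obtain ⟨C, hC, hext⟩ := exists_extremal N hN D Q hD B t c hB
  obtain ⟨cΩ, hcΩ, hΩ⟩ := hP.t2 t hB.tpos
  obtain ⟨c₁, A, A₂, N₂, a, lmin, j, hc₁, hA, hAA, haj, hgeom⟩ :=
    exists_geom7 q N hN D Q hD cΩ hcΩ
  obtain ⟨n₀, htypes⟩ := types7 N hN D Q hD C
  have hcont : ∀ g : G, Continuous (fun x : Z => g • x) := by
    intro g
    have hs := q.s_pos g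
    have hC1 := q.one_le_C
    refine (LipschitzWith.of_dist_le_mul (K := Real.toNNReal (q.C / q.s g)) fun x y => ?_).continuous
    rw [Real.coe_toNNReal _ (by positivity)]
    refine (Geo7.zoom_upper q g x y).trans (le_of_eq ?_)
    ring
  -- constants
  set s0 : ℝ := c₁ * sc n₀ with hs0
  have hs0p : 0 < s0 := mul_pos hc₁ (Geo7.sc_pos _)
  have hs0c : s0 ≤ c₁ := by
    have := Geo7.sc_le_one n₀
    have := Geo7.sc_pos n₀
    rw [hs0]; nlinarith
  obtain ⟨δ, hδ, hJ⟩ := hP.t1 (s0 / 8) (by positivity)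
  set τ : ℝ := min (δ / 4) (s0 / 16) with hτ
  have hτp : 0 < τ := lt_min (by positivity) (by positivity)
  have hτ1 : τ ≤ δ / 4 := min_le_left _ _
  have hτ2 : τ ≤ s0 / 16 := min_le_right _ _
  obtain ⟨lmax, θ, hθ, hty⟩ := htypes τ A₂ hτp N₂ lmin
  obtain ⟨l₂, hl₂⟩ := exists_nat_gt (4 * C / θ ^ 2)
  have hl₂0 : (0 : ℝ) < l₂ := lt_of_le_of_lt (by positivity) hl₂
  have hl₂1 : 1 ≤ l₂ := by exact_mod_cast hl₂0
  obtain ⟨k₀, hk₀⟩ := Geo7.exists_sc_lt (ε := c₁ / 4 / A) (by positivity)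
  obtain ⟨k₁, hk₁⟩ := Geo7.exists_sc_lt (ε := t / 8) (by have := hB.tpos; positivity)
  obtain ⟨i₀, hi₀, x₀, L, hL, ν, hν1, hν2, hν3⟩ :=
    hext (max (max j (l₂ + a)) (max k₀ k₁)) (max lmax l₂)
  have hij : j ≤ i₀ := (le_max_left _ _).trans ((le_max_left _ _).trans hi₀)
  have hil : l₂ + a ≤ i₀ := (le_max_right _ _).trans ((le_max_left _ _).trans hi₀)
  have hik₀ : k₀ ≤ i₀ := (le_max_left _ _).trans ((le_max_right _ _).trans hi₀)
  have hik₁ : k₁ ≤ i₀ := (le_max_right _ _).trans ((le_max_right _ _).trans hi₀)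
  have hLmax : lmax ≤ L := (le_max_left _ _).trans hL
  have hLl₂ : l₂ ≤ L := (le_max_right _ _).trans hL
  have hsc0 : sc i₀ * A < c₁ / 4 := by
    have h1 := lt_of_le_of_lt (Geo7.sc_anti hik₀) hk₀
    rwa [lt_div_iff₀ hA] at h1
  have hsc1 : sc i₀ < t / 8 := lt_of_le_of_lt (Geo7.sc_anti hik₁) hk₁
  have hscp : 0 < sc i₀ := Geo7.sc_pos _
  have hsc1' : sc i₀ ≤ 1 := Geo7.sc_le_one _
  obtain ⟨Ω, hΩc, hΩconn, hΩd, hΩdiam⟩ := hΩ x₀
  have hfβ : ∀ l, ∃ (f : Z → G) (β : Z → Z), lmin ≤ l →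
      Geom7 G N Ω c₁ A A₂ N₂ a i₀ x₀ l f β := by
    intro l
    by_cases hl : lmin ≤ l
    · obtain ⟨f, β, h⟩ := hgeom i₀ hij x₀ Ω hΩd l hl
      exact ⟨f, β, fun _ => h⟩
    · exact ⟨fun _ => 1, id, fun h => absurd h hl⟩
  choose f β hg using hfβ
  obtain ⟨l, hl1, hl2, v, K, p, hv, hunrel, hK, hp, hsep, htp, htK, hheavy⟩ :=
    hty i₀ x₀ ν (by
      intro K hK
      obtain ⟨⟨hKB, hKt⟩, hKh⟩ := hν1 K hK
      refine ⟨hB.conn K hKB, hKh, ?_⟩
      by_contra hcon
      push Not at hcon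
      have h1 : diam (K : Set Z) ≤ 4 * sc i₀ := by
        refine diam_le_of_forall_dist_le (by positivity) fun x hx y hy => ?_
        have hx1 := hcon x hx
        have hy1 := hcon y hy
        have := dist_triangle x x₀ y
        rw [dist_comm x₀ y] at this
        linarith
      linarith)
    (fun l hl => hν2 l (hl.trans hLmax)) (fun l v x => f l v • x) (fun l v => hcont _) β
    (fun l hl1 _ v hv => (hg l hl1).related v hv)
  have hG := hg l hl1
  have hslp : 0 < sc l := Geo7.sc_pos _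
  have hsl1 : sc l ≤ 1 := Geo7.sc_le_one _
  set ρ : ℝ := A * (sc l * sc i₀) with hρ
  have hρ1 : ρ ≤ A * sc l := by
    rw [hρ]
    have : sc l * sc i₀ ≤ sc l := by nlinarith
    nlinarith
  have hρ2 : ρ ≤ c₁ / 4 := by
    have : sc l * sc i₀ ≤ sc i₀ := by nlinarith
    rw [hρ]
    nlinarith
  -- the balls to avoid
  have hz : ∀ n m, ∃ z : Z, n ≠ m → dist z x₀ ≤ 3 / 2 * sc i₀ ∧ ∀ y,
      dist (f l (v n) • y) (β l (v m)) ≤ A * (sc l * sc i₀) → dist y z ≤ sc (i₀ + (i₀ - a)) := by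
    intro n m
    by_cases hnm : n = m
    · exact ⟨x₀, fun h => absurd hnm h⟩
    · obtain ⟨z, h1, h2⟩ := hG.avoid (v n) (v m) (hv n).2 (hv m).2 (hunrel n m hnm)
      exact ⟨z, fun _ => ⟨h1, h2⟩⟩
  choose z hz using hz
  have hbad : ∀ n m, n ≠ m →
      ν.pr (fun K' => hitB (sc (i₀ + (i₀ - a))) (z n m) K') < θ / 2 := by
    intro n m hnm
    have h1 := hν3 (z n m) (hz n m hnm).1 l₂ hl₂1 hLl₂
    have h2 : ν.pr (fun K' => hitB (sc (i₀ + (i₀ - a))) (z n m) K') ≤
        ν.pr (fun K' => hitB (sc (i₀ + l₂)) (z n m) K') := by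
      refine F4.pr_mono ν _ _ fun K' _ h => ?_
      obtain ⟨y, hy, hyK⟩ := h
      refine ⟨y, ?_, hyK⟩
      rw [mem_closedBall] at hy ⊢
      exact hy.trans (Geo7.sc_anti (by omega))
    have h3 : C / l₂ < (θ / 2) ^ 2 := by
      rw [div_lt_iff₀ hl₂0]
      rw [div_lt_iff₀ (by positivity)] at hl₂
      linarith
    have h4 := lt_of_le_of_lt h1 h3
    exact lt_of_le_of_lt h2 (lt_of_pow_lt_pow_left₀ 2 (by positivity) h4)
  -- the nine leaves
  have hleaf : ∀ n i, ∃ K' ∈ ν.supp, dist (img (fun x => f l (v n) • x) (hcont _) K')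
      (img (fun x => f l (v n) • x) (hcont _) (K n i)) ≤ τ ∧
      ∀ m, n ≠ m → ¬ hitB (sc (i₀ + (i₀ - a))) (z n m) K' := by
    intro n i
    by_contra hcon
    push Not at hcon
    have h1 := hheavy n i
    have h2 := T7.pr_le_sum' ν (fun K' => hit (i₀ + l) (v n) K' ∧
        dist (img (fun x => f l (v n) • x) (hcont _) K')
          (img (fun x => f l (v n) • x) (hcont _) (K n i)) ≤ τ) (Finset.univ.erase n)
        (fun m K' => hitB (sc (i₀ + (i₀ - a))) (z n m) K') (by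
          intro K' hK' hh
          obtain ⟨m, hm, hm'⟩ := hcon K' hK' hh.2
          exact ⟨m, Finset.mem_erase.2 ⟨hm.symm, Finset.mem_univ _⟩, hm'⟩)
    have hne : (Finset.univ.erase n : Finset (Fin 3)).Nonempty := by
      rw [← Finset.card_pos, Finset.card_erase_of_mem (Finset.mem_univ _)]
      simp
    have h3 : ∑ m ∈ Finset.univ.erase n,
        ν.pr (fun K' => hitB (sc (i₀ + (i₀ - a))) (z n m) K') <
        ∑ m ∈ (Finset.univ.erase n : Finset (Fin 3)), θ / 2 := by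
      refine Finset.sum_lt_sum_of_nonempty hne fun m hm => ?_
      exact hbad n m (Finset.ne_of_mem_erase hm).symm
    rw [Finset.sum_const, Finset.card_erase_of_mem (Finset.mem_univ _), Finset.card_univ,
      Fintype.card_fin, nsmul_eq_mul] at h3
    have e2 : ((3 - 1 : ℕ) : ℝ) = 2 := by norm_num
    rw [e2] at h3
    linarith
  choose K' hK'1 hK'2 hK'3 using hleaf
  set E : Fin 3 → Fin 3 → NonemptyCompacts Z := fun n i =>
    img (fun x => f l (v n) • x) (hcont _) (K' n i) with hE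
  have hEB : ∀ n i, E n i ∈ B := fun n i =>
    hB.inv (f l (v n)) (K' n i) (hν1 _ (hK'1 n i)).1.1 _ rfl
  -- nearness in the hyperspace to the model leaves at `v 0`
  have hE0 : ∀ n i, dist (E n i) (img (fun x => f l (v 0) • x) (hcont _) (K 0 i)) < 3 * τ := by
    intro n i
    have h1 := hK'2 n i
    have h2 := htK n 0 i
    have h3 := dist_triangle (E n i) (img (fun x => f l (v n) • x) (hcont _) (K n i))
      (img (fun x => f l (v 0) • x) (hcont _) (K 0 i))
    linarith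
  refine nine_false hP.t3 hP.t1 (s0 / 8) δ ρ (s0 - 3 * τ) (c₁ - τ) (3 * τ) (by positivity) hJ
    (by linarith) (by linarith) (by linarith) (fun i => f l (v 0) • p 0 i)
    (fun n => β l (v n)) (fun n => (fun x => f l (v n) • x) '' Ω) E ?_ ?_ ?_ ?_ ?_ ?_ ?_ ?_ ?_ ?_ ?_
  · intro n
    exact hΩc.image (hcont _)
  · intro n
    exact hΩconn.image _ (hcont _).continuousOn
  · rintro n _ ⟨y, hy, rfl⟩
    exact hG.W (v n) (hv n).2 y hy
  · intro η hη
    obtain ⟨E', h1, h2, h3⟩ := hB.perturb (3 * 3)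
      (fun k => E (finProdFinEquiv.symm k).1 (finProdFinEquiv.symm k).2) (fun k => hEB _ _) η hη
    refine ⟨fun n i => E' (finProdFinEquiv (n, i)), fun n i => h1 _, fun n i => ?_, ?_⟩
    · have := h2 (finProdFinEquiv (n, i))
      simpa using this
    · intro n i n' i' hne
      exact h3 _ _ (fun h => hne (finProdFinEquiv.injective h))
  · intro n i
    have hmem : f l (v 0) • p 0 i ∈ (img (fun x => f l (v 0) • x) (hcont _) (K 0 i) : Set Z) :=
      ⟨p 0 i, (hp 0 i).1, rfl⟩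
    obtain ⟨e, he, hde⟩ := exists_dist_lt_of_dist_lt (by rw [dist_comm]; exact hE0 n i) hmem
    exact ⟨e, he, by rw [dist_comm]; exact hde.le⟩
  · intro n i j' hij' y hy
    obtain ⟨y', hy', hd⟩ := exists_dist_lt_of_dist_lt (hE0 n i) hy
    obtain ⟨y'', hy'', rfl⟩ := hy'
    have h1 := hsep 0 j' i hij'.symm y'' hy''
    have h2 := hG.sep (v 0) (p 0 j') y'' n₀ (hv 0).2 (hp 0 j').2 h1
    have h3 := dist_triangle (f l (v 0) • p 0 j') y (f l (v 0) • y'')
    simp only at hd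
    linarith
  · intro i j' hij'
    have h1 := hsep 0 i j' hij' (p 0 j') (hp 0 j').1
    have h2 := hG.sep (v 0) (p 0 i) (p 0 j') n₀ (hv 0).2 (hp 0 i).2 h1
    linarith
  · intro i n
    have h1 := hG.far (v n) (p n i) (hv n).2 (hp n i).2
    have h2 := htp n 0 i
    have h3 := dist_triangle (f l (v n) • p n i) (f l (v 0) • p 0 i) (β l (v n))
    linarith
  · intro n m hnm
    have h1 := hunrel n m hnm
    have h2 : 4 * A * sc l ≤ A₂ * sc l := mul_le_mul_of_nonneg_right hAA hslp.le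
    have h3 : 0 < A * sc l := mul_pos hA hslp
    linarith
  · intro n i
    have hKB := (hν1 _ (hK'1 n i)).1.2
    have : ((K' n i : Set Z) ∩ Ω).Nonempty := by
      by_contra hcon
      have hsub : (K' n i : Set Z) ⊆ Ωᶜ := by
        intro y hy hyΩ
        exact hcon ⟨y, hy, hyΩ⟩
      have := diam_mono hsub (isCompact_univ.isBounded.subset (subset_univ _))
      linarith
    obtain ⟨y, hy1, hy2⟩ := this
    exact ⟨f l (v n) • y, ⟨y, hy1, rfl⟩, ⟨y, hy2, rfl⟩⟩
  · rintro n m i hnm _ ⟨y, hy, rfl⟩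
    by_contra hcon
    push Not at hcon
    exact hK'3 n i m hnm ⟨y, (hz n m hnm).2 y hcon, hy⟩

end P198Q
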