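import Vale.Agent.P198.Q.Defs
import Vale.Agent.P198.Q.Bump

/-!
# P198, block A7c, first part: nine leaves in special position give a K33 configuration
-/

open Metric Set TopologicalSpace
open scoped Classical

namespace P198Q

variable {Z : Type*} [MetricSpace Z]

/-- Nine continua `E n i`, close to the points `pt i` and meeting the continua `W n`, which can be
made pairwise disjoint by arbitrarily small perturbations, give a `K33` configuration. -/
theorem nine_false (hP : ∀ (P W : Fin 3 → Set Z) (E : Fin 3 → Fin 3 → Set Z), ¬ K33 P W E)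
    (ht1 : ∀ ε : ℝ, 0 < ε → ∃ δ : ℝ, 0 < δ ∧ ∀ x y : Z, dist x y < δ →
      ∃ K : Set Z, IsCompact K ∧ IsConnected K ∧ x ∈ K ∧ y ∈ K ∧ diam K < ε)
    (ε δ ρ σ σ' τ : ℝ) (hε : 0 < ε)
    (hδ : ∀ x y : Z, dist x y < δ →
      ∃ K : Set Z, IsCompact K ∧ IsConnected K ∧ x ∈ K ∧ y ∈ K ∧ diam K < ε)
    (hτδ : τ < δ) (hεσ : 2 * ε < σ) (hεσ' : ε + ρ < σ')
    (pt β : Fin 3 → Z) (W : Fin 3 → Set Z) (E : Fin 3 → Fin 3 → NonemptyCompacts Z)
    (hWc : ∀ n, IsCompact (W n)) (hWconn : ∀ n, IsConnected (W n))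
    (hWβ : ∀ n, ∀ y ∈ W n, dist y (β n) ≤ ρ)
    (hpert : ∀ η : ℝ, 0 < η → ∃ E' : Fin 3 → Fin 3 → NonemptyCompacts Z,
      (∀ n i, IsConnected (E' n i : Set Z)) ∧ (∀ n i, dist (E' n i) (E n i) < η) ∧
      ∀ n i n' i', (n, i) ≠ (n', i') → Disjoint (E' n i : Set Z) (E' n' i' : Set Z))
    (hnear : ∀ n i, ∃ e ∈ (E n i : Set Z), dist e (pt i) ≤ τ)
    (hfar : ∀ n i j, i ≠ j → ∀ y ∈ (E n i : Set Z), σ ≤ dist (pt j) y)
    (hpp : ∀ i j, i ≠ j → σ ≤ dist (pt i) (pt j))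
    (hpβ : ∀ i n, σ' ≤ dist (pt i) (β n))
    (hββ : ∀ n m, n ≠ m → 2 * ρ < dist (β n) (β m))
    (hmeet : ∀ n i, ((E n i : Set Z) ∩ W n).Nonempty)
    (hmiss : ∀ n m i, n ≠ m → ∀ y ∈ (E n i : Set Z), ρ < dist y (β m)) : False := by
  -- a uniform gap between `E n i` and the ball about `β m`
  obtain ⟨κ, hκ, hgap⟩ : ∃ κ : ℝ, 0 < κ ∧ ∀ n m i, n ≠ m → ∀ y ∈ (E n i : Set Z),
      ρ + κ ≤ dist y (β m) := by
    have h1 : ∀ x : Fin 3 × Fin 3 × Fin 3, ∃ κ : ℝ, 0 < κ ∧ (x.1 ≠ x.2.1 →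
        ∀ y ∈ (E x.1 x.2.2 : Set Z), ρ + κ ≤ dist y (β x.2.1)) := by
      rintro ⟨n, m, i⟩
      by_cases h : n = m
      · exact ⟨1, one_pos, fun h' => absurd h h'⟩
      · obtain ⟨y0, hy0, hmin⟩ := (E n i).isCompact.exists_isMinOn (E n i).nonempty
          ((continuous_id.dist continuous_const).continuousOn (s := (E n i : Set Z))
            : ContinuousOn (fun y => dist y (β m)) _)
        refine ⟨dist y0 (β m) - ρ, by linarith [hmiss n m i h y0 hy0], fun _ y hy => ?_⟩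
        have : dist y0 (β m) ≤ dist y (β m) := hmin hy
        simpa using this
    choose κ hκ hκ' using h1
    obtain ⟨x0, hx0⟩ := Finite.exists_min κ
    refine ⟨κ x0, hκ x0, fun n m i h y hy => ?_⟩
    have := hκ' (n, m, i) h y hy
    have := hx0 (n, m, i)
    simp only at *
    linarith
  -- a gap between the `β n`
  obtain ⟨κ', hκ', hgapβ⟩ : ∃ κ : ℝ, 0 < κ ∧ ∀ n m, n ≠ m → 2 * ρ + κ ≤ dist (β n) (β m) := by
    have h1 : ∀ x : Fin 3 × Fin 3, ∃ κ : ℝ, 0 < κ ∧ (x.1 ≠ x.2 →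
        2 * ρ + κ ≤ dist (β x.1) (β x.2)) := by
      rintro ⟨n, m⟩
      by_cases h : n = m
      · exact ⟨1, one_pos, fun h' => absurd h h'⟩
      · exact ⟨dist (β n) (β m) - 2 * ρ, by linarith [hββ n m h], fun _ => by simp⟩
    choose κ hκ hκ' using h1
    obtain ⟨x0, hx0⟩ := Finite.exists_min κ
    refine ⟨κ x0, hκ x0, fun n m h => ?_⟩
    have := hκ' (n, m) h
    have := hx0 (n, m)
    simp only at *
    linarith
  -- the small size of the joining continua at `W`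
  obtain ⟨ε₃, hε₃, h31, h32, h33⟩ : ∃ ε₃ : ℝ, 0 < ε₃ ∧ 2 * ε₃ < κ' ∧ 2 * ε₃ < κ ∧
      ε + ρ + ε₃ < σ' := by
    refine ⟨min (κ' / 4) (min (κ / 4) ((σ' - (ε + ρ)) / 2)), ?_, ?_, ?_, ?_⟩
    · refine lt_min (by linarith) (lt_min (by linarith) (by linarith))
    · have := min_le_left (κ' / 4) (min (κ / 4) ((σ' - (ε + ρ)) / 2)); linarith
    · have := (min_le_right (κ' / 4) (min (κ / 4) ((σ' - (ε + ρ)) / 2))).trans (min_le_left _ _)
      linarith
    · have := (min_le_right (κ' / 4) (min (κ / 4) ((σ' - (ε + ρ)) / 2))).trans (min_le_right _ _)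
      linarith
  obtain ⟨δ₃, hδ₃, hJ⟩ := ht1 ε₃ hε₃
  -- the perturbation size
  obtain ⟨η, hη, h41, h42, h43, h44⟩ : ∃ η : ℝ, 0 < η ∧ η < δ₃ ∧ η < ε₃ ∧ τ + η < δ ∧
      ε + η < σ := by
    refine ⟨min (min (δ₃ / 2) (ε₃ / 2)) (min ((δ - τ) / 2) ((σ - ε) / 2)), ?_, ?_, ?_, ?_, ?_⟩
    · refine lt_min (lt_min (by linarith) (by linarith)) (lt_min (by linarith) (by linarith))
    · have := (min_le_left (min (δ₃ / 2) (ε₃ / 2)) (min ((δ - τ) / 2) ((σ - ε) / 2))).trans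
        (min_le_left _ _)
      linarith
    · have := (min_le_left (min (δ₃ / 2) (ε₃ / 2)) (min ((δ - τ) / 2) ((σ - ε) / 2))).trans
        (min_le_right _ _)
      linarith
    · have := (min_le_right (min (δ₃ / 2) (ε₃ / 2)) (min ((δ - τ) / 2) ((σ - ε) / 2))).trans
        (min_le_left _ _)
      linarith
    · have := (min_le_right (min (δ₃ / 2) (ε₃ / 2)) (min ((δ - τ) / 2) ((σ - ε) / 2))).trans
        (min_le_right _ _)
      linarith
  obtain ⟨E', hE'c, hE'd, hE'dis⟩ := hpert η hη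
  -- the joining continua at `pt i`
  have hQ : ∀ n i, ∃ K : Set Z, IsCompact K ∧ IsConnected K ∧ pt i ∈ K ∧
      ((E' n i : Set Z) ∩ K).Nonempty ∧ diam K < ε := by
    intro n i
    obtain ⟨e, he, hed⟩ := hnear n i
    obtain ⟨e', he', hee'⟩ := exists_dist_lt_of_dist_lt (by rw [dist_comm]; exact hE'd n i) he
    have : dist (pt i) e' < δ := by
      have h1 := dist_triangle (pt i) e e'
      rw [dist_comm (pt i) e] at h1
      linarith
    obtain ⟨K, a, b, c, d, f⟩ := hδ _ _ this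
    exact ⟨K, a, b, c, ⟨e', he', d⟩, f⟩
  choose Qc hQ1 hQ2 hQ3 hQ4 hQ5 using hQ
  -- the joining continua at `W n`
  have hR : ∀ n i, ∃ K : Set Z, IsCompact K ∧ IsConnected K ∧ (W n ∩ K).Nonempty ∧
      ((E' n i : Set Z) ∩ K).Nonempty ∧ diam K < ε₃ := by
    intro n i
    obtain ⟨e, he, heW⟩ := hmeet n i
    obtain ⟨e', he', hee'⟩ := exists_dist_lt_of_dist_lt (by rw [dist_comm]; exact hE'd n i) he
    obtain ⟨K, a, b, c, d, f⟩ := hJ e e' (hee'.trans h41)
    exact ⟨K, a, b, ⟨e, heW, c⟩, ⟨e', he', d⟩, f⟩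
  choose R hR1 hR2 hR3 hR4 hR5 using hR
  -- the new vertices
  have hPball : ∀ i, ∀ y ∈ ⋃ n, Qc n i, dist y (pt i) ≤ ε := by
    intro i y hy
    obtain ⟨n, hn⟩ := mem_iUnion.1 hy
    exact (dist_le_diam_of_mem (hQ1 n i).isBounded hn (hQ3 n i)).trans (hQ5 n i).le
  have hWball : ∀ n, ∀ y ∈ W n ∪ ⋃ i, R n i, ∃ z, dist z (β n) ≤ ρ ∧ dist y z ≤ ε₃ := by
    intro n y hy
    rcases hy with h | h
    · exact ⟨y, hWβ n y h, by rw [dist_self]; exact hε₃.le⟩
    · obtain ⟨i, hi⟩ := mem_iUnion.1 h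
      obtain ⟨z, hzW, hzR⟩ := hR3 n i
      exact ⟨z, hWβ n z hzW, (dist_le_diam_of_mem (hR1 n i).isBounded hi hzR).trans (hR5 n i).le⟩
  have hWball' : ∀ n, ∀ y ∈ W n ∪ ⋃ i, R n i, dist y (β n) ≤ ρ + ε₃ := by
    intro n y hy
    obtain ⟨z, hz, hyz⟩ := hWball n y hy
    linarith [dist_triangle y z (β n)]
  have hEP' : ∀ n i j, i ≠ j → ∀ y ∈ (E' n i : Set Z), ε < dist y (pt j) := by
    intro n i j hij y hy
    obtain ⟨z, hz, hyz⟩ := exists_dist_lt_of_dist_lt (hE'd n i) hy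
    have h1 := hfar n i j hij z hz
    have h2 := dist_triangle (pt j) y z
    rw [dist_comm (pt j) y] at h2
    linarith
  refine hP (fun i => ⋃ n, Qc n i) (fun n => W n ∪ ⋃ i, R n i) (fun n i => (E' n i : Set Z))
    { P_compact := ?_, P_conn := ?_, W_compact := ?_, W_conn := ?_, E_compact := ?_, E_conn := ?_,
      PP := ?_, WW := ?_, PW := ?_, EE := ?_, EP := ?_, EW := ?_, EP' := ?_, EW' := ?_ }
  · intro i
    exact isCompact_iUnion (fun n => hQ1 n i)
  · intro i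
    refine ⟨⟨pt i, mem_iUnion.2 ⟨0, hQ3 0 i⟩⟩, ?_⟩
    exact isPreconnected_iUnion ⟨pt i, mem_iInter.2 (fun n => hQ3 n i)⟩
      (fun n => (hQ2 n i).isPreconnected)
  · intro n
    exact (hWc n).union (isCompact_iUnion (fun i => hR1 n i))
  · intro n
    have hne : (W n).Nonempty := (hWconn n).nonempty
    refine ⟨hne.mono subset_union_left, ?_⟩
    have : W n ∪ ⋃ i, R n i = ⋃ i, (W n ∪ R n i) := by
      rw [union_iUnion]
    rw [this]
    obtain ⟨w, hw⟩ := hne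
    refine isPreconnected_iUnion ⟨w, mem_iInter.2 (fun i => Or.inl hw)⟩ (fun i => ?_)
    exact IsPreconnected.union' (hR3 n i) (hWconn n).isPreconnected (hR2 n i).isPreconnected
  · intro n i
    exact (E' n i).isCompact
  · exact hE'c
  · intro i j hij
    rw [Set.disjoint_left]
    intro y hy1 hy2
    have h1 := hPball i y hy1
    have h2 := hPball j y hy2
    have h3 := hpp i j hij
    have h4 := dist_triangle (pt i) y (pt j)
    rw [dist_comm (pt i) y] at h4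
    linarith
  · intro n m hnm
    rw [Set.disjoint_left]
    intro y hy1 hy2
    have h1 := hWball' n y hy1
    have h2 := hWball' m y hy2
    have h3 := hgapβ n m hnm
    have h4 := dist_triangle (β n) y (β m)
    rw [dist_comm (β n) y] at h4
    linarith
  · intro i n
    rw [Set.disjoint_left]
    intro y hy1 hy2
    have h1 := hPball i y hy1
    have h2 := hWball' n y hy2
    have h3 := hpβ i n
    have h4 := dist_triangle (pt i) y (β n)
    rw [dist_comm (pt i) y] at h4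
    linarith
  · exact hE'dis
  · intro n i
    obtain ⟨y, hy1, hy2⟩ := hQ4 n i
    exact ⟨y, hy1, mem_iUnion.2 ⟨n, hy2⟩⟩
  · intro n i
    obtain ⟨y, hy1, hy2⟩ := hR4 n i
    exact ⟨y, hy1, Or.inr (mem_iUnion.2 ⟨i, hy2⟩)⟩
  · intro n i j hij
    rw [Set.disjoint_left]
    intro y hy1 hy2
    have h1 := hEP' n i j hij y hy1
    have h2 := hPball j y hy2
    linarith
  · intro n m i hnm
    rw [Set.disjoint_left]
    intro y hy1 hy2
    obtain ⟨z, hz, hyz⟩ := hWball m y hy2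
    obtain ⟨x, hx, hyx⟩ := exists_dist_lt_of_dist_lt (hE'd n i) hy1
    have h1 := hgap n m i hnm x hx
    have h2 := dist_triangle4 x y z (β m)
    rw [dist_comm x y] at h2
    linarith

end P198Q
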