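import Vale.Agent.P198.Q.Mod

/-!
# P198, block A4: the extremal leaf flow
-/

open Metric Set TopologicalSpace
open scoped Classical

namespace P198Q

namespace F4

theorem sc_pos (k : ℕ) : 0 < sc k := by unfold sc; positivity

theorem sc_add (k l : ℕ) : sc (k + l) = sc k * sc l := by unfold sc; rw [pow_add]

theorem sc_anti {k l : ℕ} (h : k ≤ l) : sc l ≤ sc k := by
  unfold sc; exact pow_le_pow_of_le_one (by norm_num) (by norm_num) h

theorem sc_zero : sc 0 = 1 := by simp [sc]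
theorem sc_one : sc 1 = 1 / 2 := by simp [sc]
theorem sc_two : sc 2 = 1 / 4 := by unfold sc; norm_num
theorem sc_four : sc 4 = 1 / 16 := by unfold sc; norm_num

section flows
variable {α β : Type*}

theorem mass_nonneg (μ : Flow α) (h : β → α → Prop) (v : β) : 0 ≤ μ.mass h v := by
  unfold Flow.mass
  exact Finset.sum_nonneg fun K hK => (μ.pos K (Finset.mem_filter.1 hK).1).le

theorem pr_nonneg (μ : Flow α) (p : α → Prop) : 0 ≤ μ.pr p := by
  unfold Flow.pr
  exact Finset.sum_nonneg fun K hK => (μ.pos K (Finset.mem_filter.1 hK).1).le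

theorem pr_le_one (μ : Flow α) (p : α → Prop) : μ.pr p ≤ 1 := by
  unfold Flow.pr
  rw [← μ.sum_one]
  exact Finset.sum_le_sum_of_subset_of_nonneg (Finset.filter_subset _ _)
    fun K hK _ => (μ.pos K hK).le

theorem pr_mono (μ : Flow α) (p q : α → Prop) (h : ∀ K ∈ μ.supp, p K → q K) :
    μ.pr p ≤ μ.pr q := by
  unfold Flow.pr
  refine Finset.sum_le_sum_of_subset_of_nonneg ?_ ?_
  · intro K hK
    rw [Finset.mem_filter] at hK ⊢
    exact ⟨hK.1, h K hK.1 hK.2⟩
  · intro K hK _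
    exact (μ.pos K (Finset.mem_filter.1 hK).1).le

theorem mass_eq_pr (μ : Flow α) (h : β → α → Prop) (v : β) : μ.mass h v = μ.pr (h v) := rfl

theorem mass_le_one (μ : Flow α) (h : β → α → Prop) (v : β) : μ.mass h v ≤ 1 :=
  pr_le_one μ (h v)

/-- union bound -/
theorem pr_le_sum (μ : Flow α) (p : α → Prop) (A : Finset β) (h : β → α → Prop)
    (hA : ∀ K ∈ μ.supp, p K → ∃ v ∈ A, h v K) : μ.pr p ≤ ∑ v ∈ A, μ.mass h v := by
  unfold Flow.pr Flow.mass
  simp only [Finset.sum_filter]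
  rw [Finset.sum_comm]
  refine Finset.sum_le_sum fun K hK => ?_
  have hw : 0 ≤ μ.w K := (μ.pos K hK).le
  have hterm : ∀ v ∈ A, 0 ≤ (if h v K then μ.w K else 0) := by
    intro v _; split_ifs <;> simp [hw]
  split_ifs with hp
  · obtain ⟨v, hv, hvK⟩ := hA K hK hp
    calc μ.w K = (if h v K then μ.w K else 0) := by simp [hvK]
      _ ≤ ∑ v ∈ A, (if h v K then μ.w K else 0) := Finset.single_le_sum hterm hv
  · exact Finset.sum_nonneg hterm

/-- conditioning a flow on an event of positive probability -/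
noncomputable def cond (μ : Flow α) (p : α → Prop) (hp : 0 < μ.pr p) : Flow α where
  supp := μ.supp.filter p
  w := fun K => μ.w K / μ.pr p
  pos := fun K hK => div_pos (μ.pos K (Finset.mem_filter.1 hK).1) hp
  sum_one := by
    rw [← Finset.sum_div]
    exact div_self hp.ne'

theorem cond_mass_le (μ : Flow α) (p : α → Prop) (hp : 0 < μ.pr p) (h : β → α → Prop) (v : β) :
    (cond μ p hp).mass h v ≤ μ.mass h v / μ.pr p := by
  unfold Flow.mass cond
  simp only
  rw [← Finset.sum_div]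
  refine div_le_div_of_nonneg_right ?_ hp.le
  refine Finset.sum_le_sum_of_subset_of_nonneg ?_ ?_
  · intro K hK
    rw [Finset.mem_filter, Finset.mem_filter] at hK
    rw [Finset.mem_filter]
    exact ⟨hK.1.1, hK.2⟩
  · intro K hK _
    exact (μ.pos K (Finset.mem_filter.1 hK).1).le

/-- the leaves of a flow satisfying `p` have a big share of the energy. -/
theorem pr_sq_le (μ : Flow α) (p : α → Prop) (V : Finset β) (h : β → α → Prop) (F : Set α)
    (hF : ∀ K ∈ F, ∃ v ∈ V, h v K) (hsub : ∀ K ∈ μ.supp, p K → K ∈ F) :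
    μ.pr p ^ 2 ≤ md V h F * ∑ w ∈ V, μ.mass h w ^ 2 := by
  rcases (pr_nonneg μ p).eq_or_lt with h0 | h0
  · rw [← h0]
    have h1 := md_nonneg V h F
    have h2 : 0 ≤ ∑ w ∈ V, μ.mass h w ^ 2 := Finset.sum_nonneg fun w _ => sq_nonneg _
    simpa using mul_nonneg h1 h2
  · have h1 := one_le_energy_mul_md V h F hF (cond μ p h0) (by
      intro K hK
      have hK' : K ∈ μ.supp.filter p := hK
      rw [Finset.mem_filter] at hK'
      exact hsub K hK'.1 hK'.2)
    have h2 : energy V ((cond μ p h0).mass h) ≤ (∑ w ∈ V, μ.mass h w ^ 2) / μ.pr p ^ 2 := by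
      unfold energy
      rw [Finset.sum_div]
      refine Finset.sum_le_sum fun w _ => ?_
      rw [← div_pow]
      exact pow_le_pow_left₀ (mass_nonneg _ _ _) (cond_mass_le μ p h0 h w) 2
    have h3 := md_nonneg V h F
    have h4 : 1 ≤ (∑ w ∈ V, μ.mass h w ^ 2) / μ.pr p ^ 2 * md V h F :=
      h1.trans (mul_le_mul_of_nonneg_right h2 h3)
    have h5 : 0 < μ.pr p ^ 2 := by positivity
    rw [div_mul_eq_mul_div, le_div_iff₀ h5, one_mul] at h4
    rw [mul_comm]; exact h4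

/-- the modulus of the empty family is `0`. -/
theorem md_empty (V : Finset β) (h : β → α → Prop) : md V h (∅ : Set α) = 0 := by
  refine le_antisymm ?_ (md_nonneg V h ∅)
  refine (md_le V h ∅ (fun _ => 0) ⟨fun _ => le_refl _, by simp⟩).trans ?_
  simp [energy]

end flows

section cells
variable {Z : Type*} [MetricSpace Z]

/-- leaves through a cell -/
def Fam (B : Set (NonemptyCompacts Z)) (t : ℝ) (i : ℕ) (v : Z) : Set (NonemptyCompacts Z) :=
  {K | K ∈ big B t ∧ hit i v K}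

/-- cells of level `k` near `v` (level `i`) -/
noncomputable def loc (N : ℕ → Finset Z) (k i : ℕ) (v : Z) : Finset Z :=
  (N k).filter (fun w => dist w v ≤ 2 * sc i)

/-- local modulus at the cell `v` of level `i` in resolution `k`. -/
noncomputable def gam (N : ℕ → Finset Z) (B : Set (NonemptyCompacts Z)) (t : ℝ) (k i : ℕ)
    (v : Z) : ℝ := md (loc N k i v) (hit k) (Fam B t i v)

variable {N : ℕ → Finset Z}

theorem exists_hit (hN : IsNet N) (k : ℕ) (K : NonemptyCompacts Z) (y : Z) (hy : y ∈ (K : Set Z)) :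
    ∃ w ∈ N k, dist y w ≤ sc k ∧ hit k w K := by
  obtain ⟨w, hw, hd⟩ := hN.cov k y
  exact ⟨w, hw, hd, y, mem_closedBall.2 hd, hy⟩

theorem exists_hit_loc (hN : IsNet N) (B : Set (NonemptyCompacts Z)) (t : ℝ) {i k : ℕ} (hik : i ≤ k)
    (v : Z) : ∀ K ∈ Fam B t i v, ∃ w ∈ loc N k i v, hit k w K := by
  rintro K ⟨-, y, hy, hyK⟩
  obtain ⟨w, hw, hd, hh⟩ := exists_hit hN k K y hyK
  refine ⟨w, ?_, hh⟩
  rw [loc, Finset.mem_filter]
  refine ⟨hw, ?_⟩
  have h1 := sc_anti hik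
  have h2 : dist y v ≤ sc i := mem_closedBall.1 hy
  calc dist w v ≤ dist w y + dist y v := dist_triangle _ _ _
    _ ≤ sc k + sc i := by rw [dist_comm w y]; linarith
    _ ≤ 2 * sc i := by linarith

theorem exists_hit_big (hN : IsNet N) (B : Set (NonemptyCompacts Z)) (t : ℝ) (k : ℕ) :
    ∀ K ∈ big B t, ∃ w ∈ N k, hit k w K := by
  rintro K -
  obtain ⟨y, hy⟩ := K.nonempty
  obtain ⟨w, hw, -, hh⟩ := exists_hit hN k K y hy
  exact ⟨w, hw, hh⟩

theorem card_near {D : ℝ → ℝ} {Q : ℕ} (hD : Doubling Z D Q) (hN : IsNet N) (R : ℝ) (hR : 0 < R)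
    (i l : ℕ) (x : Z) (S : Finset Z) (hS : S ⊆ N (i + l)) (h : ∀ a ∈ S, dist a x ≤ R * sc i) :
    (S.card : ℝ) ≤ D R * 2 ^ (Q * l) :=
  hD R i l x S hR h fun a ha b hb hab => hN.sep (i + l) a (hS ha) b (hS hb) hab

theorem card_loc {D : ℝ → ℝ} {Q : ℕ} (hD : Doubling Z D Q) (hN : IsNet N) (i l : ℕ) (x : Z) :
    ((loc N (i + l) i x).card : ℝ) ≤ D 2 * 2 ^ (Q * l) :=
  card_near hD hN 2 (by norm_num) i l x _ (Finset.filter_subset _ _)
    fun a ha => (Finset.mem_filter.1 ha).2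

theorem overlap {D : ℝ → ℝ} {Q : ℕ} (hD : Doubling Z D Q) (hN : IsNet N) (i : ℕ) (w : Z) :
    (((N i).filter (fun v => dist w v ≤ 2 * sc i)).card : ℝ) ≤ D 2 := by
  have := card_near hD hN 2 (by norm_num) i 0 w ((N i).filter (fun v => dist w v ≤ 2 * sc i))
    (Finset.filter_subset _ _) (fun a ha => by
      rw [dist_comm]; exact (Finset.mem_filter.1 ha).2)
  simpa using this

theorem gam_nonneg (B : Set (NonemptyCompacts Z)) (t : ℝ) (k i : ℕ) (v : Z) :
    0 ≤ gam N B t k i v := md_nonneg _ _ _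

theorem gam_le {D : ℝ → ℝ} {Q : ℕ} (hD : Doubling Z D Q) (hN : IsNet N)
    (B : Set (NonemptyCompacts Z)) (t : ℝ) (i l : ℕ) (v : Z) :
    gam N B t (i + l) i v ≤ D 2 * 2 ^ (Q * l) :=
  (md_le_card _ _ _ (exists_hit_loc hN B t (Nat.le_add_right i l) v)).trans (card_loc hD hN i l v)

/-- the supremum of the local moduli -/
noncomputable def Gs (N : ℕ → Finset Z) (B : Set (NonemptyCompacts Z)) (t : ℝ) (j l : ℕ) : ℝ :=
  sSup {x | ∃ i v, j ≤ i ∧ v ∈ N i ∧ x = gam N B t (i + l) i v}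

theorem Gs_bdd {D : ℝ → ℝ} {Q : ℕ} (hD : Doubling Z D Q) (hN : IsNet N)
    (B : Set (NonemptyCompacts Z)) (t : ℝ) (j l : ℕ) :
    BddAbove {x | ∃ i v, j ≤ i ∧ v ∈ N i ∧ x = gam N B t (i + l) i v} := by
  refine ⟨D 2 * 2 ^ (Q * l), ?_⟩
  rintro x ⟨i, v, -, -, rfl⟩
  exact gam_le hD hN B t i l v

theorem gam_le_Gs {D : ℝ → ℝ} {Q : ℕ} (hD : Doubling Z D Q) (hN : IsNet N)
    (B : Set (NonemptyCompacts Z)) (t : ℝ) {j i k : ℕ} (hji : j ≤ i) (hik : i ≤ k) {v : Z}
    (hv : v ∈ N i) : gam N B t k i v ≤ Gs N B t j (k - i) := by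
  obtain ⟨l, rfl⟩ := Nat.exists_eq_add_of_le hik
  rw [Nat.add_sub_cancel_left]
  exact le_csSup (Gs_bdd hD hN B t j l) ⟨i, v, hji, hv, rfl⟩

theorem Gs_anti {D : ℝ → ℝ} {Q : ℕ} (hD : Doubling Z D Q) (hN : IsNet N) [Nonempty Z]
    (B : Set (NonemptyCompacts Z)) (t : ℝ) {j j' : ℕ} (hj : j ≤ j') (l : ℕ) :
    Gs N B t j' l ≤ Gs N B t j l := by
  refine csSup_le_csSup (Gs_bdd hD hN B t j l) ?_ ?_
  · obtain ⟨v, hv, -⟩ := hN.cov j' (Classical.arbitrary Z)
    exact ⟨_, j', v, le_refl _, hv, rfl⟩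
  · rintro x ⟨i, v, h1, h2, h3⟩
    exact ⟨i, v, hj.trans h1, h2, h3⟩

theorem Gs_nonneg (B : Set (NonemptyCompacts Z)) (t : ℝ) (j l : ℕ) : 0 ≤ Gs N B t j l := by
  refine Real.sSup_nonneg ?_
  rintro x ⟨i, v, -, -, rfl⟩
  exact gam_nonneg B t _ _ v

theorem exists_gam_ge (hN : IsNet N) [Nonempty Z]
    (B : Set (NonemptyCompacts Z)) (t : ℝ) (j l : ℕ) (hpos : 0 < Gs N B t j l) :
    ∃ i v, j ≤ i ∧ v ∈ N i ∧ Gs N B t j l / 2 ≤ gam N B t (i + l) i v := by
  obtain ⟨v, hv, -⟩ := hN.cov j (Classical.arbitrary Z)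
  obtain ⟨x, ⟨i, v, h1, h2, rfl⟩, h3⟩ := exists_lt_of_lt_csSup
    (s := {x | ∃ i v, j ≤ i ∧ v ∈ N i ∧ x = gam N B t (i + l) i v})
    ⟨_, j, v, le_refl _, hv, rfl⟩ (show Gs N B t j l / 2 < Gs N B t j l by linarith)
  exact ⟨i, v, h1, h2, h3.le⟩

/-- M4 for leaves -/
theorem comp_le {D : ℝ → ℝ} {Q : ℕ} (hD : Doubling Z D Q) (hN : IsNet N)
    (B : Set (NonemptyCompacts Z)) (t : ℝ) {j i : ℕ} (hji : j ≤ i) (l : ℕ) :
    md (N (i + l)) (hit (i + l)) (big B t) ≤
      (⌈D 2⌉₊ : ℕ) * Gs N B t j l * md (N i) (hit i) (big B t) := by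
  -- optimal local weights
  have hex : ∀ v : Z, ∃ ρ : Z → ℝ, Adm (loc N (i + l) i v) (hit (i + l)) (Fam B t i v) ρ ∧
      energy (loc N (i + l) i v) ρ = gam N B t (i + l) i v := fun v =>
    exists_adm _ _ _ (exists_hit_loc hN B t (Nat.le_add_right i l) v)
  choose ρ hρ hρe using hex
  refine md_comp (N i) (hit i) (N (i + l)) (hit (i + l)) (big B t) (exists_hit_big hN B t i)
    (fun v w => if dist w v ≤ 2 * sc i then ρ v w else 0) (Gs N B t j l) ⌈D 2⌉₊ ?_ ?_ ?_ ?_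
  · intro v w
    split_ifs
    · exact (hρ v).1 w
    · exact le_refl _
  · intro v _ K hK hvK
    have h1 := (hρ v).2 K ⟨hK, hvK⟩
    refine h1.trans (le_of_eq ?_)
    unfold len loc
    rw [Finset.sum_filter, Finset.sum_filter, Finset.sum_filter]
    refine Finset.sum_congr rfl fun w _ => ?_
    by_cases h2 : dist w v ≤ 2 * sc i
    · simp only [h2, if_true]
    · simp only [h2, if_false, ite_self]
  · intro v hv
    have h1 : ∑ w ∈ N (i + l), (if dist w v ≤ 2 * sc i then ρ v w else 0) ^ 2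
        = energy (loc N (i + l) i v) (ρ v) := by
      unfold energy loc
      rw [Finset.sum_filter]
      refine Finset.sum_congr rfl fun w _ => ?_
      split_ifs <;> simp
    rw [h1, hρe v]
    have := gam_le_Gs hD hN B t hji (Nat.le_add_right i l) hv
    rwa [Nat.add_sub_cancel_left] at this
  · intro w _
    have h1 : ((N i).filter (fun v => (if dist w v ≤ 2 * sc i then ρ v w else 0) ≠ 0)) ⊆
        (N i).filter (fun v => dist w v ≤ 2 * sc i) := by
      intro v hv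
      rw [Finset.mem_filter] at hv ⊢
      refine ⟨hv.1, ?_⟩
      by_contra h2
      exact hv.2 (by simp [h2])
    have h2 := overlap hD hN i w
    have h3 : (((N i).filter (fun v => dist w v ≤ 2 * sc i)).card : ℝ) ≤ (⌈D 2⌉₊ : ℕ) :=
      h2.trans (Nat.le_ceil _)
    exact (Finset.card_le_card h1).trans (by exact_mod_cast h3)

/-- lower bound for the local moduli -/
theorem one_le_mul_Gs {D : ℝ → ℝ} {Q : ℕ} (hD : Doubling Z D Q) (hN : IsNet N)
    (B : Set (NonemptyCompacts Z)) (t c : ℝ) (hc : 0 < c)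
    (hm : ∀ k, c ≤ md (N k) (hit k) (big B t)) (j l : ℕ) :
    1 ≤ (⌈D 2⌉₊ : ℕ) * Gs N B t j l := by
  by_contra hlt
  push Not at hlt
  set q : ℝ := (⌈D 2⌉₊ : ℕ) * Gs N B t j l with hq
  have hq0 : 0 ≤ q := mul_nonneg (Nat.cast_nonneg _) (Gs_nonneg B t j l)
  have hit : ∀ n : ℕ, md (N (j + n * l)) (hit (j + n * l)) (big B t) ≤
      q ^ n * md (N j) (hit j) (big B t) := by
    intro n
    induction n with
    | zero => simp
    | succ n ih =>
      have h1 := comp_le hD hN B t (j := j) (i := j + n * l) (Nat.le_add_right _ _) l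
      have h2 : j + (n + 1) * l = j + n * l + l := by ring
      rw [h2]
      refine h1.trans ?_
      rw [← hq, pow_succ', mul_assoc q]
      exact mul_le_mul_of_nonneg_left ih hq0
  have hlim : Filter.Tendsto (fun n : ℕ => q ^ n * md (N j) (P198Q.hit j) (big B t)) Filter.atTop
      (nhds (0 * md (N j) (P198Q.hit j) (big B t))) :=
    (tendsto_pow_atTop_nhds_zero_of_lt_one hq0 hlt).mul_const _
  rw [zero_mul] at hlim
  have := ge_of_tendsto' hlim (fun n => (hm _).trans (hit n))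
  linarith

end cells

/-- arbitrarily late records -/
theorem exists_record (a : ℕ → ℝ) (hub : ∀ M, ∃ l, M < a l) (L₀ : ℕ) :
    ∃ L, L₀ ≤ L ∧ ∀ L' ≤ L, a L' ≤ a L := by
  -- the max over `≤ L₀`
  obtain ⟨M, hM⟩ : ∃ M, ∀ l ≤ L₀, a l ≤ M := by
    refine ⟨∑ l ∈ Finset.range (L₀ + 1), |a l|, fun l hl => ?_⟩
    exact (le_abs_self _).trans
      (Finset.single_le_sum (f := fun l => |a l|) (fun i _ => abs_nonneg _)
        (Finset.mem_range.2 (Nat.lt_succ_of_le hl)))
  have hex := hub M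
  refine ⟨Nat.find hex, ?_, ?_⟩
  · by_contra hlt
    push Not at hlt
    have := Nat.find_spec hex
    exact absurd (hM _ hlt.le) (not_le.2 this)
  · intro L' hL'
    rcases hL'.eq_or_lt with h | h
    · rw [h]
    · have h1 := Nat.find_min hex h
      push Not at h1
      exact h1.trans (Nat.find_spec hex).le

theorem exists_good_pair (G : ℕ → ℕ → ℝ) (anti : ∀ j j', j ≤ j' → ∀ l, G j' l ≤ G j l)
    (c₁ : ℝ) (hc₁ : 0 < c₁) (hlow : ∀ j l, c₁ ≤ G j l) :
    ∃ C₀ : ℝ, 0 < C₀ ∧ ∀ j L₀ : ℕ, ∃ j' L, j ≤ j' ∧ L₀ ≤ L ∧ ∀ L' ≤ L, G j' L' ≤ C₀ * G j' L := by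
  by_cases h : ∀ j M, ∃ l, M < G j l
  · refine ⟨1, one_pos, fun j L₀ => ?_⟩
    obtain ⟨L, h1, h2⟩ := exists_record (G j) (h j) L₀
    exact ⟨j, L, le_refl _, h1, fun L' hL' => by rw [one_mul]; exact h2 L' hL'⟩
  · push Not at h
    obtain ⟨j₁, M, hM⟩ := h
    have hM0 : 0 < M := hc₁.trans_le ((hlow j₁ 0).trans (hM 0))
    refine ⟨M / c₁, by positivity, fun j L₀ => ⟨max j j₁, L₀, le_max_left _ _, le_refl _, ?_⟩⟩
    intro L' _
    calc G (max j j₁) L' ≤ G j₁ L' := anti _ _ (le_max_right _ _) _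
      _ ≤ M := hM L'
      _ = M / c₁ * c₁ := by field_simp
      _ ≤ M / c₁ * G (max j j₁) L₀ := by
        refine mul_le_mul_of_nonneg_left (hlow _ _) (by positivity)

section main
variable {Z : Type*} [MetricSpace Z] {N : ℕ → Finset Z}

/-- a connected set meeting a small ball and leaving a big one meets every sphere in between -/
theorem exists_sphere (K : Set Z) (hK : IsConnected K) (y : Z) (r R ρ : ℝ)
    (h1 : ∃ x ∈ K, dist x y ≤ r) (h2 : ∃ x ∈ K, R ≤ dist x y) (hr : r ≤ ρ) (hR : ρ ≤ R) :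
    ∃ z ∈ K, dist z y = ρ := by
  obtain ⟨x1, hx1, hd1⟩ := h1
  obtain ⟨x2, hx2, hd2⟩ := h2
  have hcont : ContinuousOn (fun z => dist z y) K := by fun_prop
  have := hK.isPreconnected.intermediate_value hx1 hx2 hcont
  obtain ⟨z, hz, hzr⟩ := this ⟨hd1.trans hr, hR.trans hd2⟩
  exact ⟨z, hz, hzr⟩

/-- energy concentrates near a cell of large mass -/
theorem mass_sq_le {D : ℝ → ℝ} {Q : ℕ} (hD : Doubling Z D Q) (hN : IsNet N)
    (B : Set (NonemptyCompacts Z)) (t : ℝ) {j i k : ℕ} (hji : j ≤ i) (hik : i ≤ k)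
    (ν : Flow (NonemptyCompacts Z)) (hν : ∀ K ∈ ν.supp, K ∈ big B t) {v : Z} (hv : v ∈ N i) :
    ν.mass (hit i) v ^ 2 ≤
      Gs N B t j (k - i) * ∑ w ∈ loc N k i v, ν.mass (hit k) w ^ 2 := by
  have h1 := pr_sq_le ν (hit i v) (loc N k i v) (hit k) (Fam B t i v)
    (exists_hit_loc hN B t hik v) (fun K hK hp => ⟨hν K hK, hp⟩)
  refine (show ν.mass (hit i) v ^ 2 ≤ _ from h1).trans ?_
  exact mul_le_mul_of_nonneg_right (gam_le_Gs hD hN B t hji hik hv)
    (Finset.sum_nonneg fun w _ => sq_nonneg _)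

/-- bounded overlap: summing the energies near the cells `v ∈ A` -/
theorem sum_loc_le {D : ℝ → ℝ} {Q : ℕ} (hD : Doubling Z D Q) (hN : IsNet N) (i k : ℕ)
    (A : Finset Z) (hA : A ⊆ N i) (W : Finset Z) (hW : ∀ v ∈ A, loc N k i v ⊆ W)
    (f : Z → ℝ) (hf : ∀ w, 0 ≤ f w) :
    ∑ v ∈ A, ∑ w ∈ loc N k i v, f w ≤ D 2 * ∑ w ∈ W, f w := by
  have h1 : ∀ v ∈ A, ∑ w ∈ loc N k i v, f w ≤
      ∑ w ∈ W, if dist w v ≤ 2 * sc i then f w else 0 := by
    intro v hv
    rw [← Finset.sum_filter]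
    refine Finset.sum_le_sum_of_subset_of_nonneg ?_ (fun w _ _ => hf w)
    intro w hw
    rw [Finset.mem_filter]
    exact ⟨hW v hv hw, (Finset.mem_filter.1 hw).2⟩
  refine (Finset.sum_le_sum h1).trans ?_
  rw [Finset.sum_comm, Finset.mul_sum]
  refine Finset.sum_le_sum fun w _ => ?_
  rw [← Finset.sum_filter, Finset.sum_const, nsmul_eq_mul]
  refine mul_le_mul_of_nonneg_right ?_ (hf w)
  refine le_trans ?_ (overlap hD hN i w)
  exact_mod_cast Finset.card_le_card (Finset.filter_subset_filter _ hA)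

end main

end F4

open F4 in
theorem exists_extremal {G Z : Type*} [Group G] [MetricSpace Z] [MulAction G Z] [CompactSpace Z]
    (N : ℕ → Finset Z) (hN : IsNet N) (D : ℝ → ℝ) (Q : ℕ) (hD : Doubling Z D Q)
    (B : Set (NonemptyCompacts Z)) (t c : ℝ) (hB : LeafFamily G N B t c) :
    ∃ C : ℝ, 0 < C ∧ ∀ j L₀ : ℕ, ∃ i₀, j ≤ i₀ ∧ ∃ x₀ : Z, ∃ L, L₀ ≤ L ∧ ∃ ν : Flow (NonemptyCompacts Z),
      (∀ K ∈ ν.supp, K ∈ big B t ∧ hit i₀ x₀ K) ∧
      (∀ l ≤ L, ∑ v ∈ N (i₀ + l) with dist v x₀ ≤ 3 / 2 * sc i₀, ν.mass (hit (i₀ + l)) v ^ 2 ≤ C) ∧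
      (∀ y : Z, dist y x₀ ≤ 3 / 2 * sc i₀ → ∀ l : ℕ, 1 ≤ l → l ≤ L →
        ν.pr (fun K => hitB (sc (i₀ + l)) y K) ^ 2 ≤ C / l) := by
  -- the space is nonempty
  have hne : (big B t).Nonempty := by
    rw [nonempty_iff_ne_empty]
    intro h
    have h1 := hB.md_ge 0
    rw [h, md_empty] at h1
    exact absurd h1 (not_le.2 hB.cpos)
  have : Nonempty Z := by
    obtain ⟨K, -⟩ := hne
    obtain ⟨y, -⟩ := K.nonempty
    exact ⟨y⟩
  set D₁ : ℕ := ⌈D 2⌉₊ with hD₁
  have hone := one_le_mul_Gs hD hN B t c hB.cpos hB.md_ge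
  have hD₁0 : (0 : ℝ) < D₁ := by
    rcases (Nat.cast_nonneg D₁ : (0 : ℝ) ≤ D₁).eq_or_lt with h | h
    · have := hone 0 0
      rw [← hD₁, ← h, zero_mul] at this
      linarith
    · exact h
  have hlow : ∀ j l, 1 / (D₁ : ℝ) ≤ Gs N B t j l := by
    intro j l
    rw [div_le_iff₀' hD₁0]
    exact hone j l
  obtain ⟨C₀, hC₀, hgood⟩ := exists_good_pair (Gs N B t)
    (fun j j' h l => Gs_anti hD hN B t h l) (1 / D₁) (by positivity) hlow
  -- big levels
  obtain ⟨jt, hjt⟩ : ∃ jt : ℕ, sc jt < t / 8 := by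
    obtain ⟨n, hn⟩ := exists_pow_lt_of_lt_one (show 0 < t / 8 by linarith [hB.tpos])
      (show (1 / 2 : ℝ) < 1 by norm_num)
    exact ⟨n, hn⟩
  set A₁ : ℝ := max (D 1) 0 * 2 ^ (Q * 4) with hA₁
  set C : ℝ := 8 + 2 * D₁ * C₀ + D₁ * 2 ^ Q + 4 * A₁ * C₀ * D₁ with hC
  have hA₁0 : 0 ≤ A₁ := by positivity
  have hp1 : 0 < 2 * D₁ * C₀ := by positivity
  have hp2 : (0 : ℝ) < D₁ * 2 ^ Q := by positivity
  have hp3 : 0 ≤ 4 * A₁ * C₀ * D₁ := by positivity
  have hD2 : D 2 ≤ D₁ := Nat.le_ceil _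
  refine ⟨C, by positivity, fun j L₀ => ?_⟩
  obtain ⟨j', L, hj', hL₀, hL⟩ := hgood (max j jt) L₀
  have hGL : 0 < Gs N B t j' L := (by positivity : (0 : ℝ) < 1 / D₁).trans_le (hlow j' L)
  obtain ⟨i₀, x₀, hi₀, hx₀, hgam⟩ := exists_gam_ge hN B t j' L hGL
  have hFne : (Fam B t i₀ x₀).Nonempty := by
    rw [nonempty_iff_ne_empty]
    intro h
    rw [gam, h, md_empty] at hgam
    linarith
  obtain ⟨ν, hνF, hνE⟩ := exists_flow (loc N (i₀ + L) i₀ x₀) (hit (i₀ + L)) (Fam B t i₀ x₀) hFne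
    (exists_hit_loc hN B t (Nat.le_add_right i₀ L) x₀)
  have hνB : ∀ K ∈ ν.supp, K ∈ big B t := fun K hK => (hνF K hK).1
  set E : ℝ := ∑ w ∈ loc N (i₀ + L) i₀ x₀, ν.mass (hit (i₀ + L)) w ^ 2 with hE
  have hE0 : 0 ≤ E := Finset.sum_nonneg fun w _ => sq_nonneg _
  have hEG : Gs N B t j' L * E ≤ 2 := by
    have h1 : E * gam N B t (i₀ + L) i₀ x₀ = 1 := hνE
    nlinarith [mul_le_mul_of_nonneg_left hgam hE0]
  -- scales
  have hsc0 := sc_pos i₀
  have hsci : sc i₀ < t / 8 :=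
    (sc_anti (((le_max_right j jt).trans hj').trans hi₀)).trans_lt hjt
  refine ⟨i₀, ((le_max_left j jt).trans hj').trans hi₀, x₀, L, hL₀, ν, hνF, ?_, ?_⟩
  · intro l hl
    by_cases h2 : 2 ≤ l
    · have hsub : ∀ v ∈ (N (i₀ + l)).filter (fun v => dist v x₀ ≤ 3 / 2 * sc i₀),
          loc N (i₀ + L) (i₀ + l) v ⊆ loc N (i₀ + L) i₀ x₀ := by
        intro v hv w hw
        rw [Finset.mem_filter] at hv
        rw [loc, Finset.mem_filter] at hw ⊢
        refine ⟨hw.1, ?_⟩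
        have h3 : sc (i₀ + l) ≤ sc i₀ * (1 / 4) := by
          have := sc_anti (show i₀ + 2 ≤ i₀ + l by omega)
          rwa [sc_add i₀ 2, sc_two] at this
        calc dist w x₀ ≤ dist w v + dist v x₀ := dist_triangle _ _ _
          _ ≤ 2 * sc (i₀ + l) + 3 / 2 * sc i₀ := add_le_add hw.2 hv.2
          _ ≤ 2 * sc i₀ := by linarith
      have h3 := sum_loc_le hD hN (i₀ + l) (i₀ + L)
        ((N (i₀ + l)).filter (fun v => dist v x₀ ≤ 3 / 2 * sc i₀)) (Finset.filter_subset _ _)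
        (loc N (i₀ + L) i₀ x₀) hsub (fun w => ν.mass (hit (i₀ + L)) w ^ 2) (fun w => sq_nonneg _)
      have h4 : ∑ v ∈ N (i₀ + l) with dist v x₀ ≤ 3 / 2 * sc i₀, ν.mass (hit (i₀ + l)) v ^ 2 ≤
          Gs N B t j' (L - l) * ∑ v ∈ N (i₀ + l) with dist v x₀ ≤ 3 / 2 * sc i₀,
            ∑ w ∈ loc N (i₀ + L) (i₀ + l) v, ν.mass (hit (i₀ + L)) w ^ 2 := by
        rw [Finset.mul_sum]
        refine Finset.sum_le_sum fun v hv => ?_
        have := mass_sq_le hD hN B t (j := j') (i := i₀ + l) (k := i₀ + L)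
          (hi₀.trans (Nat.le_add_right _ _)) (by omega) ν hνB (Finset.mem_filter.1 hv).1
        rwa [Nat.add_sub_add_left] at this
      have h5 : Gs N B t j' (L - l) ≤ C₀ * Gs N B t j' L := hL (L - l) (Nat.sub_le _ _)
      have h6 : ∑ v ∈ N (i₀ + l) with dist v x₀ ≤ 3 / 2 * sc i₀,
            ∑ w ∈ loc N (i₀ + L) (i₀ + l) v, ν.mass (hit (i₀ + L)) w ^ 2 ≤ D₁ * E :=
        h3.trans (mul_le_mul_of_nonneg_right hD2 hE0)
      have h7 : Gs N B t j' (L - l) * ∑ v ∈ N (i₀ + l) with dist v x₀ ≤ 3 / 2 * sc i₀,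
            ∑ w ∈ loc N (i₀ + L) (i₀ + l) v, ν.mass (hit (i₀ + L)) w ^ 2 ≤
            (C₀ * Gs N B t j' L) * (D₁ * E) :=
        mul_le_mul h5 h6 (Finset.sum_nonneg fun v _ => Finset.sum_nonneg fun w _ => sq_nonneg _)
          (by positivity)
      have h8 : (C₀ * Gs N B t j' L) * (D₁ * E) = (D₁ * C₀) * (Gs N B t j' L * E) := by ring
      have h9 : (D₁ * C₀) * (Gs N B t j' L * E) ≤ (D₁ * C₀) * 2 :=
        mul_le_mul_of_nonneg_left hEG (by positivity)
      linarith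
    · -- `l ≤ 1`
      have h3 : ∑ v ∈ N (i₀ + l) with dist v x₀ ≤ 3 / 2 * sc i₀, ν.mass (hit (i₀ + l)) v ^ 2 ≤
          ((loc N (i₀ + l) i₀ x₀).card : ℝ) := by
        have h4 : ((N (i₀ + l)).filter (fun v => dist v x₀ ≤ 3 / 2 * sc i₀)) ⊆
            loc N (i₀ + l) i₀ x₀ := by
          intro v hv
          rw [loc, Finset.mem_filter]
          rw [Finset.mem_filter] at hv
          exact ⟨hv.1, hv.2.trans (by linarith)⟩
        calc ∑ v ∈ N (i₀ + l) with dist v x₀ ≤ 3 / 2 * sc i₀, ν.mass (hit (i₀ + l)) v ^ 2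
            ≤ ∑ v ∈ N (i₀ + l) with dist v x₀ ≤ 3 / 2 * sc i₀, (1 : ℝ) := by
              refine Finset.sum_le_sum fun v _ => ?_
              exact pow_le_one₀ (mass_nonneg _ _ _) (mass_le_one _ _ _)
          _ = (((N (i₀ + l)).filter (fun v => dist v x₀ ≤ 3 / 2 * sc i₀)).card : ℝ) := by simp
          _ ≤ ((loc N (i₀ + l) i₀ x₀).card : ℝ) := by exact_mod_cast Finset.card_le_card h4
      have h4 := card_loc hD hN i₀ l x₀
      have h5 : D 2 * 2 ^ (Q * l) ≤ D₁ * 2 ^ Q := by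
        have h6 : (2 : ℝ) ^ (Q * l) ≤ 2 ^ Q :=
          pow_le_pow_right₀ (by norm_num) (by nlinarith)
        exact mul_le_mul hD2 h6 (by positivity) (by positivity)
      linarith
  · intro y hy l hl1 hlL
    set p : ℝ := ν.pr (fun K => hitB (sc (i₀ + l)) y K) with hp
    have hp0 : 0 ≤ p := pr_nonneg _ _
    have hp1' : p ≤ 1 := pr_le_one _ _
    have hl0 : (0 : ℝ) < l := by exact_mod_cast (by omega : 0 < l)
    rw [le_div_iff₀ hl0]
    by_cases h8 : l < 8
    · have h9 : (l : ℝ) ≤ 8 := by exact_mod_cast h8.le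
      have h10 : p ^ 2 ≤ 1 := pow_le_one₀ hp0 hp1'
      nlinarith
    · push Not at h8
      -- the annuli
      set Ann : ℕ → Finset Z := fun l' => (loc N (i₀ + L) i₀ x₀).filter
        (fun w => sc (i₀ + l') / 2 < dist w y ∧ dist w y < sc (i₀ + l')) with hAnn
      have hstep : ∀ l' ∈ Finset.Icc 1 (l - 4), p ^ 2 ≤ A₁ * ((C₀ * Gs N B t j' L) *
          (D₁ * ∑ w ∈ Ann l', ν.mass (hit (i₀ + L)) w ^ 2)) := by
        intro l' hl'
        rw [Finset.mem_Icc] at hl'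
        have hs0 := sc_pos (i₀ + l')
        have hs4 : sc (i₀ + l' + 4) = sc (i₀ + l') / 16 := by rw [sc_add _ 4, sc_four]; ring
        set A : Finset Z := (N (i₀ + l' + 4)).filter
          (fun u => |dist u y - 3 / 4 * sc (i₀ + l')| ≤ 1 / 16 * sc (i₀ + l')) with hA
        have hcard : (A.card : ℝ) ≤ A₁ := by
          have h1 := card_near hD hN 1 one_pos (i₀ + l') 4 y A (Finset.filter_subset _ _) (by
            intro u hu
            have h2 := (abs_le.1 (Finset.mem_filter.1 hu).2).2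
            linarith)
          refine h1.trans ?_
          exact mul_le_mul_of_nonneg_right (le_max_left _ _) (by positivity)
        have hcross : ∀ K ∈ ν.supp, hitB (sc (i₀ + l)) y K → ∃ u ∈ A, hit (i₀ + l' + 4) u K := by
          intro K hK hKy
          have hKB := hνB K hK
          have hconn := hB.conn K hKB.1
          obtain ⟨x1, hx1, hx1K⟩ := hKy
          have hfar : ∃ x ∈ (K : Set Z), sc i₀ ≤ dist x y := by
            by_contra hcon
            push Not at hcon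
            have h1 : diam (K : Set Z) ≤ 2 * sc i₀ := by
              refine diam_le_of_forall_dist_le (by linarith) ?_
              intro a ha b hb
              have h2 := hcon a ha
              have h3 := hcon b hb
              have h4 := dist_triangle_right a b y
              linarith
            have h2 := hKB.2
            linarith
          have hsl : sc (i₀ + l) ≤ sc (i₀ + l' + 4) := sc_anti (by omega)
          have hsl' : sc (i₀ + l') ≤ sc i₀ := sc_anti (by omega)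
          obtain ⟨z, hzK, hz⟩ := exists_sphere (K : Set Z) hconn y (sc (i₀ + l)) (sc i₀)
            (3 / 4 * sc (i₀ + l')) ⟨x1, hx1K, mem_closedBall.1 hx1⟩ hfar
            (by rw [hs4] at hsl; linarith) (by linarith)
          obtain ⟨u, hu, hzu, huK⟩ := exists_hit hN (i₀ + l' + 4) K z hzK
          refine ⟨u, ?_, huK⟩
          rw [hA, Finset.mem_filter]
          refine ⟨hu, ?_⟩
          rw [← hz]
          have h1 : |dist u y - dist z y| ≤ dist u z := abs_dist_sub_le _ _ _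
          rw [dist_comm] at hzu
          rw [hs4] at hzu
          linarith
        have hunion : p ≤ ∑ u ∈ A, ν.mass (hit (i₀ + l' + 4)) u :=
          pr_le_sum ν _ A (hit (i₀ + l' + 4)) hcross
        have hsub : ∀ u ∈ A, loc N (i₀ + L) (i₀ + l' + 4) u ⊆ Ann l' := by
          intro u hu w hw
          rw [hA, Finset.mem_filter] at hu
          rw [loc, Finset.mem_filter, hs4] at hw
          obtain ⟨hu1, hu2⟩ := abs_le.1 hu.2
          have h1 : |dist w y - dist u y| ≤ dist w u := abs_dist_sub_le _ _ _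
          obtain ⟨h2, h3⟩ := abs_le.1 h1
          have h4 : dist w y < sc (i₀ + l') := by linarith [hw.2]
          have h5 : sc (i₀ + l') / 2 < dist w y := by linarith [hw.2]
          have h6 : sc (i₀ + l') ≤ sc i₀ / 2 := by
            have := sc_anti (show i₀ + 1 ≤ i₀ + l' by omega)
            rw [sc_add i₀ 1, sc_one] at this
            linarith
          rw [hAnn, Finset.mem_filter]
          refine ⟨?_, h5, h4⟩
          rw [loc, Finset.mem_filter]
          refine ⟨hw.1, ?_⟩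
          have := dist_triangle w y x₀
          linarith
        have h3 := sum_loc_le hD hN (i₀ + l' + 4) (i₀ + L) A (Finset.filter_subset _ _)
          (Ann l') hsub (fun w => ν.mass (hit (i₀ + L)) w ^ 2) (fun w => sq_nonneg _)
        have hAnn0 : 0 ≤ ∑ w ∈ Ann l', ν.mass (hit (i₀ + L)) w ^ 2 :=
          Finset.sum_nonneg fun w _ => sq_nonneg _
        have h4 : ∑ u ∈ A, ν.mass (hit (i₀ + l' + 4)) u ^ 2 ≤
            Gs N B t j' (L - (l' + 4)) * ∑ u ∈ A,
              ∑ w ∈ loc N (i₀ + L) (i₀ + l' + 4) u, ν.mass (hit (i₀ + L)) w ^ 2 := by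
          rw [Finset.mul_sum]
          refine Finset.sum_le_sum fun v hv => ?_
          have := mass_sq_le hD hN B t (j := j') (i := i₀ + l' + 4) (k := i₀ + L)
            (by omega) (by omega) ν hνB (Finset.mem_filter.1 hv).1
          rwa [show i₀ + L - (i₀ + l' + 4) = L - (l' + 4) by omega] at this
        have h5 : Gs N B t j' (L - (l' + 4)) ≤ C₀ * Gs N B t j' L := hL _ (Nat.sub_le _ _)
        have h6 : ∑ u ∈ A, ν.mass (hit (i₀ + l' + 4)) u ^ 2 ≤
            (C₀ * Gs N B t j' L) * (D₁ * ∑ w ∈ Ann l', ν.mass (hit (i₀ + L)) w ^ 2) := by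
          refine h4.trans ?_
          exact mul_le_mul h5 (h3.trans (mul_le_mul_of_nonneg_right hD2 hAnn0))
            (Finset.sum_nonneg fun v _ => Finset.sum_nonneg fun w _ => sq_nonneg _) (by positivity)
        calc p ^ 2 ≤ (∑ u ∈ A, ν.mass (hit (i₀ + l' + 4)) u) ^ 2 := pow_le_pow_left₀ hp0 hunion 2
          _ ≤ A.card * ∑ u ∈ A, ν.mass (hit (i₀ + l' + 4)) u ^ 2 := sq_sum_le_card_mul_sum_sq
          _ ≤ A₁ * ((C₀ * Gs N B t j' L) *
              (D₁ * ∑ w ∈ Ann l', ν.mass (hit (i₀ + L)) w ^ 2)) :=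
            mul_le_mul hcard h6 (Finset.sum_nonneg fun w _ => sq_nonneg _) hA₁0
      have hdisj : ((Finset.Icc 1 (l - 4) : Finset ℕ) : Set ℕ).PairwiseDisjoint Ann := by
        have key : ∀ a b : ℕ, a < b → Disjoint (Ann a) (Ann b) := by
          intro a b hab
          rw [Finset.disjoint_left]
          intro w hwa hwb
          rw [hAnn, Finset.mem_filter] at hwa hwb
          have h1 : sc (i₀ + b) ≤ sc (i₀ + a) / 2 := by
            have := sc_anti (show i₀ + a + 1 ≤ i₀ + b by omega)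
            rw [sc_add (i₀ + a) 1, sc_one] at this
            linarith
          linarith [hwa.2.1, hwb.2.2]
        intro a _ b _ hab
        rcases lt_or_gt_of_ne hab with h | h
        · exact key a b h
        · exact (key b a h).symm
      have hsum : ∑ l' ∈ Finset.Icc 1 (l - 4), ∑ w ∈ Ann l', ν.mass (hit (i₀ + L)) w ^ 2 ≤ E := by
        rw [← Finset.sum_biUnion hdisj]
        refine Finset.sum_le_sum_of_subset_of_nonneg ?_ (fun w _ _ => sq_nonneg _)
        intro w hw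
        rw [Finset.mem_biUnion] at hw
        obtain ⟨a, -, ha⟩ := hw
        exact (Finset.mem_filter.1 ha).1
      have htot := Finset.sum_le_sum hstep
      rw [Finset.sum_const, Nat.card_Icc, nsmul_eq_mul, ← Finset.mul_sum, ← Finset.mul_sum,
        ← Finset.mul_sum] at htot
      have h9 : A₁ * (C₀ * Gs N B t j' L * (D₁ * ∑ l' ∈ Finset.Icc 1 (l - 4),
          ∑ w ∈ Ann l', ν.mass (hit (i₀ + L)) w ^ 2)) ≤
          A₁ * (C₀ * Gs N B t j' L * (D₁ * E)) := by
        gcongr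
      have h10 : A₁ * (C₀ * Gs N B t j' L * (D₁ * E)) ≤ A₁ * (C₀ * (D₁ * 2)) := by
        have : C₀ * Gs N B t j' L * (D₁ * E) = C₀ * (D₁ * (Gs N B t j' L * E)) := by ring
        rw [this]
        gcongr
      have h11 : (l : ℝ) / 2 ≤ ((l - 4 + 1 - 1 : ℕ) : ℝ) := by
        rw [Nat.add_sub_cancel, Nat.cast_sub (by omega)]
        have : (8 : ℝ) ≤ l := by exact_mod_cast h8
        push_cast
        linarith
      have h12 : (l : ℝ) / 2 * p ^ 2 ≤ A₁ * (C₀ * (D₁ * 2)) :=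
        (mul_le_mul_of_nonneg_right h11 (sq_nonneg p)).trans (htot.trans (h9.trans h10))
      nlinarith

end P198Q
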