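import Vale.Agent.P198.Q.Mod

open Metric Set TopologicalSpace
open scoped Classical

namespace P198Q

/-- good cell for the finite set of leaves `S`, at level `k`, resolution `k+n`. -/
def Good {Z : Type*} [MetricSpace Z] (S : Finset (NonemptyCompacts Z)) (k n : ℕ) (v : Z) : Prop :=
  ∃ (K : Fin 3 → NonemptyCompacts Z) (p : Fin 3 → Z), (∀ i, K i ∈ S) ∧ (∀ i, hit k v (K i)) ∧
    (∀ i, p i ∈ (K i : Set Z)) ∧ (∀ i, dist (p i) v ≤ 2 * sc k) ∧
    ∀ i j, i ≠ j → ∀ y ∈ (K j : Set Z), sc (k + n) ≤ dist (p i) y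

section G5
variable {Z : Type*} [MetricSpace Z]

theorem g5_sc_pos (k : ℕ) : 0 < sc k := by unfold sc; positivity

theorem g5_sc_add (a b : ℕ) : sc (a + b) = sc a * sc b := by unfold sc; rw [pow_add]

theorem g5_sc_anti {a b : ℕ} (h : a ≤ b) : sc b ≤ sc a := by
  unfold sc
  exact pow_le_pow_of_le_one (by norm_num) (by norm_num) h

/-- local cells -/
noncomputable def g5V (N : ℕ → Finset Z) (k n : ℕ) (v : Z) : Finset Z :=
  (N (k + n)).filter (fun w => dist w v ≤ 2 * sc k)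

/-- number of pairs of neighbouring cells, the first hit by `K`, the second by `K'`. -/
noncomputable def g5f (N : ℕ → Finset Z) (k n : ℕ) (v : Z) (K K' : NonemptyCompacts Z) : ℝ :=
  ∑ w ∈ g5V N k n v, ∑ w' ∈ g5V N k n v with dist w w' ≤ 3 * sc (k + n),
    (if hit (k + n) w K then (1 : ℝ) else 0) * (if hit (k + n) w' K' then (1 : ℝ) else 0)

theorem g5f_nonneg (N : ℕ → Finset Z) (k n : ℕ) (v : Z) (K K' : NonemptyCompacts Z) :
    0 ≤ g5f N k n v K K' := by
  unfold g5f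
  refine Finset.sum_nonneg (fun w _ => Finset.sum_nonneg (fun w' _ => ?_))
  split_ifs <;> norm_num

theorem g5_cross (N : ℕ → Finset Z) (hN : IsNet N) (k n : ℕ) (hn : 3 ≤ n) (v : Z)
    (K K' K'' : NonemptyCompacts Z) (hc : IsConnected (K : Set Z)) (hK : hit k v K)
    (hfar : ∃ y ∈ (K : Set Z), 2 * sc k ≤ dist y v)
    (hclose : ∀ p ∈ (K : Set Z), dist p v ≤ 2 * sc k →
      (∃ y ∈ (K' : Set Z), dist p y < sc (k + n)) ∨ (∃ y ∈ (K'' : Set Z), dist p y < sc (k + n))) :
    (2 : ℝ) ^ (n - 3) ≤ g5f N k n v K K' + g5f N k n v K K'' := by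
  set h := sc (k + n) with hh
  have hh0 : 0 < h := g5_sc_pos _
  have hk0 : 0 < sc k := g5_sc_pos _
  -- `8 h 2^(n-3) = sc k`
  have hhk : 8 * (2 : ℝ) ^ (n - 3) * h = sc k := by
    rw [hh, g5_sc_add]
    obtain ⟨m, rfl⟩ := Nat.exists_eq_add_of_le hn
    have : 3 + m - 3 = m := by omega
    rw [this]
    unfold sc
    rw [pow_add]
    have h2 : (2 : ℝ) ^ m * (1 / 2) ^ m = 1 := by rw [← mul_pow]; norm_num
    calc 8 * (2 : ℝ) ^ m * ((1 / 2) ^ k * ((1 / 2) ^ 3 * (1 / 2) ^ m))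
        = (1 / 2) ^ k * ((2 : ℝ) ^ m * (1 / 2) ^ m) := by ring
      _ = (1 / 2) ^ k := by rw [h2, mul_one]
  have h8 : 8 * h ≤ sc k := by
    have : (1 : ℝ) ≤ 2 ^ (n - 3) := one_le_pow₀ (by norm_num)
    nlinarith
  set W := (g5V N k n v).filter (fun w => hit (k + n) w K ∧ ∃ w' ∈ g5V N k n v, dist w w' ≤ 3 * h ∧
    (hit (k + n) w' K' ∨ hit (k + n) w' K'')) with hW
  -- upper bound of the cardinality of `W`
  have hWle : (W.card : ℝ) ≤ g5f N k n v K K' + g5f N k n v K K'' := by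
    unfold g5f
    rw [← Finset.sum_add_distrib]
    have h1 : (W.card : ℝ) = ∑ w ∈ W, (1 : ℝ) := by simp
    rw [h1]
    refine (Finset.sum_le_sum (g := fun w =>
      (∑ w' ∈ g5V N k n v with dist w w' ≤ 3 * sc (k + n),
        (if hit (k + n) w K then (1 : ℝ) else 0) * (if hit (k + n) w' K' then (1 : ℝ) else 0)) +
      (∑ w' ∈ g5V N k n v with dist w w' ≤ 3 * sc (k + n),
        (if hit (k + n) w K then (1 : ℝ) else 0) * (if hit (k + n) w' K'' then (1 : ℝ) else 0)))
      ?_).trans ?_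
    · intro w hw
      obtain ⟨hw1, hw2, w', hw', hd, hor⟩ := Finset.mem_filter.1 hw
      have hmem : w' ∈ (g5V N k n v).filter (fun w' => dist w w' ≤ 3 * sc (k + n)) :=
        Finset.mem_filter.2 ⟨hw', hd⟩
      have nn : ∀ L : NonemptyCompacts Z, ∀ w' ∈ (g5V N k n v).filter (fun w' => dist w w' ≤ 3 * sc (k + n)),
          (0 : ℝ) ≤ (if hit (k + n) w K then (1 : ℝ) else 0) * (if hit (k + n) w' L then (1 : ℝ) else 0) := by
        intro L w' _
        split_ifs <;> norm_num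
      rcases hor with hor | hor
      · have := Finset.single_le_sum (nn K') hmem
        have h2 := Finset.sum_nonneg (nn K'')
        simp only [hw2, hor, if_true, mul_one] at this
        simp only [hw2, if_true] at h2 ⊢
        linarith
      · have := Finset.single_le_sum (nn K'') hmem
        have h2 := Finset.sum_nonneg (nn K')
        simp only [hw2, hor, if_true, mul_one] at this
        simp only [hw2, if_true] at h2 ⊢
        linarith
    · apply Finset.sum_le_sum_of_subset_of_nonneg (Finset.filter_subset _ _)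
      intro w _ _
      apply add_nonneg
      · refine Finset.sum_nonneg (fun w' _ => ?_)
        split_ifs <;> norm_num
      · refine Finset.sum_nonneg (fun w' _ => ?_)
        split_ifs <;> norm_num
  refine le_trans ?_ hWle
  -- lower bound: one cell of `W` for every radius
  have hpt : ∀ m : ℕ, m < 2 ^ (n - 3) → ∃ w ∈ W, |dist w v - (sc k + 3 * h * m)| ≤ h := by
    intro m hm
    have hm' : (m : ℝ) ≤ 2 ^ (n - 3) := by exact_mod_cast hm.le
    have hr1 : 3 * h * m ≤ 1 / 2 * sc k := by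
      have : 3 * h * m ≤ 3 * h * 2 ^ (n - 3) := mul_le_mul_of_nonneg_left hm' (by positivity)
      nlinarith
    obtain ⟨x, hx1, hx2⟩ := hK
    have hx1' : dist x v ≤ sc k := hx1
    obtain ⟨y, hy, hyd⟩ := hfar
    have hmem : sc k + 3 * h * m ∈ (fun z => dist z v) '' (K : Set Z) := by
      apply hc.isPreconnected.intermediate_value hx2 hy (by fun_prop)
      refine ⟨?_, ?_⟩
      · show dist x v ≤ sc k + 3 * h * m
        have : 0 ≤ 3 * h * m := by positivity
        linarith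
      · show sc k + 3 * h * m ≤ dist y v
        linarith
    obtain ⟨p, hp, hpm⟩ := hmem
    have hpm' : dist p v = sc k + 3 * h * m := hpm
    obtain ⟨w, hw, hpw⟩ := hN.cov (k + n) p
    have hwv : |dist w v - dist p v| ≤ dist w p := abs_dist_sub_le _ _ _
    rw [hpm', dist_comm w p] at hwv
    have hwv' : |dist w v - (sc k + 3 * h * m)| ≤ h := hwv.trans hpw
    have hw32 : dist w v ≤ 3 / 2 * sc k + h := by
      have := (abs_le.1 hwv').2
      linarith
    refine ⟨w, Finset.mem_filter.2 ⟨Finset.mem_filter.2 ⟨hw, by linarith⟩, ⟨p, hpw, hp⟩, ?_⟩, hwv'⟩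
    have hcl := hclose p hp (by linarith)
    have hnet : ∀ L : NonemptyCompacts Z, (∃ y ∈ (L : Set Z), dist p y < h) →
        ∃ w' ∈ g5V N k n v, dist w w' ≤ 3 * h ∧ hit (k + n) w' L := by
      rintro L ⟨y, hy, hpy⟩
      obtain ⟨w', hw', hyw'⟩ := hN.cov (k + n) y
      have h1 : dist w w' ≤ dist w p + dist p y + dist y w' := dist_triangle4 _ _ _ _
      have h2 : dist w w' ≤ 3 * h := by
        rw [dist_comm w p] at h1
        have : dist p w ≤ h := hpw
        have : dist y w' ≤ h := hyw'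
        linarith
      have h3 : dist w' v ≤ dist w' w + dist w v := dist_triangle _ _ _
      rw [dist_comm w' w] at h3
      exact ⟨w', Finset.mem_filter.2 ⟨hw', by linarith⟩, h2, y, hyw', hy⟩
    rcases hcl with hcl | hcl
    · obtain ⟨w', hw', hd, hh'⟩ := hnet K' hcl
      exact ⟨w', hw', hd, Or.inl hh'⟩
    · obtain ⟨w', hw', hd, hh'⟩ := hnet K'' hcl
      exact ⟨w', hw', hd, Or.inr hh'⟩
  have : Nonempty Z := ⟨v⟩
  choose! ww hww hwd using hpt
  have hcard : 2 ^ (n - 3) ≤ W.card := by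
    have h1 := Finset.card_le_card_of_injOn (s := Finset.range (2 ^ (n - 3))) (t := W) ww
      (fun m hm => hww m (Finset.mem_range.1 hm)) ?_
    · simpa using h1
    · intro m hm m' hm' hmm
      have h1 := hwd m (Finset.mem_range.1 hm)
      have h2 := hwd m' (Finset.mem_range.1 hm')
      rw [hmm] at h1
      have h3 := abs_le.1 h1
      have h4 := abs_le.1 h2
      by_contra hne
      rcases Nat.lt_or_gt_of_ne hne with hlt | hlt
      · have : (m : ℝ) + 1 ≤ m' := by exact_mod_cast hlt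
        have : 3 * h * ((m : ℝ) + 1) ≤ 3 * h * m' := mul_le_mul_of_nonneg_left this (by positivity)
        nlinarith [h3.1, h3.2, h4.1, h4.2]
      · have : (m' : ℝ) + 1 ≤ m := by exact_mod_cast hlt
        have : 3 * h * ((m' : ℝ) + 1) ≤ 3 * h * m := mul_le_mul_of_nonneg_left this (by positivity)
        nlinarith [h3.1, h3.2, h4.1, h4.2]
  exact_mod_cast hcard

/-- triple expectation -/
noncomputable def g5T {α : Type*} (S : Finset α) (w : α → ℝ) (g : α → α → α → ℝ) : ℝ :=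
  ∑ a ∈ S, ∑ b ∈ S, ∑ c ∈ S, w a * w b * w c * g a b c

theorem g5T_add {α : Type*} (S : Finset α) (w : α → ℝ) (g g' : α → α → α → ℝ) :
    g5T S w (fun a b c => g a b c + g' a b c) = g5T S w g + g5T S w g' := by
  unfold g5T
  simp only [mul_add, Finset.sum_add_distrib]

theorem g5T_ab {α : Type*} (S : Finset α) (w : α → ℝ) (hw : ∑ a ∈ S, w a = 1) (f : α → α → ℝ) :
    g5T S w (fun a b _ => f a b) = ∑ a ∈ S, ∑ b ∈ S, w a * w b * f a b := by
  unfold g5T
  refine Finset.sum_congr rfl (fun a _ => Finset.sum_congr rfl (fun b _ => ?_))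
  have : ∑ c ∈ S, w a * w b * w c * f a b = (w a * w b * f a b) * ∑ c ∈ S, w c := by
    rw [Finset.mul_sum]
    exact Finset.sum_congr rfl (fun c _ => by ring)
  rw [this, hw, mul_one]

theorem g5T_ac {α : Type*} (S : Finset α) (w : α → ℝ) (hw : ∑ a ∈ S, w a = 1) (f : α → α → ℝ) :
    g5T S w (fun a _ c => f a c) = ∑ a ∈ S, ∑ b ∈ S, w a * w b * f a b := by
  unfold g5T
  refine Finset.sum_congr rfl (fun a _ => ?_)
  rw [Finset.sum_comm]
  refine Finset.sum_congr rfl (fun c _ => ?_)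
  have : ∑ b ∈ S, w a * w b * w c * f a c = (w a * w c * f a c) * ∑ b ∈ S, w b := by
    rw [Finset.mul_sum]
    exact Finset.sum_congr rfl (fun c _ => by ring)
  rw [this, hw, mul_one]

theorem g5T_bc {α : Type*} (S : Finset α) (w : α → ℝ) (hw : ∑ a ∈ S, w a = 1) (f : α → α → ℝ) :
    g5T S w (fun _ b c => f b c) = ∑ a ∈ S, ∑ b ∈ S, w a * w b * f a b := by
  unfold g5T
  have : ∀ a ∈ S, ∑ b ∈ S, ∑ c ∈ S, w a * w b * w c * f b c = w a * ∑ b ∈ S, ∑ c ∈ S, w b * w c * f b c := by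
    intro a _
    rw [Finset.mul_sum]
    refine Finset.sum_congr rfl (fun b _ => ?_)
    rw [Finset.mul_sum]
    exact Finset.sum_congr rfl (fun c _ => by ring)
  rw [Finset.sum_congr rfl this, ← Finset.sum_mul, hw, one_mul]

theorem g5_swap {α : Type*} (S : Finset α) (w : α → ℝ) (f : α → α → ℝ) :
    ∑ a ∈ S, ∑ b ∈ S, w a * w b * f b a = ∑ a ∈ S, ∑ b ∈ S, w a * w b * f a b := by
  rw [Finset.sum_comm]
  exact Finset.sum_congr rfl (fun a _ => Finset.sum_congr rfl (fun b _ => by ring))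

theorem g5_six {α : Type*} (S : Finset α) (w : α → ℝ) (hw0 : ∀ a ∈ S, 0 ≤ w a) (hw : ∑ a ∈ S, w a = 1)
    (f : α → α → ℝ) (M : ℝ)
    (h : ∀ a ∈ S, ∀ b ∈ S, ∀ c ∈ S, M ≤ (f a b + f a c) + (f b a + f b c) + (f c a + f c b)) :
    M ≤ 6 * ∑ a ∈ S, ∑ b ∈ S, w a * w b * f a b := by
  have h1 : g5T S w (fun _ _ _ => M) = M := by
    have := g5T_ab S w hw (fun _ _ => M)
    rw [this]
    have e : ∀ a ∈ S, ∑ b ∈ S, w a * w b * M = (w a * M) * ∑ b ∈ S, w b := by
      intro a _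
      rw [Finset.mul_sum]
      exact Finset.sum_congr rfl (fun c _ => by ring)
    rw [Finset.sum_congr rfl e, hw]
    simp only [mul_one]
    rw [← Finset.sum_mul, hw, one_mul]
  have h2 : g5T S w (fun _ _ _ => M) ≤
      g5T S w (fun a b c => (f a b + f a c) + (f b a + f b c) + (f c a + f c b)) := by
    unfold g5T
    refine Finset.sum_le_sum (fun a ha => Finset.sum_le_sum (fun b hb => Finset.sum_le_sum (fun c hc => ?_)))
    exact mul_le_mul_of_nonneg_left (h a ha b hb c hc)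
      (mul_nonneg (mul_nonneg (hw0 a ha) (hw0 b hb)) (hw0 c hc))
  rw [h1] at h2
  refine h2.trans (le_of_eq ?_)
  rw [g5T_add, g5T_add, g5T_add, g5T_add, g5T_add]
  rw [g5T_ab S w hw f, g5T_ac S w hw f, g5T_bc S w hw f, g5T_ab S w hw (fun a b => f b a),
    g5T_ac S w hw (fun a b => f b a), g5T_bc S w hw (fun a b => f b a), g5_swap]
  ring

theorem g5_phi (N : ℕ → Finset Z) (hN : IsNet N) (D : ℝ → ℝ) (Q : ℕ) (hD : Doubling Z D Q)
    (D3 : ℕ) (hD3 : D 3 ≤ D3) (k n : ℕ) (v : Z) (μ : Flow (NonemptyCompacts Z)) :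
    ∑ a ∈ μ.supp, ∑ b ∈ μ.supp, μ.w a * μ.w b * g5f N k n v a b
      ≤ D3 * energy (g5V N k n v) (μ.mass (hit (k + n))) := by
  set V := g5V N k n v with hV
  have hmass : ∀ w : Z, μ.mass (hit (k + n)) w = ∑ a ∈ μ.supp, μ.w a * (if hit (k + n) w a then (1 : ℝ) else 0) := by
    intro w
    unfold Flow.mass
    rw [Finset.sum_filter]
    refine Finset.sum_congr rfl (fun a _ => ?_)
    split_ifs <;> simp
  have h1 : ∑ a ∈ μ.supp, ∑ b ∈ μ.supp, μ.w a * μ.w b * g5f N k n v a b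
      = ∑ w ∈ V, ∑ w' ∈ V with dist w w' ≤ 3 * sc (k + n), μ.mass (hit (k + n)) w * μ.mass (hit (k + n)) w' := by
    unfold g5f
    simp only [← hV, Finset.mul_sum]
    have e1 : ∀ a ∈ μ.supp, ∑ b ∈ μ.supp, ∑ w ∈ V, ∑ w' ∈ V with dist w w' ≤ 3 * sc (k + n),
        μ.w a * μ.w b * ((if hit (k + n) w a then (1 : ℝ) else 0) * (if hit (k + n) w' b then (1 : ℝ) else 0))
        = ∑ w ∈ V, ∑ b ∈ μ.supp, ∑ w' ∈ V with dist w w' ≤ 3 * sc (k + n),
        μ.w a * μ.w b * ((if hit (k + n) w a then (1 : ℝ) else 0) * (if hit (k + n) w' b then (1 : ℝ) else 0)) :=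
      fun a _ => Finset.sum_comm
    rw [Finset.sum_congr rfl e1, Finset.sum_comm]
    refine Finset.sum_congr rfl (fun w _ => ?_)
    have e2 : ∀ a ∈ μ.supp, ∑ b ∈ μ.supp, ∑ w' ∈ V with dist w w' ≤ 3 * sc (k + n),
        μ.w a * μ.w b * ((if hit (k + n) w a then (1 : ℝ) else 0) * (if hit (k + n) w' b then (1 : ℝ) else 0))
        = ∑ w' ∈ V with dist w w' ≤ 3 * sc (k + n), ∑ b ∈ μ.supp,
        μ.w a * μ.w b * ((if hit (k + n) w a then (1 : ℝ) else 0) * (if hit (k + n) w' b then (1 : ℝ) else 0)) :=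
      fun a _ => Finset.sum_comm
    rw [Finset.sum_congr rfl e2, Finset.sum_comm]
    refine Finset.sum_congr rfl (fun w' _ => ?_)
    rw [hmass w, hmass w', Finset.sum_mul_sum]
    refine Finset.sum_congr rfl (fun a _ => Finset.sum_congr rfl (fun b _ => ?_))
    ring
  rw [h1]
  set m := μ.mass (hit (k + n)) with hm
  have h2 : ∑ w ∈ V, ∑ w' ∈ V with dist w w' ≤ 3 * sc (k + n), m w * m w'
      ≤ ∑ w ∈ V, ∑ w' ∈ V with dist w w' ≤ 3 * sc (k + n), (m w ^ 2 / 2 + m w' ^ 2 / 2) := by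
    refine Finset.sum_le_sum (fun w _ => Finset.sum_le_sum (fun w' _ => ?_))
    nlinarith [sq_nonneg (m w - m w')]
  refine h2.trans ?_
  have hcard : ∀ w : Z, (((V.filter (fun w' => dist w w' ≤ 3 * sc (k + n))).card : ℝ)) ≤ D3 := by
    intro w
    have := hD 3 (k + n) 0 w (V.filter (fun w' => dist w w' ≤ 3 * sc (k + n))) (by norm_num)
      (fun a ha => by rw [dist_comm]; exact (Finset.mem_filter.1 ha).2)
      (fun a ha b hb hab => hN.sep (k + n) a (Finset.mem_filter.1 (Finset.mem_filter.1 ha).1).1 b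
        (Finset.mem_filter.1 (Finset.mem_filter.1 hb).1).1 hab)
    rw [Nat.mul_zero, pow_zero, mul_one] at this
    exact this.trans hD3
  have h3 : ∑ w ∈ V, ∑ w' ∈ V with dist w w' ≤ 3 * sc (k + n), m w ^ 2 / 2 ≤ D3 * energy V m / 2 := by
    unfold energy
    rw [Finset.mul_sum, Finset.sum_div]
    refine Finset.sum_le_sum (fun w _ => ?_)
    rw [Finset.sum_const, nsmul_eq_mul]
    have := mul_le_mul_of_nonneg_right (hcard w) (show 0 ≤ m w ^ 2 / 2 by positivity)
    linarith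
  have h4 : ∑ w ∈ V, ∑ w' ∈ V with dist w w' ≤ 3 * sc (k + n), m w' ^ 2 / 2
      = ∑ w ∈ V, ∑ w' ∈ V with dist w w' ≤ 3 * sc (k + n), m w ^ 2 / 2 := by
    simp only [Finset.sum_filter]
    rw [Finset.sum_comm]
    refine Finset.sum_congr rfl (fun w _ => Finset.sum_congr rfl (fun w' _ => ?_))
    rw [dist_comm w' w]
  simp only [Finset.sum_add_distrib]
  rw [h4]
  linarith

/-- A5: a cell which is not good has small local modulus -/
theorem not_good_md {Z : Type*} [MetricSpace Z] [CompactSpace Z]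
    (N : ℕ → Finset Z) (hN : IsNet N) (D : ℝ → ℝ) (Q : ℕ) (hD : Doubling Z D Q) :
    ∃ C₃ : ℝ, 0 < C₃ ∧ ∀ (S : Finset (NonemptyCompacts Z)) (k n : ℕ) (v : Z),
      (∀ K ∈ S, IsConnected (K : Set Z) ∧ ∃ y ∈ (K : Set Z), 2 * sc k ≤ dist y v) →
      ¬ Good S k n v →
      md ((N (k + n)).filter (fun w => dist w v ≤ 2 * sc k)) (hit (k + n)) {K | K ∈ S ∧ hit k v K}
        ≤ C₃ * (1 / 2) ^ n := by
  obtain ⟨D3, hD3⟩ := exists_nat_ge (D 3)
  obtain ⟨D2, hD2⟩ := exists_nat_ge (D 2)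
  refine ⟨48 * D3 + 4 * (D2 * 2 ^ (2 * Q)) + 1, by positivity, fun S k n v hS hng => ?_⟩
  set V := (N (k + n)).filter (fun w => dist w v ≤ 2 * sc k) with hV
  have hVdef : V = g5V N k n v := rfl
  set F : Set (NonemptyCompacts Z) := {K | K ∈ S ∧ hit k v K} with hFdef
  have hF : ∀ K ∈ F, ∃ w ∈ V, hit (k + n) w K := by
    rintro K ⟨_, x, hx1, hx2⟩
    obtain ⟨w, hw, hxw⟩ := hN.cov (k + n) x
    refine ⟨w, Finset.mem_filter.2 ⟨hw, ?_⟩, x, hxw, hx2⟩
    have h1 : dist x v ≤ sc k := hx1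
    have h2 : dist w v ≤ dist x w + dist x v := by
      rw [dist_comm x w]; exact dist_triangle _ _ _
    have h3 : sc (k + n) ≤ sc k := g5_sc_anti (Nat.le_add_right _ _)
    linarith
  by_cases hn : n < 3
  · have h1 : md V (hit (k + n)) F ≤ D2 * 2 ^ (Q * n) := by
      refine (md_le_card _ _ _ hF).trans ?_
      refine (hD 2 k n v V (by norm_num) (fun a ha => (Finset.mem_filter.1 ha).2)
        (fun a ha b hb hab => hN.sep (k + n) a (Finset.mem_filter.1 ha).1 b (Finset.mem_filter.1 hb).1 hab)).trans ?_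
      exact mul_le_mul_of_nonneg_right hD2 (by positivity)
    have h2 : (2 : ℝ) ^ (Q * n) ≤ 2 ^ (2 * Q) := by
      apply pow_le_pow_right₀ (by norm_num)
      nlinarith [Nat.zero_le Q]
    have h3 : (1 / 4 : ℝ) ≤ (1 / 2) ^ n := by
      have : ((1 : ℝ) / 2) ^ 2 ≤ (1 / 2) ^ n := pow_le_pow_of_le_one (by norm_num) (by norm_num) (by omega)
      linarith
    have h4 : (D2 : ℝ) * 2 ^ (Q * n) ≤ D2 * 2 ^ (2 * Q) := mul_le_mul_of_nonneg_left h2 (Nat.cast_nonneg _)
    have h5 : (48 * (D3 : ℝ) + 4 * (D2 * 2 ^ (2 * Q)) + 1) * (1 / 4) ≤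
        (48 * D3 + 4 * (D2 * 2 ^ (2 * Q)) + 1) * (1 / 2) ^ n :=
      mul_le_mul_of_nonneg_left h3 (by positivity)
    have h6 : (0 : ℝ) ≤ D3 := Nat.cast_nonneg _
    linarith
  push Not at hn
  have h48 : (6 * (D3 : ℝ)) / 2 ^ (n - 3) ≤ (48 * D3 + 4 * (D2 * 2 ^ (2 * Q)) + 1) * (1 / 2) ^ n := by
    have e : (6 * (D3 : ℝ)) / 2 ^ (n - 3) = 48 * D3 * (1 / 2) ^ n := by
      obtain ⟨m, rfl⟩ := Nat.exists_eq_add_of_le hn
      have : 3 + m - 3 = m := by omega
      rw [this, pow_add, one_div, inv_pow, inv_pow]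
      have : (2 : ℝ) ^ m ≠ 0 := by positivity
      field_simp
      ring
    rw [e]
    apply mul_le_mul_of_nonneg_right _ (by positivity)
    have : (0 : ℝ) ≤ 4 * (D2 * 2 ^ (2 * Q)) := by positivity
    linarith
  refine le_trans ?_ h48
  rcases F.eq_empty_or_nonempty with hFe | hFne
  · have h1 : md V (hit (k + n)) F ≤ energy V (fun _ => 0) := by
      apply md_le
      refine ⟨fun _ => le_rfl, ?_⟩
      rw [hFe]
      intro K hK
      exact absurd hK (Set.notMem_empty K)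
    have h2 : energy V (fun _ => (0 : ℝ)) = 0 := by simp [energy]
    rw [h2] at h1
    exact h1.trans (by positivity)
  obtain ⟨μ, hμF, hμ⟩ := exists_flow V (hit (k + n)) F hFne hF
  -- the six-fold inequality
  have hsix : ∀ a ∈ μ.supp, ∀ b ∈ μ.supp, ∀ c ∈ μ.supp, (2 : ℝ) ^ (n - 3) ≤
      (g5f N k n v a b + g5f N k n v a c) + (g5f N k n v b a + g5f N k n v b c) +
      (g5f N k n v c a + g5f N k n v c b) := by
    intro a ha b hb c hc
    have hKS : ∀ i, (![a, b, c] i) ∈ S := by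
      intro i; fin_cases i
      · exact (hμF a ha).1
      · exact (hμF b hb).1
      · exact (hμF c hc).1
    have hKh : ∀ i, hit k v (![a, b, c] i) := by
      intro i; fin_cases i
      · exact (hμF a ha).2
      · exact (hμF b hb).2
      · exact (hμF c hc).2
    have hbad : ∃ i : Fin 3, ∀ p ∈ ((![a, b, c] i : NonemptyCompacts Z) : Set Z), dist p v ≤ 2 * sc k →
        ∃ j, i ≠ j ∧ ∃ y ∈ ((![a, b, c] j : NonemptyCompacts Z) : Set Z), dist p y < sc (k + n) := by
      by_contra hcon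
      push Not at hcon
      choose p hp1 hp2 hp3 using hcon
      exact hng ⟨![a, b, c], p, hKS, hKh, hp1, hp2, hp3⟩
    have nn := fun K K' => g5f_nonneg N k n v K K'
    obtain ⟨i, hi⟩ := hbad
    have hcr : ∀ x y z : NonemptyCompacts Z, x ∈ μ.supp →
        (∀ p ∈ (x : Set Z), dist p v ≤ 2 * sc k →
          (∃ u ∈ (y : Set Z), dist p u < sc (k + n)) ∨ (∃ u ∈ (z : Set Z), dist p u < sc (k + n))) →
        (2 : ℝ) ^ (n - 3) ≤ g5f N k n v x y + g5f N k n v x z := by
      intro x y z hx hxyz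
      exact g5_cross N hN k n hn v x y z (hS x (hμF x hx).1).1 (hμF x hx).2 (hS x (hμF x hx).1).2 hxyz
    fin_cases i
    · have := hcr a b c ha (by
        intro p hp hpv
        obtain ⟨j, hj, y, hy, hpy⟩ := hi p hp hpv
        fin_cases j
        · exact absurd rfl hj
        · exact Or.inl ⟨y, hy, hpy⟩
        · exact Or.inr ⟨y, hy, hpy⟩)
      linarith [nn b a, nn b c, nn c a, nn c b]
    · have := hcr b a c hb (by
        intro p hp hpv
        obtain ⟨j, hj, y, hy, hpy⟩ := hi p hp hpv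
        fin_cases j
        · exact Or.inl ⟨y, hy, hpy⟩
        · exact absurd rfl hj
        · exact Or.inr ⟨y, hy, hpy⟩)
      linarith [nn a b, nn a c, nn c a, nn c b]
    · have := hcr c a b hc (by
        intro p hp hpv
        obtain ⟨j, hj, y, hy, hpy⟩ := hi p hp hpv
        fin_cases j
        · exact Or.inl ⟨y, hy, hpy⟩
        · exact Or.inr ⟨y, hy, hpy⟩
        · exact absurd rfl hj)
      linarith [nn a b, nn a c, nn b a, nn b c]
  have h1 := g5_six μ.supp μ.w (fun a ha => (μ.pos a ha).le) μ.sum_one (g5f N k n v) _ hsix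
  have h2 := g5_phi N hN D Q hD D3 hD3 k n v μ
  rw [← hVdef] at h2
  have h3 : (2 : ℝ) ^ (n - 3) ≤ 6 * (D3 * energy V (μ.mass (hit (k + n)))) := by linarith
  have hmd0 : 0 ≤ md V (hit (k + n)) F := md_nonneg _ _ _
  have h4 := mul_le_mul_of_nonneg_right h3 hmd0
  have h5 : 6 * (D3 * energy V (μ.mass (hit (k + n)))) * md V (hit (k + n)) F = 6 * D3 := by
    calc 6 * (D3 * energy V (μ.mass (hit (k + n)))) * md V (hit (k + n)) F
        = 6 * D3 * (energy V (μ.mass (hit (k + n))) * md V (hit (k + n)) F) := by ring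
      _ = 6 * D3 := by rw [hμ, mul_one]
  rw [h5] at h4
  rw [le_div_iff₀ (by positivity)]
  linarith

end G5

end P198Q
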