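import Vale.Agent.P198.Q.Mod
import Vale.Agent.P198.Q.Bump

/-!
# P198, block A12: the limit leaves

`leafB N U` is the set of compacta all of whose neighbourhoods have modulus tending to infinity along
the ultrafilter `U`.  Main results: its members are connected, it is `G`-invariant, finitely many of its
members can be perturbed to pairwise disjoint continua, compact sets missing it have bounded modulus.
-/

open Metric Set TopologicalSpace Filter
open scoped Classical

namespace P198Q

section LeafB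

variable {Z : Type*} [MetricSpace Z]

/-- the limit leaves along the ultrafilter `U`. -/
def leafB (N : ℕ → Finset Z) (U : Ultrafilter ℕ) : Set (NonemptyCompacts Z) :=
  {K | ∀ ε : ℝ, 0 < ε → ∀ A : ℝ, ∀ᶠ k in (U : Filter ℕ),
    A ≤ md (N k) (hit k) {K' | IsConnected (K' : Set Z) ∧ dist K' K < ε}}

theorem exists_hit_of_mem {N : ℕ → Finset Z} (hN : IsNet N) (k : ℕ) (K : NonemptyCompacts Z) (x : Z)
    (hx : x ∈ (K : Set Z)) : ∃ v ∈ N k, dist x v ≤ sc k ∧ hit k v K := by
  obtain ⟨v, hv, hd⟩ := hN.cov k x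
  exact ⟨v, hv, hd, x, mem_closedBall.2 hd, hx⟩

theorem exists_hit {N : ℕ → Finset Z} (hN : IsNet N) (k : ℕ) (K : NonemptyCompacts Z) :
    ∃ v ∈ N k, hit k v K := by
  obtain ⟨x, hx⟩ := K.nonempty
  obtain ⟨v, hv, -, h⟩ := exists_hit_of_mem hN k K x hx
  exact ⟨v, hv, h⟩

theorem md_empty {α β : Type*} (V : Finset β) (hit : β → α → Prop) : md V hit (∅ : Set α) ≤ 0 := by
  refine (md_le V hit ∅ (fun _ => 0) ⟨fun _ => le_rfl, fun K hK => absurd hK (notMem_empty K)⟩).trans ?_
  simp [energy]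

theorem leafB_conn {N : ℕ → Finset Z} {U : Ultrafilter ℕ} {K : NonemptyCompacts Z}
    (hK : K ∈ leafB N U) : IsConnected (K : Set Z) := by
  refine isConnected_of_forall_near K fun ε hε => ?_
  by_contra hcon
  have hemp : {K' : NonemptyCompacts Z | IsConnected (K' : Set Z) ∧ dist K' K < ε} = ∅ := by
    ext K'
    simp only [mem_ofPred_eq, mem_empty_iff_false, iff_false]
    exact fun h => hcon ⟨K', h⟩
  obtain ⟨k, hk⟩ := (hK ε hε 1).exists
  rw [hemp] at hk
  linarith [md_empty (N k) (hit k)]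

/-- compact sets of continua missing the limit leaves have bounded modulus. -/
theorem leafB_cover {N : ℕ → Finset Z} (hN : IsNet N) (U : Ultrafilter ℕ)
    (X : Set (NonemptyCompacts Z)) (hX : IsCompact X) (hd : Disjoint X (leafB N U)) :
    ∃ C : ℝ, ∀ᶠ k in (U : Filter ℕ), md (N k) (hit k) {K | K ∈ X ∧ IsConnected (K : Set Z)} ≤ C := by
  refine hX.induction_on (p := fun X : Set (NonemptyCompacts Z) => ∃ C : ℝ, ∀ᶠ k in (U : Filter ℕ),
    md (N k) (hit k) {K | K ∈ X ∧ IsConnected (K : Set Z)} ≤ C) ?_ ?_ ?_ ?_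
  · refine ⟨0, Eventually.of_forall fun k => ?_⟩
    have : {K : NonemptyCompacts Z | K ∈ (∅ : Set (NonemptyCompacts Z)) ∧ IsConnected (K : Set Z)} = ∅ := by
      ext K
      simp
    rw [this]
    exact md_empty _ _
  · rintro s t hst ⟨C, hC⟩
    refine ⟨C, hC.mono fun k hk => (md_mono _ _ _ _ ?_ ?_).trans hk⟩
    · rintro K ⟨hK, hc⟩
      exact ⟨hst hK, hc⟩
    · exact fun K _ => exists_hit hN k K
  · rintro s t ⟨C, hC⟩ ⟨C', hC'⟩
    refine ⟨C + C', (hC.and hC').mono ?_⟩
    rintro k ⟨hk, hk'⟩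
    have hu : {K : NonemptyCompacts Z | K ∈ s ∪ t ∧ IsConnected (K : Set Z)} =
        {K : NonemptyCompacts Z | K ∈ s ∧ IsConnected (K : Set Z)} ∪
        {K : NonemptyCompacts Z | K ∈ t ∧ IsConnected (K : Set Z)} := by
      ext K
      simp only [mem_union, mem_ofPred_eq]
      tauto
    rw [hu]
    exact (md_union _ _ _ _ (fun K _ => exists_hit hN k K) (fun K _ => exists_hit hN k K)).trans
      (add_le_add hk hk')
  · intro K hK
    have hKB : K ∉ leafB N U := fun h => Set.disjoint_left.1 hd hK h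
    simp only [leafB, mem_ofPred_eq, not_forall] at hKB
    obtain ⟨ε, hε, A, hA⟩ := hKB
    rw [← Ultrafilter.eventually_not] at hA
    refine ⟨ball K ε, mem_nhdsWithin_of_mem_nhds (ball_mem_nhds K hε), A, hA.mono fun k hk => ?_⟩
    refine (md_mono _ _ _ _ ?_ ?_).trans (not_le.1 hk).le
    · rintro K' ⟨hK', hc⟩
      exact ⟨hc, hK'⟩
    · exact fun K _ => exists_hit hN k K

/-- Key lemma (abstract form): `n` flows of energy `≤ η` with `n * n * η < 1` contain leaves which pairwise
share no cell. -/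
theorem exists_select {α β : Type*} (V : Finset β) (hit : β → α → Prop) (n : ℕ) (μ : Fin n → Flow α)
    (η : ℝ) (hη : ∀ i, energy V ((μ i).mass hit) ≤ η) (hn : (n : ℝ) * n * η < 1) :
    ∃ K : Fin n → α, (∀ i, K i ∈ (μ i).supp) ∧
      ∀ i j, i ≠ j → ∀ v ∈ V, hit v (K i) → ¬ hit v (K j) := by
  by_contra hcon
  push Not at hcon
  -- total mass one
  have htot : ∑ f ∈ Fintype.piFinset (fun i => (μ i).supp), ∏ i, (μ i).w (f i) = 1 := by
    rw [← Finset.prod_univ_sum]
    simp [(μ _).sum_one]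
  -- two-fold marginals
  have hmarg : ∀ (a b : Fin n), a ≠ b → ∀ v, ∑ f ∈ Fintype.piFinset (fun i => (μ i).supp),
      (∏ i, (μ i).w (f i)) * ((if hit v (f a) then 1 else 0) * (if hit v (f b) then 1 else 0)) =
      (μ a).mass hit v * (μ b).mass hit v := by
    intro a b hab v
    have h1 : ∀ f : Fin n → α,
        (∏ i, (μ i).w (f i)) * ((if hit v (f a) then 1 else 0) * (if hit v (f b) then 1 else 0)) =
        ∏ i, ((μ i).w (f i) * (if i = a ∨ i = b then (if hit v (f i) then 1 else 0) else 1)) := by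
      intro f
      rw [Finset.prod_mul_distrib]
      congr 1
      rw [Finset.prod_eq_mul a b hab]
      · simp
      · rintro c - ⟨hca, hcb⟩
        simp [hca, hcb]
      · simp
      · simp
    rw [Finset.sum_congr rfl fun f _ => h1 f]
    rw [← Finset.prod_univ_sum (t := fun i => (μ i).supp)
      (f := fun i K => (μ i).w K * (if i = a ∨ i = b then (if hit v K then 1 else 0) else 1))]
    rw [Finset.prod_eq_mul a b hab]
    · simp [Flow.mass, Finset.sum_filter]
    · rintro c - ⟨hca, hcb⟩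
      simp [hca, hcb, (μ c).sum_one]
    · simp
    · simp
  -- every choice has a bad pair
  have hbad : ∀ f ∈ Fintype.piFinset (fun i => (μ i).supp), ∏ i, (μ i).w (f i) ≤
      ∑ a : Fin n, ∑ b : Fin n, if a ≠ b then ∑ v ∈ V,
        (∏ i, (μ i).w (f i)) * ((if hit v (f a) then 1 else 0) * (if hit v (f b) then 1 else 0)) else 0 := by
    intro f hf
    have hf' := Fintype.mem_piFinset.1 hf
    have hpos : 0 ≤ ∏ i, (μ i).w (f i) := Finset.prod_nonneg fun i _ => ((μ i).pos _ (hf' i)).le
    obtain ⟨a, b, hab, v, hv, hva, hvb⟩ := hcon f hf'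
    have hnn : ∀ a b : Fin n, 0 ≤ (if a ≠ b then ∑ v ∈ V,
        (∏ i, (μ i).w (f i)) * ((if hit v (f a) then (1 : ℝ) else 0) * (if hit v (f b) then 1 else 0))
        else 0) := by
      intro a b
      split_ifs
      · refine Finset.sum_nonneg fun v _ => mul_nonneg hpos (mul_nonneg ?_ ?_) <;> split_ifs <;> norm_num
      · exact le_rfl
    refine le_trans ?_ (Finset.single_le_sum (f := fun a => ∑ b : Fin n, (if a ≠ b then ∑ v ∈ V,
        (∏ i, (μ i).w (f i)) * ((if hit v (f a) then (1 : ℝ) else 0) * (if hit v (f b) then 1 else 0))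
        else 0)) (fun a _ => Finset.sum_nonneg fun b _ => hnn a b) (Finset.mem_univ a))
    refine le_trans ?_ (Finset.single_le_sum (f := fun b => (if a ≠ b then ∑ v ∈ V,
        (∏ i, (μ i).w (f i)) * ((if hit v (f a) then (1 : ℝ) else 0) * (if hit v (f b) then 1 else 0))
        else 0)) (fun b _ => hnn a b) (Finset.mem_univ b))
    rw [if_pos hab]
    refine le_trans ?_ (Finset.single_le_sum (f := fun v => (∏ i, (μ i).w (f i)) *
      ((if hit v (f a) then (1 : ℝ) else 0) * (if hit v (f b) then 1 else 0)))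
      (fun v _ => mul_nonneg hpos (mul_nonneg (by split_ifs <;> norm_num) (by split_ifs <;> norm_num))) hv)
    simp [hva, hvb]
  have hsum : (1 : ℝ) ≤ ∑ a : Fin n, ∑ b : Fin n, if a ≠ b then ∑ v ∈ V,
      (μ a).mass hit v * (μ b).mass hit v else 0 := by
    calc (1 : ℝ) = ∑ f ∈ Fintype.piFinset (fun i => (μ i).supp), ∏ i, (μ i).w (f i) := htot.symm
      _ ≤ ∑ f ∈ Fintype.piFinset (fun i => (μ i).supp), ∑ a : Fin n, ∑ b : Fin n, if a ≠ b then ∑ v ∈ V,
        (∏ i, (μ i).w (f i)) * ((if hit v (f a) then 1 else 0) * (if hit v (f b) then 1 else 0)) else 0 :=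
          Finset.sum_le_sum hbad
      _ = ∑ a : Fin n, ∑ b : Fin n, if a ≠ b then ∑ v ∈ V,
      (μ a).mass hit v * (μ b).mass hit v else 0 := by
          rw [Finset.sum_comm]
          refine Finset.sum_congr rfl fun a _ => ?_
          rw [Finset.sum_comm]
          refine Finset.sum_congr rfl fun b _ => ?_
          by_cases hab : a ≠ b
          · simp only [if_pos hab]
            rw [Finset.sum_comm]
            exact Finset.sum_congr rfl fun v _ => hmarg a b hab v
          · simp [if_neg hab]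
  have hle : ∀ a b : Fin n, (if a ≠ b then ∑ v ∈ V, (μ a).mass hit v * (μ b).mass hit v else 0) ≤ η := by
    intro a b
    have h0 : 0 ≤ η := (energy_nonneg V _).trans (hη a)
    split_ifs with hab
    · have h1 : ∑ v ∈ V, (μ a).mass hit v * (μ b).mass hit v ≤
          ∑ v ∈ V, (((μ a).mass hit v) ^ 2 + ((μ b).mass hit v) ^ 2) / 2 := by
        refine Finset.sum_le_sum fun v _ => ?_
        nlinarith [sq_nonneg ((μ a).mass hit v - (μ b).mass hit v)]
      rw [← Finset.sum_div, Finset.sum_add_distrib] at h1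
      have h2 := hη a
      have h3 := hη b
      simp only [energy] at h2 h3
      linarith
    · exact h0
  have : (1 : ℝ) ≤ n * n * η := by
    refine hsum.trans ?_
    calc (∑ a : Fin n, ∑ b : Fin n, if a ≠ b then ∑ v ∈ V,
      (μ a).mass hit v * (μ b).mass hit v else 0) ≤ ∑ _a : Fin n, ∑ _b : Fin n, η :=
          Finset.sum_le_sum fun a _ => Finset.sum_le_sum fun b _ => hle a b
      _ = n * n * η := by
          simp [Finset.sum_const, mul_assoc]
  linarith

/-- (A2) finitely many limit leaves can be perturbed to pairwise disjoint continua. -/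
theorem leafB_perturb {N : ℕ → Finset Z} (hN : IsNet N) (U : Ultrafilter ℕ) (n : ℕ)
    (K : Fin n → NonemptyCompacts Z) (hK : ∀ i, K i ∈ leafB N U) (ε : ℝ) (hε : 0 < ε) :
    ∃ K' : Fin n → NonemptyCompacts Z, (∀ i, IsConnected (K' i : Set Z)) ∧
      (∀ i, dist (K' i) (K i) < ε) ∧ ∀ i j, i ≠ j → Disjoint (K' i : Set Z) (K' j : Set Z) := by
  set A : ℝ := n * n + 1 with hA
  have hApos : 0 < A := by positivity
  have hev : ∀ᶠ k in (U : Filter ℕ), ∀ i, A ≤ md (N k) (hit k)
      {K' | IsConnected (K' : Set Z) ∧ dist K' (K i) < ε} :=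
    eventually_all.2 fun i => hK i ε hε A
  obtain ⟨k, hk⟩ := hev.exists
  have hne : ∀ i, {K' : NonemptyCompacts Z | IsConnected (K' : Set Z) ∧ dist K' (K i) < ε}.Nonempty := by
    intro i
    by_contra hcon
    rw [not_nonempty_iff_eq_empty] at hcon
    have := hk i
    rw [hcon] at this
    linarith [md_empty (N k) (hit k)]
  choose μ hμ hE using fun i => exists_flow (N k) (hit k) _ (hne i) (fun K _ => exists_hit hN k K)
  obtain ⟨K', hK', hdisj⟩ := exists_select (N k) (hit k) n μ (1 / A) (fun i => by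
    have h1 := hE i
    have h2 := hk i
    have h3 := energy_nonneg (N k) ((μ i).mass (hit k))
    rw [le_div_iff₀ hApos]
    calc energy (N k) ((μ i).mass (hit k)) * A ≤ energy (N k) ((μ i).mass (hit k)) * md (N k) (hit k)
          {K' | IsConnected (K' : Set Z) ∧ dist K' (K i) < ε} := mul_le_mul_of_nonneg_left h2 h3
      _ = 1 := h1) (by
    rw [mul_one_div, div_lt_one hApos, hA]
    linarith)
  refine ⟨K', fun i => (hμ i _ (hK' i)).1, fun i => (hμ i _ (hK' i)).2, fun i j hij => ?_⟩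
  rw [Set.disjoint_left]
  intro x hxi hxj
  obtain ⟨v, hv, hd⟩ := hN.cov k x
  exact hdisj i j hij v hv ⟨x, mem_closedBall.2 hd, hxi⟩ ⟨x, mem_closedBall.2 hd, hxj⟩

end LeafB

/-- ultrafilter on the record times of an unbounded sequence. -/
theorem exists_record_ultrafilter (M : ℕ → ℝ) (hM : ∀ C, ∃ k, C < M k) :
    ∃ U : Ultrafilter ℕ, (∀ᶠ k in (U : Filter ℕ), ∀ k' ≤ k, M k' ≤ M k) ∧
      (∀ C, ∀ᶠ k in (U : Filter ℕ), C < M k) ∧ ∀ n, ∀ᶠ k in (U : Filter ℕ), n ≤ k := by
  set F : Filter ℕ := 𝓟 {k | ∀ k' ≤ k, M k' ≤ M k} ⊓ comap M atTop with hF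
  have hne : F.NeBot := by
    rw [hF, inf_comm, inf_principal_neBot_iff]
    intro s hs
    rw [mem_comap] at hs
    obtain ⟨t, ht, hts⟩ := hs
    obtain ⟨C, hC⟩ := mem_atTop_sets.1 ht
    obtain ⟨k0, hk0⟩ := hM C
    obtain ⟨k, hk, hmax⟩ := (Finset.range (k0 + 1)).exists_max_image M ⟨0, by simp⟩
    refine ⟨k, hts (hC _ ?_), ?_⟩
    · exact hk0.le.trans (hmax k0 (by simp))
    · intro k' hk'
      refine hmax k' ?_
      rw [Finset.mem_range] at hk ⊢
      omega
  have hle : (Ultrafilter.of F : Filter ℕ) ≤ F := Ultrafilter.of_le F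
  have h1 : ∀ᶠ k in (Ultrafilter.of F : Filter ℕ), ∀ k' ≤ k, M k' ≤ M k := by
    have : ∀ᶠ k in F, ∀ k' ≤ k, M k' ≤ M k := mem_inf_of_left (mem_principal_self _)
    exact hle this
  have h2 : ∀ C, ∀ᶠ k in (Ultrafilter.of F : Filter ℕ), C < M k := by
    intro C
    have : ∀ᶠ k in F, C < M k := mem_inf_of_right (preimage_mem_comap (Ioi_mem_atTop C))
    exact hle this
  refine ⟨Ultrafilter.of F, h1, h2, fun n => ?_⟩
  induction n with
  | zero => exact Eventually.of_forall fun k => Nat.zero_le k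
  | succ n ih =>
    filter_upwards [ih, h2 (M n)] with k hk hk'
    rcases eq_or_lt_of_le hk with h | h
    · rw [← h] at hk'
      exact absurd hk' (lt_irrefl _)
    · exact h

section Inv

variable {G Z : Type*} [Group G] [MetricSpace Z] [MulAction G Z]

theorem lipschitz_smul (q : QM G Z) (g : G) (a b : Z) :
    dist (g • a) (g • b) ≤ q.C / q.s g * dist a b := by
  have hs := q.s_pos g
  have h1 := q.q1_upper g a b
  have h2 : q.s g ≤ max (q.s g) (dist a (q.ζ g)) := le_max_left _ _
  have h3 : q.s g ≤ max (q.s g) (dist b (q.ζ g)) := le_max_left _ _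
  have h4 : q.s g * q.s g ≤ max (q.s g) (dist a (q.ζ g)) * max (q.s g) (dist b (q.ζ g)) :=
    mul_le_mul h2 h3 hs.le (hs.le.trans h2)
  have h5 : dist (g • a) (g • b) * (q.s g * q.s g) ≤ q.C * (q.s g * dist a b) :=
    (mul_le_mul_of_nonneg_left h4 dist_nonneg).trans h1
  have h6 : (dist (g • a) (g • b) * q.s g) * q.s g ≤ (q.C * dist a b) * q.s g := by
    calc (dist (g • a) (g • b) * q.s g) * q.s g = dist (g • a) (g • b) * (q.s g * q.s g) := by ring
      _ ≤ q.C * (q.s g * dist a b) := h5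
      _ = (q.C * dist a b) * q.s g := by ring
  have h7 := le_of_mul_le_mul_right h6 hs
  rw [div_mul_eq_mul_div, le_div_iff₀ hs]
  exact h7

/-- invariance of the limit leaves, given comparability of moduli under `g`. -/
theorem leafB_inv_aux (q : QM G Z) {N : ℕ → Finset Z} (_hN : IsNet N) (U : Ultrafilter ℕ) (g : G)
    (hg : ∃ C : ℝ, 0 < C ∧ ∀ (k : ℕ) (F F' : Set (NonemptyCompacts Z)),
      (∀ K ∈ F, ∃ K' ∈ F', (K' : Set Z) = (fun x => g • x) '' K) →
      md (N k) (hit k) F ≤ C * md (N k) (hit k) F')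
    (K : NonemptyCompacts Z) (hK : K ∈ leafB N U) (K' : NonemptyCompacts Z)
    (h : (K' : Set Z) = (fun x => g • x) '' K) : K' ∈ leafB N U := by
  obtain ⟨C, hC, hcmp⟩ := hg
  have hs := q.s_pos g
  set L : ℝ := q.C / q.s g with hL
  have hLpos : 0 < L := div_pos (by linarith [q.one_le_C]) hs
  have hlip := lipschitz_smul q g
  have hcont : Continuous (fun x : Z => g • x) := by
    have : LipschitzWith L.toNNReal (fun x : Z => g • x) := LipschitzWith.of_dist_le_mul fun a b => by
      rw [Real.coe_toNNReal _ hLpos.le]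
      exact hlip a b
    exact this.continuous
  intro ε hε A
  have hδ : 0 < ε / (2 * L) := by positivity
  filter_upwards [hK (ε / (2 * L)) hδ (C * A)] with k hk
  have h1 := hcmp k {K₁ | IsConnected (K₁ : Set Z) ∧ dist K₁ K < ε / (2 * L)}
    {K₁ | IsConnected (K₁ : Set Z) ∧ dist K₁ K' < ε} (by
      rintro K₁ ⟨hc, hd⟩
      refine ⟨⟨⟨(fun x => g • x) '' K₁, K₁.isCompact.image hcont⟩, K₁.nonempty.image _⟩, ⟨?_, ?_⟩, rfl⟩
      · exact hc.image _ hcont.continuousOn
      · refine lt_of_le_of_lt (dist_lt_of_forall (r := ε / 2) (by positivity) ?_ ?_) (by linarith)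
        · rintro _ ⟨x, hx, rfl⟩
          obtain ⟨y, hy, hxy⟩ := exists_dist_lt_of_dist_lt hd hx
          refine ⟨g • y, by rw [h]; exact ⟨y, hy, rfl⟩, (hlip x y).trans ?_⟩
          calc L * dist x y ≤ L * (ε / (2 * L)) := mul_le_mul_of_nonneg_left hxy.le hLpos.le
            _ = ε / 2 := by field_simp
        · intro y hy
          rw [h] at hy
          obtain ⟨x, hx, rfl⟩ := hy
          obtain ⟨z, hz, hxz⟩ := exists_dist_lt_of_dist_lt (by rwa [dist_comm]) hx
          refine ⟨g • z, ⟨z, hz, rfl⟩, (hlip x z).trans ?_⟩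
          calc L * dist x z ≤ L * (ε / (2 * L)) := mul_le_mul_of_nonneg_left hxz.le hLpos.le
            _ = ε / 2 := by field_simp)
  exact le_of_mul_le_mul_left (hk.trans h1) hC

end Inv

end P198Q
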