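import Vale.Agent.P198.Q.LeafM
import Vale.Agent.P198.Q.Doubling
import Vale.Agent.P198.Q.ZoomMod

/-!
# P198, blocks A1-A3: leaf families exist as soon as the moduli are unbounded
-/

open Metric Set TopologicalSpace
open scoped Classical

namespace P198Q

theorem exists_leafFamily {G Z : Type*} [Group G] [MetricSpace Z] [MulAction G Z] [CompactSpace Z]
    (q : QM G Z) (N : ℕ → Finset Z) (hN : IsNet N) (t : ℝ) (ht : 0 < t)
    (hunb : ∀ C : ℝ, ∃ k, C < md (N k) (hit k) (contDiam Z t)) :
    ∃ B t' c, LeafFamily G N B t' c :=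
  exists_leafFamily_aux q N hN (doubling q) (md_cross q N hN) (md_smul q N hN) t ht hunb

end P198Q
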