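import Vale.Agent.P198.Q.LeafB

/-!
# P198, block A3: the leaf families have modulus bounded below

The passage between diameter thresholds, the lower bound for the modulus of the leaves at every
level, and the assembly of a `LeafFamily` from unbounded moduli.
-/

open Metric Set TopologicalSpace Filter
open scoped Classical

namespace P198Q

section LeafM

variable {Z : Type*} [MetricSpace Z]

private theorem sc_pos' (k : ℕ) : 0 < sc k := by unfold sc; positivity

private theorem sc_anti' {i k : ℕ} (h : i ≤ k) : sc k ≤ sc i := by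
  unfold sc
  exact pow_le_pow_of_le_one (by norm_num) (by norm_num) h

private theorem exists_sc_lt' (ε : ℝ) (hε : 0 < ε) : ∃ i₁ : ℕ, ∀ i, i₁ ≤ i → sc i < ε := by
  obtain ⟨n, hn⟩ := exists_pow_lt_of_lt_one hε (by norm_num : (1 / 2 : ℝ) < 1)
  exact ⟨n, fun i hi => (sc_anti' hi).trans_lt hn⟩

/-- the conclusion of `md_cross` for the threshold `t₀`. -/
def CrossBd (N : ℕ → Finset Z) (t₀ : ℝ) : Prop :=
  ∀ R : ℝ, 1 ≤ R → ∃ C : ℝ, 0 < C ∧ ∀ (i k : ℕ) (v : Z), i ≤ k → R * sc i ≤ 1 →
      md ((N k).filter (fun w => dist w v ≤ 3 * R * sc i)) (hit k)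
        {K | IsConnected (K : Set Z) ∧ (∃ x ∈ (K : Set Z), dist x v ≤ R * sc i) ∧
          ∃ y ∈ (K : Set Z), 2 * R * sc i ≤ dist y v}
        ≤ C * md (N (k - i)) (hit (k - i)) (contDiam Z t₀)

/-- composition (M4) with the local weights given by the zoom estimate (M6). -/
theorem comp_local {N : ℕ → Finset Z} (hN : IsNet N) {D : ℝ → ℝ} {Q : ℕ} (hD : Doubling Z D Q)
    {t₀ : ℝ} (hX : CrossBd N t₀) (R : ℝ) (hR : 1 ≤ R) :
    ∃ C : ℝ, 0 < C ∧ ∀ i k : ℕ, i ≤ k → R * sc i ≤ 1 → ∀ F : Set (NonemptyCompacts Z),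
      (∀ K ∈ F, IsConnected (K : Set Z)) →
      (∀ K ∈ F, ∀ v ∈ N i, hitB (R * sc i) v K → ∃ y ∈ (K : Set Z), 2 * R * sc i ≤ dist y v) →
      md (N k) (hit k) F ≤
        C * md (N (k - i)) (hit (k - i)) (contDiam Z t₀) * md (N i) (hitB (R * sc i)) F := by
  obtain ⟨C₁, hC₁, hX⟩ := hX R hR
  refine ⟨(⌈D (3 * R)⌉₊ + 1) * C₁, by positivity, fun i k hik hRi F hF hfar => ?_⟩
  set M := md (N (k - i)) (hit (k - i)) (contDiam Z t₀) with hM
  have hloc : ∀ v : Z, ∀ K ∈ {K : NonemptyCompacts Z | IsConnected (K : Set Z) ∧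
      (∃ x ∈ (K : Set Z), dist x v ≤ R * sc i) ∧ ∃ y ∈ (K : Set Z), 2 * R * sc i ≤ dist y v},
      ∃ w ∈ (N k).filter (fun w => dist w v ≤ 3 * R * sc i), hit k w K := by
    rintro v K ⟨-, ⟨x, hx, hxv⟩, -⟩
    obtain ⟨w, hw, hd⟩ := hN.cov k x
    refine ⟨w, Finset.mem_filter.2 ⟨hw, ?_⟩, x, mem_closedBall.2 hd, hx⟩
    have h1 : dist w v ≤ dist x w + dist x v := by
      rw [dist_comm x w]; exact dist_triangle _ _ _
    have h2 : sc k ≤ sc i := sc_anti' hik
    have h3 := sc_pos' i
    nlinarith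
  choose ρ hρ hρe using fun v : Z => exists_adm _ _ _ (hloc v)
  have hmain := md_comp (N i) (hitB (R * sc i)) (N k) (hit k) F (by
      intro K _
      obtain ⟨v, hv, hh⟩ := exists_hit hN i K
      refine ⟨v, hv, hh.mono (inter_subset_inter_left _ (closedBall_subset_closedBall ?_))⟩
      have := sc_pos' i
      nlinarith)
    (fun v w => if dist w v ≤ 3 * R * sc i then ρ v w else 0) (C₁ * M) (⌈D (3 * R)⌉₊)
    (fun v w => by
      split_ifs
      · exact (hρ v).1 w
      · exact le_rfl)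
    (by
      intro v hv K hK hh
      have hKm : K ∈ {K : NonemptyCompacts Z | IsConnected (K : Set Z) ∧
          (∃ x ∈ (K : Set Z), dist x v ≤ R * sc i) ∧ ∃ y ∈ (K : Set Z), 2 * R * sc i ≤ dist y v} := by
        refine ⟨hF K hK, ?_, hfar K hK v hv hh⟩
        obtain ⟨x, hx1, hx2⟩ := hh
        exact ⟨x, hx2, mem_closedBall.1 hx1⟩
      have h1 := (hρ v).2 K hKm
      refine h1.trans (le_of_eq ?_)
      unfold len
      rw [Finset.filter_filter, Finset.sum_filter, Finset.sum_filter]
      refine Finset.sum_congr rfl fun w _ => ?_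
      by_cases ha : dist w v ≤ 3 * R * sc i <;> by_cases hb : hit k w K <;> simp [ha, hb])
    (by
      intro v _
      have h1 := hX i k v hik hRi
      rw [← hρe v] at h1
      refine le_trans (le_of_eq ?_) h1
      unfold energy
      rw [Finset.sum_filter]
      refine Finset.sum_congr rfl fun w _ => ?_
      by_cases ha : dist w v ≤ 3 * R * sc i <;> simp [ha])
    (by
      intro w _
      have hsub : ((N i).filter (fun v => (if dist w v ≤ 3 * R * sc i then ρ v w else 0) ≠ 0)) ⊆
          (N i).filter (fun v => dist v w ≤ 3 * R * sc i) := by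
        intro v hv
        rw [Finset.mem_filter] at hv ⊢
        refine ⟨hv.1, ?_⟩
        by_contra hcon
        rw [dist_comm] at hcon
        exact hv.2 (if_neg hcon)
      refine (Finset.card_le_card hsub).trans ?_
      have h1 := hD (3 * R) i 0 w ((N i).filter (fun v => dist v w ≤ 3 * R * sc i)) (by linarith)
        (fun a ha => (Finset.mem_filter.1 ha).2)
        (fun a ha b hb hab => by
          rw [add_zero]
          exact hN.sep i a (Finset.mem_filter.1 ha).1 b (Finset.mem_filter.1 hb).1 hab)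
      rw [mul_zero, pow_zero, mul_one] at h1
      have h2 := h1.trans (Nat.le_ceil (D (3 * R)))
      exact_mod_cast h2)
  refine hmain.trans ?_
  have hm1 : 0 ≤ md (N i) (hitB (R * sc i)) F := md_nonneg _ _ _
  have hm2 : 0 ≤ M := md_nonneg _ _ _
  refine mul_le_mul_of_nonneg_right ?_ hm1
  have : (0 : ℝ) ≤ C₁ * M := by positivity
  nlinarith

/-- a nonempty family has positive modulus. -/
theorem md_pos {α β : Type*} (V : Finset β) (hit : β → α → Prop) (F : Set α)
    (hF : ∀ K ∈ F, ∃ v ∈ V, hit v K) (hne : F.Nonempty) : 0 < md V hit F := by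
  obtain ⟨K, hK⟩ := hne
  let μ : Flow α := ⟨{K}, fun _ => 1, fun _ _ => one_pos, by simp⟩
  have h := one_le_energy_mul_md V hit F hF μ (fun K' hK' => by
    have : K' = K := by simpa [μ] using hK'
    rwa [this])
  have h0 := md_nonneg V hit F
  rcases h0.eq_or_lt with h1 | h1
  · rw [← h1] at h; norm_num at h
  · exact h1

/-- passage between thresholds: unboundedness for one threshold implies unboundedness for `t₀`. -/
theorem unbounded_of_unbounded {N : ℕ → Finset Z} (hN : IsNet N) {D : ℝ → ℝ} {Q : ℕ}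
    (hD : Doubling Z D Q) {t₀ : ℝ} (hX : CrossBd N t₀) (t : ℝ) (ht : 0 < t)
    (hunb : ∀ C : ℝ, ∃ k, C < md (N k) (hit k) (contDiam Z t)) :
    ∀ C : ℝ, ∃ k, C < md (N k) (hit k) (contDiam Z t₀) := by
  intro C₀
  by_contra hcon
  push Not at hcon
  obtain ⟨C, hC, hcl⟩ := comp_local hN hD hX 1 le_rfl
  obtain ⟨i, hi⟩ := exists_sc_lt' (min 1 (t / 4)) (lt_min one_pos (by linarith))
  have hi1 : sc i < 1 := (hi i le_rfl).trans_le (min_le_left _ _)
  have hi2 : sc i < t / 4 := (hi i le_rfl).trans_le (min_le_right _ _)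
  have hsi := sc_pos' i
  have hbd : ∀ k, i ≤ k → md (N k) (hit k) (contDiam Z t) ≤ C * |C₀| * (N i).card := by
    intro k hik
    have h1 := hcl i k hik (by linarith) (contDiam Z t) (fun K hK => hK.1) (by
      intro K hK v _ _
      by_contra hfar
      push Not at hfar
      have hdiam : diam (K : Set Z) ≤ 2 * (2 * sc i) := by
        refine diam_le_of_forall_dist_le (by linarith) fun x hx y hy => ?_
        have hx1 := hfar x hx
        have hy1 := hfar y hy
        have := dist_triangle_right x y v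
        linarith
      have := hK.2
      linarith)
    refine h1.trans ?_
    have h2 : md (N (k - i)) (hit (k - i)) (contDiam Z t₀) ≤ |C₀| := (hcon (k - i)).trans (le_abs_self _)
    have h3 : md (N i) (hitB (1 * sc i)) (contDiam Z t) ≤ (N i).card :=
      md_le_card _ _ _ fun K _ => by
        obtain ⟨v, hv, hh⟩ := exists_hit hN i K
        exact ⟨v, hv, by rw [one_mul]; exact hh⟩
    have h4 : 0 ≤ md (N i) (hitB (1 * sc i)) (contDiam Z t) := md_nonneg _ _ _
    exact mul_le_mul (mul_le_mul_of_nonneg_left h2 hC.le) h3 h4 (by positivity)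
  obtain ⟨k, hk⟩ := hunb (C * |C₀| * (N i).card + ∑ k' ∈ Finset.range i, ((N k').card : ℝ))
  have hsum : (0 : ℝ) ≤ ∑ k' ∈ Finset.range i, ((N k').card : ℝ) :=
    Finset.sum_nonneg fun _ _ => Nat.cast_nonneg _
  by_cases hik : i ≤ k
  · have := hbd k hik
    linarith
  · push Not at hik
    have h1 : md (N k) (hit k) (contDiam Z t) ≤ (N k).card :=
      md_le_card _ _ _ fun K _ => exists_hit hN k K
    have h2 : ((N k).card : ℝ) ≤ ∑ k' ∈ Finset.range i, ((N k').card : ℝ) :=
      Finset.single_le_sum (f := fun k' => ((N k').card : ℝ)) (fun _ _ => Nat.cast_nonneg _)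
        (Finset.mem_range.2 hik)
    have h3 : 0 ≤ C * |C₀| * (N i).card := by positivity
    linarith

/-- (A3) lower bound for the modulus of the leaves, from the boundedness of the modulus of compact
families without leaves. -/
theorem leaf_md_ge [CompactSpace Z] {N : ℕ → Finset Z} (hN : IsNet N) {D : ℝ → ℝ} {Q : ℕ}
    (hD : Doubling Z D Q) {t₀ : ℝ} (ht₀ : 0 < t₀) (hX : CrossBd N t₀) (U : Ultrafilter ℕ)
    (hU1 : ∀ C : ℝ, ∀ᶠ k in (U : Filter ℕ), C < md (N k) (hit k) (contDiam Z t₀))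
    (hU2 : ∀ᶠ k in (U : Filter ℕ), ∀ k' ≤ k,
      md (N k') (hit k') (contDiam Z t₀) ≤ md (N k) (hit k) (contDiam Z t₀))
    (hU3 : ∀ i : ℕ, ∀ᶠ k in (U : Filter ℕ), i ≤ k)
    (B : Set (NonemptyCompacts Z))
    (hB : ∀ X : Set (NonemptyCompacts Z), IsCompact X → (∀ K ∈ X, K ∉ B) →
      ∃ A : ℝ, ∀ᶠ k in (U : Filter ℕ), md (N k) (hit k) {K | K ∈ X ∧ IsConnected (K : Set Z)} ≤ A) :
    ∃ c : ℝ, 0 < c ∧ ∀ k, c ≤ md (N k) (hit k) (big B t₀) := by
  obtain ⟨C, hC, hcl⟩ := comp_local hN hD hX 2 one_le_two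
  -- the bound at large levels
  have hlarge : ∀ i : ℕ, sc i < min (1 / 2) (t₀ / 8) →
      1 / (2 * C) ≤ md (N i) (hit i) (big B t₀) := by
    intro i hi
    by_contra hcon
    push Not at hcon
    have hi1 : sc i < 1 / 2 := hi.trans_le (min_le_left _ _)
    have hi2 : sc i < t₀ / 8 := hi.trans_le (min_le_right _ _)
    have hsi := sc_pos' i
    let X : Set (NonemptyCompacts Z) := contDiam Z t₀ ∩ ⋂ L ∈ big B t₀, {K | sc i ≤ dist K L}
    let F : Set (NonemptyCompacts Z) := {K | K ∈ contDiam Z t₀ ∧ ∃ L ∈ big B t₀, dist K L < sc i}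
    have hXc : IsCompact X := by
      refine (isCompact_contDiam t₀).inter_right ?_
      refine isClosed_biInter fun L _ => ?_
      exact isClosed_le continuous_const (continuous_id.dist continuous_const)
    have hXB : ∀ K ∈ X, K ∉ B := by
      rintro K ⟨hK1, hK2⟩ hKB
      rw [mem_iInter₂] at hK2
      have h : sc i ≤ dist K K := hK2 K ⟨hKB, hK1.2⟩
      rw [dist_self] at h
      linarith
    obtain ⟨A, hA⟩ := hB X hXc hXB
    -- modulus of `F` at level `i`
    have hFi : md (N i) (hitB (2 * sc i)) F ≤ md (N i) (hit i) (big B t₀) := by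
      obtain ⟨ρ, hρ, he⟩ := exists_adm (N i) (hit i) (big B t₀) (fun K _ => exists_hit hN i K)
      rw [← he]
      refine md_le _ _ _ _ ⟨hρ.1, ?_⟩
      rintro K ⟨-, L, hL, hKL⟩
      refine (hρ.2 L hL).trans ?_
      unfold len
      refine Finset.sum_le_sum_of_subset_of_nonneg ?_ (fun v _ _ => hρ.1 v)
      intro v hv
      rw [Finset.mem_filter] at hv ⊢
      refine ⟨hv.1, ?_⟩
      obtain ⟨x, hx1, hx2⟩ := hv.2
      rw [dist_comm] at hKL
      obtain ⟨y, hy, hxy⟩ := exists_dist_lt_of_dist_lt hKL hx2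
      refine ⟨y, mem_closedBall.2 ?_, hy⟩
      rw [mem_closedBall] at hx1
      have := dist_triangle_left y v x
      linarith
    -- the estimate for `U`-most levels
    have hev : ∀ᶠ k in (U : Filter ℕ), md (N k) (hit k) (contDiam Z t₀) ≤ 2 * A := by
      filter_upwards [hA, hU2, hU3 i] with k hkA hk2 hik
      have hsub : contDiam Z t₀ ⊆ F ∪ {K | K ∈ X ∧ IsConnected (K : Set Z)} := by
        intro K hK
        by_cases hL : ∃ L ∈ big B t₀, dist K L < sc i
        · exact Or.inl ⟨hK, hL⟩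
        · push Not at hL
          refine Or.inr ⟨⟨hK, ?_⟩, hK.1⟩
          rw [mem_iInter₂]
          exact fun L hL' => hL L hL'
      have h1 := md_mono (N k) (hit k) _ _ hsub (fun K _ => exists_hit hN k K)
      have h2 := md_union (N k) (hit k) F {K | K ∈ X ∧ IsConnected (K : Set Z)}
        (fun K _ => exists_hit hN k K) (fun K _ => exists_hit hN k K)
      have h3 := hcl i k hik (by linarith) F (fun K hK => hK.1.1) (by
        intro K hK v _ _
        by_contra hfar
        push Not at hfar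
        have hdiam : diam (K : Set Z) ≤ 2 * (2 * 2 * sc i) := by
          refine diam_le_of_forall_dist_le (by linarith) fun x hx y hy => ?_
          have hx1 := hfar x hx
          have hy1 := hfar y hy
          have := dist_triangle_right x y v
          linarith
        have := hK.1.2
        linarith)
      have h4 : md (N (k - i)) (hit (k - i)) (contDiam Z t₀) ≤ md (N k) (hit k) (contDiam Z t₀) :=
        hk2 _ (Nat.sub_le _ _)
      have h5 : 0 ≤ md (N i) (hitB (2 * sc i)) F := md_nonneg _ _ _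
      have h6 : 0 ≤ md (N (k - i)) (hit (k - i)) (contDiam Z t₀) := md_nonneg _ _ _
      have h7 : C * md (N (k - i)) (hit (k - i)) (contDiam Z t₀) * md (N i) (hitB (2 * sc i)) F ≤
          C * md (N k) (hit k) (contDiam Z t₀) * (1 / (2 * C)) :=
        mul_le_mul (mul_le_mul_of_nonneg_left h4 hC.le) (hFi.trans hcon.le) h5
          (mul_nonneg hC.le (h6.trans h4))
      have h8 : C * md (N k) (hit k) (contDiam Z t₀) * (1 / (2 * C)) =
          md (N k) (hit k) (contDiam Z t₀) / 2 := by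
        field_simp
      linarith
    obtain ⟨k, hk1, hk2⟩ := (hev.and (hU1 (2 * A))).exists
    linarith
  obtain ⟨i₁, hi₁⟩ := exists_sc_lt' (min (1 / 2) (t₀ / 8)) (lt_min (by norm_num) (by linarith))
  have hne : (big B t₀).Nonempty := by
    by_contra hcon
    rw [not_nonempty_iff_eq_empty] at hcon
    have h1 := hlarge i₁ (hi₁ i₁ le_rfl)
    have h2 : md (N i₁) (hit i₁) (big B t₀) ≤ 0 := by
      refine (md_le _ _ _ (fun _ => 0) ⟨fun _ => le_rfl, ?_⟩).trans (by simp [energy])
      intro K hK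
      rw [hcon] at hK
      exact hK.elim
    have h3 : 0 < 1 / (2 * C) := by positivity
    linarith
  have hpos : ∀ k, 0 < md (N k) (hit k) (big B t₀) := fun k =>
    md_pos _ _ _ (fun K _ => exists_hit hN k K) hne
  -- finitely many small levels
  have hfin : ∃ c : ℝ, 0 < c ∧ ∀ k < i₁, c ≤ md (N k) (hit k) (big B t₀) := by
    clear hi₁
    induction i₁ with
    | zero => exact ⟨1, one_pos, fun k hk => absurd hk (Nat.not_lt_zero k)⟩
    | succ n ih =>
      obtain ⟨c, hc, h⟩ := ih
      refine ⟨min c (md (N n) (hit n) (big B t₀)), lt_min hc (hpos n), fun k hk => ?_⟩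
      rcases (Nat.lt_succ_iff.1 hk).lt_or_eq with h1 | h1
      · exact (min_le_left _ _).trans (h k h1)
      · rw [h1]; exact min_le_right _ _
  obtain ⟨c, hc, hcs⟩ := hfin
  refine ⟨min c (1 / (2 * C)), lt_min hc (by positivity), fun k => ?_⟩
  by_cases hk : k < i₁
  · exact (min_le_left _ _).trans (hcs k hk)
  · exact (min_le_right _ _).trans (hlarge k (hi₁ k (not_lt.1 hk)))

end LeafM

section Assembly

/-- Blocks A1-A3 from the doubling property, the zoom estimate (M6) and the comparison (M5). -/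
theorem exists_leafFamily_aux {G Z : Type*} [Group G] [MetricSpace Z] [MulAction G Z]
    [CompactSpace Z] (q : QM G Z) (N : ℕ → Finset Z) (hN : IsNet N)
    (hD : ∃ (D : ℝ → ℝ) (Q : ℕ), (∀ R, 0 ≤ D R) ∧ Doubling Z D Q)
    (hX : ∃ t₀ : ℝ, 0 < t₀ ∧ CrossBd N t₀)
    (hsm : ∀ g : G, ∃ C : ℝ, 0 < C ∧ ∀ (k : ℕ) (F F' : Set (NonemptyCompacts Z)),
      (∀ K ∈ F, ∃ K' ∈ F', (K' : Set Z) = (fun x => g • x) '' K) →
      md (N k) (hit k) F ≤ C * md (N k) (hit k) F')
    (t : ℝ) (ht : 0 < t) (hunb : ∀ C : ℝ, ∃ k, C < md (N k) (hit k) (contDiam Z t)) :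
    ∃ B t' c, LeafFamily G N B t' c := by
  obtain ⟨D, Q, -, hD⟩ := hD
  obtain ⟨t₀, ht₀, hX⟩ := hX
  have hunb' := unbounded_of_unbounded hN hD hX t ht hunb
  obtain ⟨U, hU2, hU1, hU3⟩ :=
    exists_record_ultrafilter (fun k => md (N k) (hit k) (contDiam Z t₀)) hunb'
  obtain ⟨c, hc, hmd⟩ := leaf_md_ge hN hD ht₀ hX U hU1 hU2 hU3 (leafB N U)
    (fun X hXc hXB => leafB_cover hN U X hXc (disjoint_left.2 hXB))
  exact ⟨leafB N U, t₀, c,
    { tpos := ht₀
      cpos := hc
      conn := fun K hK => leafB_conn hK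
      inv := fun g K hK K' h => leafB_inv_aux q hN U g (hsm g) K hK K' h
      perturb := fun n K hK ε hε => leafB_perturb hN U n K hK ε hε
      md_ge := hmd }⟩

end Assembly

end P198Q
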