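import Vale.Agent.P198.Q.Defs
import Vale.Agent.P198.Planar.SphereK33

/-!
# P198, block P1: no `K_{3,3}` of continua in the unit sphere of `ℝ³`
-/

open Metric Set TopologicalSpace

namespace P198Q

theorem no_K33_sphere : ∀ (P W : Fin 3 → Set (sphere (0 : EuclideanSpace ℝ (Fin 3)) 1))
    (E : Fin 3 → Fin 3 → Set (sphere (0 : EuclideanSpace ℝ (Fin 3)) 1)), ¬ K33 P W E := by
  intro P W E h
  have hp : ∀ i, ∃ x, x ∈ P i := fun i => (h.P_conn i).nonempty
  have hw : ∀ n, ∃ x, x ∈ W n := fun n => (h.W_conn n).nonempty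
  choose p hp using hp
  choose w hw using hw
  refine P198.PlanarTop.no_weak_K33_sphere p w (fun n i => P i ∪ E n i ∪ W n) ?_ ?_ ?_ ?_ ?_
  · exact fun n i => ((h.P_compact i).union (h.E_compact n i)).union (h.W_compact n)
  · intro n i
    have h1 : IsConnected (P i ∪ E n i) := (h.P_conn i).union (by
      rw [inter_comm]; exact h.EP n i) (h.E_conn n i)
    refine (h1.union ?_ (h.W_conn n)).isPreconnected
    obtain ⟨x, hx1, hx2⟩ := h.EW n i
    exact ⟨x, Or.inr hx1, hx2⟩
  · exact fun n i => Or.inl (Or.inl (hp i))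
  · exact fun n i => Or.inr (hw n)
  · intro n i m j hnm hij
    refine Disjoint.union_left (Disjoint.union_left ?_ ?_) ?_ <;>
      refine Disjoint.union_right (Disjoint.union_right ?_ ?_) ?_
    · exact h.PP i j hij
    · exact (h.EP' m j i hij.symm).symm
    · exact h.PW i m
    · exact h.EP' n i j hij
    · exact h.EE n i m j (by simp [hnm])
    · exact h.EW' n m i hnm
    · exact (h.PW j n).symm
    · exact (h.EW' m n j hnm.symm).symm
    · exact h.WW n m hnm

end P198Q
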