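import Vale.Agent.P198.Q.LeafFam
import Vale.Agent.P198.Q.Assembly7

/-!
# P198: Theorem A, the combinatorial 2-moduli are bounded
-/

open Metric Set TopologicalSpace

namespace P198Q

theorem leafFamily_false {G Z : Type*} [Group G] [MetricSpace Z] [MulAction G Z] [CompactSpace Z]
    (q : QM G Z) (hP : Planar Z) (N : ℕ → Finset Z) (hN : IsNet N)
    (B : Set (NonemptyCompacts Z)) (t c : ℝ) (hB : LeafFamily G N B t c) : False := by
  obtain ⟨D, Q, -, hD⟩ := doubling q
  exact leafFamily_false_aux q hP N hN D Q hD B t c hB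

/-- Theorem A -/
theorem theoremA {G Z : Type*} [Group G] [MetricSpace Z] [MulAction G Z] [CompactSpace Z]
    (q : QM G Z) (hP : Planar Z) (N : ℕ → Finset Z) (hN : IsNet N) (t : ℝ) (ht : 0 < t) :
    ∃ C : ℝ, ∀ k, md (N k) (hit k) (contDiam Z t) ≤ C := by
  by_contra h
  push Not at h
  obtain ⟨B, t', c, hB⟩ := exists_leafFamily q N hN t ht h
  exact leafFamily_false q hP N hN B t' c hB

end P198Q
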